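import Vale.Agent.P106.B.Arc

/-! # Schur's test on strips and the crude kernel bound -/

open MeasureTheory Complex Set
open scoped ENNReal NNReal ContDiff FourierTransform SchwartzMap

set_option linter.all false

namespace Vale.Agent.P106

open Vale.Agent.P117 (E2 E3 Adm cv integrable_cv cv_inv_eq DB fourier_decay)

/-- point of the plane -/
noncomputable def mk2 (a b : ℝ) : E2 := !₂[a, b]

theorem measurable_mk2 : Measurable (fun p : ℝ × ℝ => mk2 p.1 p.2) := by
  unfold mk2
  apply (WithLp.measurable_toLp 2 (Fin 2 → ℝ)).comp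
  apply measurable_pi_lambda
  intro i
  fin_cases i
  · exact measurable_fst
  · exact measurable_snd

theorem lint_E2 {F : E2 → ℝ≥0∞} (hF : Measurable F) :
    ∫⁻ x, F x = ∫⁻ b : ℝ, ∫⁻ a : ℝ, F (mk2 a b) := by
  have h1 : ∫⁻ x, F x = ∫⁻ z : ℝ × ℝ, F (mk2 z.1 z.2) := by
    rw [← Vale.Agent.P117.lintegral_E2 (fun z => F (mk2 z.1 z.2))]
    refine lintegral_congr fun x => ?_
    congr 1
    ext i
    fin_cases i <;> rfl
  have h2 : Measurable (fun z : ℝ × ℝ => F (mk2 z.1 z.2)) := hF.comp measurable_mk2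
  rw [h1, Measure.volume_eq_prod, lintegral_prod_symm _ h2.aemeasurable]

/-- Schur's test for strips -/
theorem schur_strip {K : E2 → ℂ} (hK : Measurable K) {B S R : ℝ} (hB : 0 ≤ B) (hR : 0 < R) (hS : 10 * R ≤ S)
    (hb : ∀ b : ℝ, 4 / 5 * S ≤ |b| → ∫⁻ a : ℝ, ‖K (mk2 a b)‖ₑ ≤ ENNReal.ofReal (B / S))
    {f : E2 → ℂ} (hf : Measurable f) (hfs : ∀ y, f y ≠ 0 → S ≤ |y 1| ∧ |y 1| ≤ 2 * S) {p : ℝ} (hp : 1 ≤ p) :
    ∫⁻ x in {x : E2 | |x 1| ≤ 2 * R}, ‖cv K f x‖ₑ ^ p ≤
      ENNReal.ofReal ((4 * B) ^ p * (R / S)) * ∫⁻ y, ‖f y‖ₑ ^ p := by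
  have hS0 : 0 < S := by linarith
  have mx : MeasurableSet {x : E2 | |x 1| ≤ 2 * R} := (isClosed_le (by fun_prop) continuous_const).measurableSet
  have my : MeasurableSet {x : E2 | S ≤ |x 1| ∧ |x 1| ≤ 2 * S} := by
    have c : Continuous (fun x : E2 => |x 1|) := by fun_prop
    exact ((isClosed_le continuous_const c).inter (isClosed_le c continuous_const)).measurableSet
  set X : Set E2 := {x : E2 | |x 1| ≤ 2 * R} with hX
  set Y : Set E2 := {x : E2 | S ≤ |x 1| ∧ |x 1| ≤ 2 * S} with hY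
  -- the kernel in y
  have mk : ∀ x, Measurable (fun y => Y.indicator (fun y => ‖K (x - y)‖ₑ) y) := fun x =>
    ((hK.comp (measurable_id.const_sub x)).enorm).indicator my
  have far : ∀ x ∈ X, ∀ y ∈ Y, 4 / 5 * S ≤ |x 1 - y 1| := by
    intro x hx y hy
    have h1 : |x 1| ≤ 2 * R := hx
    have h2 : S ≤ |y 1| := hy.1
    have h3 := abs_sub_abs_le_abs_sub (y 1) (x 1)
    rw [abs_sub_comm] at h3
    linarith
  have A1 : ∀ x ∈ X, ∫⁻ y, Y.indicator (fun y => ‖K (x - y)‖ₑ) y ≤ ENNReal.ofReal (4 * B) := by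
    intro x hx
    rw [lint_E2 (mk x)]
    have e : ∀ b : ℝ, ∫⁻ a : ℝ, Y.indicator (fun y => ‖K (x - y)‖ₑ) (mk2 a b) ≤
        (Icc (-(2 * S)) (2 * S)).indicator (fun _ => ENNReal.ofReal (B / S)) b := by
      intro b
      by_cases hby : S ≤ |b| ∧ |b| ≤ 2 * S
      · have hm : ∀ a, mk2 a b ∈ Y := fun a => hby
        have hb2 : b ∈ Icc (-(2 * S)) (2 * S) := abs_le.1 hby.2
        rw [indicator_of_mem hb2]
        simp_rw [indicator_of_mem (hm _)]
        have e2 : ∀ a, x - mk2 a b = mk2 (x 0 - a) (x 1 - b) := by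
          intro a
          ext i
          fin_cases i <;> rfl
        simp_rw [e2]
        rw [lintegral_sub_left_eq_self (fun a => ‖K (mk2 a (x 1 - b))‖ₑ) (x 0)]
        apply hb
        exact far x hx (mk2 0 b) (hm 0)
      · have hm : ∀ a, mk2 a b ∉ Y := fun a h => hby h
        simp_rw [indicator_of_notMem (hm _)]
        simp
    calc _ ≤ ∫⁻ b : ℝ, (Icc (-(2 * S)) (2 * S)).indicator (fun _ => ENNReal.ofReal (B / S)) b :=
          lintegral_mono e
      _ = ENNReal.ofReal (B / S) * ENNReal.ofReal (4 * S) := by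
          rw [lintegral_indicator measurableSet_Icc, setLIntegral_const, Real.volume_Icc]
          congr 2; ring
      _ ≤ _ := by
          rw [← ENNReal.ofReal_mul (by positivity)]
          apply ENNReal.ofReal_le_ofReal
          apply le_of_eq
          field_simp
  have A2 : ∀ y ∈ Y, ∫⁻ x, X.indicator (fun x => ‖K (x - y)‖ₑ) x ≤ ENNReal.ofReal (4 * B * (R / S)) := by
    intro y hy
    have mk' : Measurable (fun x => X.indicator (fun x => ‖K (x - y)‖ₑ) x) :=
      ((hK.comp (measurable_id.sub_const y)).enorm).indicator mx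
    rw [lint_E2 mk']
    have e : ∀ b : ℝ, ∫⁻ a : ℝ, X.indicator (fun x => ‖K (x - y)‖ₑ) (mk2 a b) ≤
        (Icc (-(2 * R)) (2 * R)).indicator (fun _ => ENNReal.ofReal (B / S)) b := by
      intro b
      by_cases hbx : |b| ≤ 2 * R
      · have hm : ∀ a, mk2 a b ∈ X := fun a => hbx
        have hb2 : b ∈ Icc (-(2 * R)) (2 * R) := abs_le.1 hbx
        rw [indicator_of_mem hb2]
        simp_rw [indicator_of_mem (hm _)]
        have e2 : ∀ a, mk2 a b - y = mk2 (a - y 0) (b - y 1) := by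
          intro a
          ext i
          fin_cases i <;> rfl
        simp_rw [e2]
        rw [lintegral_sub_right_eq_self (fun a => ‖K (mk2 a (b - y 1))‖ₑ) (y 0)]
        apply hb
        exact far (mk2 0 b) (hm 0) y hy
      · have hm : ∀ a, mk2 a b ∉ X := fun a h => hbx h
        simp_rw [indicator_of_notMem (hm _)]
        simp
    calc _ ≤ ∫⁻ b : ℝ, (Icc (-(2 * R)) (2 * R)).indicator (fun _ => ENNReal.ofReal (B / S)) b :=
          lintegral_mono e
      _ = ENNReal.ofReal (B / S) * ENNReal.ofReal (4 * R) := by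
          rw [lintegral_indicator measurableSet_Icc, setLIntegral_const, Real.volume_Icc]
          congr 2; ring
      _ ≤ _ := by
          rw [← ENNReal.ofReal_mul (by positivity)]
          apply ENNReal.ofReal_le_ofReal
          apply le_of_eq
          ring
  have hfi : ∀ y, y ∉ Y → f y = 0 := by
    intro y hy
    by_contra h
    exact hy (hfs y h)
  have step1 : ∀ x ∈ X, ‖cv K f x‖ₑ ^ p ≤ ENNReal.ofReal (4 * B) ^ (p - 1) *
      ∫⁻ y, Y.indicator (fun y => ‖K (x - y)‖ₑ) y * ‖f y‖ₑ ^ p := by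
    intro x hx
    have h1 : ‖cv K f x‖ₑ ≤ ∫⁻ y, Y.indicator (fun y => ‖K (x - y)‖ₑ) y * ‖f y‖ₑ := by
      refine (Vale.Agent.P117.enorm_cv_le K f x).trans (le_of_eq ?_)
      refine lintegral_congr fun y => ?_
      by_cases hy : y ∈ Y
      · rw [indicator_of_mem hy]
      · rw [hfi y hy]; simp
    calc ‖cv K f x‖ₑ ^ p ≤ (∫⁻ y, Y.indicator (fun y => ‖K (x - y)‖ₑ) y * ‖f y‖ₑ) ^ p := by gcongr
      _ ≤ (∫⁻ y, Y.indicator (fun y => ‖K (x - y)‖ₑ) y) ^ (p - 1) *
          ∫⁻ y, Y.indicator (fun y => ‖K (x - y)‖ₑ) y * ‖f y‖ₑ ^ p :=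
          Vale.Agent.P117.holder_pow volume (mk x).aemeasurable hf.enorm.aemeasurable hp
      _ ≤ _ := mul_le_mul' (ENNReal.rpow_le_rpow (A1 x hx) (by linarith)) le_rfl
  calc ∫⁻ x in X, ‖cv K f x‖ₑ ^ p ≤ ∫⁻ x in X, ENNReal.ofReal (4 * B) ^ (p - 1) *
        ∫⁻ y, Y.indicator (fun y => ‖K (x - y)‖ₑ) y * ‖f y‖ₑ ^ p := setLIntegral_mono' mx step1
    _ = ENNReal.ofReal (4 * B) ^ (p - 1) * ∫⁻ x, ∫⁻ y, X.indicator (fun _ => (1:ℝ≥0∞)) x *
          (Y.indicator (fun y => ‖K (x - y)‖ₑ) y * ‖f y‖ₑ ^ p) := by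
        rw [lintegral_const_mul' _ _ (ENNReal.rpow_ne_top_of_nonneg (by linarith) ENNReal.ofReal_ne_top),
          ← lintegral_indicator mx]
        congr 1
        refine lintegral_congr fun x => ?_
        by_cases hx : x ∈ X
        · simp [indicator_of_mem hx]
        · simp [indicator_of_notMem hx]
    _ = ENNReal.ofReal (4 * B) ^ (p - 1) * ∫⁻ y, ∫⁻ x, X.indicator (fun _ => (1:ℝ≥0∞)) x *
          (Y.indicator (fun y => ‖K (x - y)‖ₑ) y * ‖f y‖ₑ ^ p) := by
        rw [lintegral_lintegral_swap]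
        have m1 : Measurable (fun q : E2 × E2 => X.indicator (fun _ => (1:ℝ≥0∞)) q.1) :=
          (measurable_const.indicator mx).comp measurable_fst
        have m2 : Measurable (fun q : E2 × E2 => Y.indicator (fun y => ‖K (q.1 - y)‖ₑ) q.2) := by
          have hs : MeasurableSet {q : E2 × E2 | q.2 ∈ Y} := my.preimage measurable_snd
          have : (fun q : E2 × E2 => Y.indicator (fun y => ‖K (q.1 - y)‖ₑ) q.2) =
              {q : E2 × E2 | q.2 ∈ Y}.indicator (fun q => ‖K (q.1 - q.2)‖ₑ) := by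
            ext q
            simp only [indicator, mem_setOf_eq]
          rw [this]
          exact ((hK.comp (measurable_fst.sub measurable_snd)).enorm).indicator hs
        have m3 : Measurable (fun q : E2 × E2 => ‖f q.2‖ₑ ^ p) := (hf.comp measurable_snd).enorm.pow_const p
        exact (m1.mul (m2.mul m3)).aemeasurable
    _ ≤ ENNReal.ofReal (4 * B) ^ (p - 1) * ∫⁻ y, ENNReal.ofReal (4 * B * (R / S)) * ‖f y‖ₑ ^ p := by
        refine mul_le_mul' le_rfl (lintegral_mono fun y => ?_)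
        by_cases hy : y ∈ Y
        · have e : ∀ x, X.indicator (fun _ => (1:ℝ≥0∞)) x * (Y.indicator (fun y => ‖K (x - y)‖ₑ) y * ‖f y‖ₑ ^ p) =
              X.indicator (fun x => ‖K (x - y)‖ₑ) x * ‖f y‖ₑ ^ p := by
            intro x
            rw [indicator_of_mem hy]
            by_cases hx : x ∈ X
            · simp [indicator_of_mem hx]
            · simp [indicator_of_notMem hx]
          simp_rw [e]
          have mk' : Measurable (fun x => X.indicator (fun x => ‖K (x - y)‖ₑ) x) :=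
            ((hK.comp (measurable_id.sub_const y)).enorm).indicator mx
          rw [lintegral_mul_const _ mk']
          gcongr
          exact A2 y hy
        · rw [hfi y hy]
          simp only [enorm_zero]
          rw [ENNReal.zero_rpow_of_pos (by linarith)]
          simp
    _ = _ := by
        rw [lintegral_const_mul' _ _ ENNReal.ofReal_ne_top, ← mul_assoc]
        congr 1
        have hp0 : (4 * B) ^ p = (4 * B) ^ (p - 1) * (4 * B) := by
          rcases hB.eq_or_lt with h0 | h0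
          · rw [← h0, mul_zero, Real.zero_rpow (by linarith), mul_zero]
          · rw [← Real.rpow_add_one (by positivity)]; congr 1; ring
        rw [hp0, ENNReal.ofReal_rpow_of_nonneg (by positivity) (by linarith), ← ENNReal.ofReal_mul (by positivity)]
        congr 1
        ring

end Vale.Agent.P106
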