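import Vale.Agent.P106.B.Rec
import Vale.Agent.P106.Defs2

/-! # Arc projections and the flux and slab estimates for arcs -/

open MeasureTheory Complex Set
open scoped ENNReal NNReal ContDiff FourierTransform SchwartzMap

set_option linter.all false

namespace Vale.Agent.P106

open Vale.Agent.P117 (E2 E3 Adm cv integrable_cv cv_inv_eq)

section
variable {χ w : ℝ → ℂ} (hp : Prof χ w)

/-- base multiplier -/
noncomputable def Mb (χ w : ℝ → ℂ) (ξ : E2) : ℂ := χ (ξ 0) * w (ξ 1 / ξ 0)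

include hp in
theorem contDiff_Mb : ContDiff ℝ ∞ (Mb χ w) := by
  rw [contDiff_iff_contDiffAt]
  intro ξ
  by_cases h : 0 < ξ 0
  · have h1 : ContDiffAt ℝ ∞ (fun ξ : E2 => ξ 1 / ξ 0) ξ := by
      apply ContDiffAt.div
      · fun_prop
      · fun_prop
      · exact h.ne'
    have h2 : ContDiffAt ℝ ∞ (fun ξ : E2 => w (ξ 1 / ξ 0)) ξ := hp.cw.contDiffAt.comp ξ h1
    have h3 : ContDiffAt ℝ ∞ (fun ξ : E2 => χ (ξ 0)) ξ :=
      hp.cχ.contDiffAt.comp ξ (by fun_prop)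
    exact h3.mul h2
  · have : Mb χ w =ᶠ[nhds ξ] fun _ => 0 := by
      have hopen : IsOpen {ζ : E2 | ζ 0 < 1/100} := isOpen_lt (by fun_prop) continuous_const
      filter_upwards [hopen.mem_nhds (show ξ 0 < 1/100 by linarith)] with ζ hζ
      unfold Mb
      have : χ (ζ 0) = 0 := by
        by_contra hc
        have := (hp.sχ _ hc).1
        have hζ' : ζ 0 < 1/100 := hζ
        linarith
      rw [this, zero_mul]
    exact contDiffAt_const.congr_of_eventuallyEq this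

include hp in
theorem hasCompactSupport_Mb : HasCompactSupport (Mb χ w) := by
  apply HasCompactSupport.of_support_subset_isCompact (isCompact_closedBall (0 : E2) 400)
  intro ξ hξ
  obtain ⟨h1, h2⟩ := hp.sχ _ (left_ne_zero_of_mul hξ)
  have h3 := hp.sw _ (right_ne_zero_of_mul hξ)
  have h0 : 0 < ξ 0 := by linarith
  rw [abs_div, abs_of_pos h0, div_le_one h0] at h3
  rw [Metric.mem_closedBall, dist_zero_right]
  have h4 : ‖ξ‖ ^ 2 = ξ 0 ^ 2 + ξ 1 ^ 2 := Vale.Agent.P117.E2_norm_sq ξ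
  have h5 : ξ 1 ^ 2 ≤ 100 ^ 2 := by
    rw [← sq_abs]; have := abs_nonneg (ξ 1); nlinarith
  have h6 : ‖ξ‖ ^ 2 ≤ 400 ^ 2 := by rw [h4]; nlinarith
  exact (pow_le_pow_iff_left₀ (norm_nonneg _) (by norm_num) two_ne_zero).1 h6

/-- base multiplier as a Schwartz function -/
noncomputable def MbS : 𝓢(E2, ℂ) := (hasCompactSupport_Mb hp).toSchwartzMap (contDiff_Mb hp)

/-- base kernel -/
noncomputable def kbS : 𝓢(E2, ℂ) := 𝓕⁻ (MbS hp)

theorem fourier_kbS (ξ : E2) : 𝓕 (kbS hp : E2 → ℂ) ξ = Mb χ w ξ := by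
  have : 𝓕 (kbS hp) = MbS hp := by unfold kbS; simp
  rw [← SchwartzMap.fourier_coe, this]
  rfl

/-- kernel of the arc projection -/
noncomputable def karc (b s : ℝ) (x : E2) : ℂ :=
  (s : ℂ) * kbS hp (!₂[1 * x 0 + b * x 1, 0 * x 0 + s * x 1])

theorem det_arc {b s : ℝ} (hs : 0 < s) : (1:ℝ) * s - b * 0 ≠ 0 := by
  rw [mul_zero, sub_zero, one_mul]; exact hs.ne'

theorem continuous_karc (b s : ℝ) : Continuous (karc hp b s) := by
  unfold karc
  exact continuous_const.mul ((kbS hp).continuous.comp (continuous_lin2 _ _ _ _))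

theorem integrable_karc {b s : ℝ} (hs : 0 < s) : Integrable (karc hp b s) := by
  unfold karc
  exact (integrable_lin2 (det_arc hs) (kbS hp).integrable).const_mul _

theorem lintegral_karc {b s : ℝ} (hs : 0 < s) :
    ∫⁻ x, ‖karc hp b s x‖ₑ = ENNReal.ofReal (∫ x, ‖kbS hp x‖) := by
  unfold karc
  simp_rw [enorm_mul]
  rw [lintegral_const_mul' _ _ enorm_ne_top, lintegral_lin2 (det_arc hs) (fun x => ‖kbS hp x‖ₑ),
    ofReal_integral_norm_eq_lintegral_enorm (kbS hp).integrable, ← mul_assoc]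
  have : ‖(s : ℂ)‖ₑ * ENNReal.ofReal |((1:ℝ) * s - b * 0)⁻¹| = 1 := by
    rw [← ofReal_norm, Complex.norm_real, Real.norm_of_nonneg hs.le,
      ← ENNReal.ofReal_mul hs.le, mul_zero, sub_zero, one_mul, abs_of_pos (by positivity),
      mul_inv_cancel₀ hs.ne', ENNReal.ofReal_one]
  rw [this, one_mul]

theorem fourier_karc {b s : ℝ} (hs : 0 < s) (ξ : E2) : 𝓕 (karc hp b s) ξ = marc χ w b s ξ := by
  have e0 : marc χ w b s ξ = Mb χ w (!₂[1 * ξ 0 + 0 * ξ 1, (-b / s) * ξ 0 + s⁻¹ * ξ 1]) := by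
    unfold marc Mb
    have e0 : (!₂[1 * ξ 0 + 0 * ξ 1, (-b / s) * ξ 0 + s⁻¹ * ξ 1] : E2) 0 = ξ 0 := by simp
    have e1 : (!₂[1 * ξ 0 + 0 * ξ 1, (-b / s) * ξ 0 + s⁻¹ * ξ 1] : E2) 1 = (-b / s) * ξ 0 + s⁻¹ * ξ 1 := by simp
    rw [e0, e1]
    by_cases h0 : χ (ξ 0) = 0
    · rw [h0, zero_mul, zero_mul]
    · have : 0 < ξ 0 := by have := (hp.sχ _ h0).1; linarith
      congr 2
      field_simp
      ring
  rw [e0, ← fourier_kbS hp, four_eq, four_eq]
  have h := integral_lin2 (det_arc (b := b) hs) (fun y : E2 => cexp (((-2 * Real.pi * (y 0 * ξ 0 +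
      y 1 * ((-b / s) * ξ 0 + s⁻¹ * ξ 1)) : ℝ) : ℂ) * I) * kbS hp y)
  have e : ∀ x : E2, cexp (((-2 * Real.pi * (x 0 * ξ 0 + x 1 * ξ 1) : ℝ) : ℂ) * I) * karc hp b s x =
      (s : ℂ) * (fun y : E2 => cexp (((-2 * Real.pi * (y 0 * ξ 0 +
      y 1 * ((-b / s) * ξ 0 + s⁻¹ * ξ 1)) : ℝ) : ℂ) * I) * kbS hp y) (!₂[1 * x 0 + b * x 1, 0 * x 0 + s * x 1]) := by
    intro x
    unfold karc
    have e2 : (-2 * Real.pi * (x 0 * ξ 0 + x 1 * ξ 1) : ℝ) = -2 * Real.pi * ((1 * x 0 + b * x 1) * ξ 0 +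
      (0 * x 0 + s * x 1) * ((-b / s) * ξ 0 + s⁻¹ * ξ 1)) := by field_simp; ring
    rw [e2]
    simp
    ring
  simp_rw [e]
  rw [integral_const_mul, h, Complex.real_smul, ← mul_assoc, ← Complex.ofReal_mul]
  have : s * |((1:ℝ) * s - b * 0)⁻¹| = 1 := by
    rw [mul_zero, sub_zero, one_mul, abs_of_pos (by positivity), mul_inv_cancel₀ hs.ne']
  rw [this, Complex.ofReal_one, one_mul]
  congr 1
  ext y
  simp

include hp in
theorem integrable_marc (b s : ℝ) (hs : 0 < s) : Integrable (marc χ w b s) := by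
  have e0 : marc χ w b s = fun ξ => Mb χ w (!₂[1 * ξ 0 + 0 * ξ 1, (-b / s) * ξ 0 + s⁻¹ * ξ 1]) := by
    ext ξ
    unfold marc Mb
    have e0 : (!₂[1 * ξ 0 + 0 * ξ 1, (-b / s) * ξ 0 + s⁻¹ * ξ 1] : E2) 0 = ξ 0 := by simp
    have e1 : (!₂[1 * ξ 0 + 0 * ξ 1, (-b / s) * ξ 0 + s⁻¹ * ξ 1] : E2) 1 = (-b / s) * ξ 0 + s⁻¹ * ξ 1 := by simp
    rw [e0, e1]
    by_cases h0 : χ (ξ 0) = 0
    · rw [h0, zero_mul, zero_mul]
    · have : 0 < ξ 0 := by have := (hp.sχ _ h0).1; linarith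
      congr 2
      field_simp
      ring
  rw [e0]
  have hi : Integrable (Mb χ w) := (contDiff_Mb hp).continuous.integrable_of_hasCompactSupport (hasCompactSupport_Mb hp)
  apply integrable_lin2 _ hi
  rw [one_mul, zero_mul, sub_zero]
  positivity

theorem inv_marc {b s : ℝ} (hs : 0 < s) : 𝓕⁻ (marc χ w b s) = karc hp b s := by
  have h1 : 𝓕 (karc hp b s) = marc χ w b s := by ext ξ; exact fourier_karc hp hs ξ
  rw [← h1]
  apply (continuous_karc hp b s).fourierInv_fourier_eq (integrable_karc hp hs)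
  rw [h1]
  exact integrable_marc hp b s hs

theorem arc_eq {b s : ℝ} (hs : 0 < s) {f : E2 → ℂ} (hf : Adm volume f) :
    arc χ w b s f = cv (karc hp b s) f := by
  ext x
  unfold arc
  rw [← cv_inv_eq (integrable_marc hp b s hs) hf.int, inv_marc hp hs]

theorem stAM : StAM := by
  intro χ w hp
  set B : ℝ := ∫ x, ‖kbS hp x‖ with hB
  have hB0 : 0 ≤ B := integral_nonneg fun _ => norm_nonneg _
  refine ⟨B ^ 2 + B ^ 3, by positivity, ?_⟩
  intro b s hs f hf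
  have hk := integrable_karc hp (b := b) hs
  have hF : ∀ ξ, 𝓕 (arc χ w b s f) ξ = marc χ w b s ξ * 𝓕 f ξ := by
    intro ξ
    rw [arc_eq hp hs hf, Vale.Agent.P117.fourier_cv hk hf.int, fourier_karc hp hs]
  have hbd : ∃ C, ∀ x, ‖karc hp b s x‖ ≤ C := by
    obtain ⟨C, hC⟩ := (kbS hp).decay 0 0
    refine ⟨‖(s:ℂ)‖ * C, fun x => ?_⟩
    have := hC.2 (!₂[1 * x 0 + b * x 1, 0 * x 0 + s * x 1])
    simp only [pow_zero, one_mul, norm_iteratedFDeriv_zero] at this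
    unfold karc
    rw [norm_mul]
    gcongr
    simpa using this
  obtain ⟨C, hC⟩ := hbd
  have hy : ∀ p : ℝ, 1 ≤ p → ∫⁻ x, ‖arc χ w b s f x‖ₑ ^ p ≤
      ENNReal.ofReal B ^ p * ∫⁻ x, ‖f x‖ₑ ^ p := by
    intro p hp1
    have h := Vale.Agent.P117.young_lintegral (k := fun y => ‖karc hp b s y‖ₑ) (g := fun y => ‖f y‖ₑ)
      (continuous_karc hp b s).measurable.enorm hf.meas.enorm hp1
    rw [lintegral_karc hp hs] at h
    refine le_trans (lintegral_mono fun x => ?_) h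
    rw [arc_eq hp hs hf]
    have := Vale.Agent.P117.enorm_cv_le (karc hp b s) f x
    gcongr
  refine ⟨?_, hF, ?_, ?_, ?_⟩
  · rw [arc_eq hp hs hf]
    exact ⟨(Vale.Agent.P117.continuous_cv (continuous_karc hp b s) hC hf.int).measurable,
      integrable_cv hk hf.int, _, Vale.Agent.P117.norm_cv_le hC hf.int⟩
  · intro ξ hξ
    rw [hF]
    by_contra hne
    apply hξ
    have hm := left_ne_zero_of_mul hne
    obtain ⟨h1, h2⟩ := hp.sχ _ (left_ne_zero_of_mul hm)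
    have h3 := hp.sw _ (right_ne_zero_of_mul hm)
    have h0 : 0 < ξ 0 := by linarith
    refine ⟨h1, h2, ?_⟩
    have e : ξ 1 - b * ξ 0 = ((ξ 1 / ξ 0 - b) / s) * (s * ξ 0) := by field_simp
    rw [e, abs_mul, abs_of_pos (by positivity : 0 < s * ξ 0)]
    calc |(ξ 1 / ξ 0 - b) / s| * (s * ξ 0) ≤ 1 * (s * ξ 0) := by gcongr
      _ = _ := one_mul _
  · refine (hy 2 (by norm_num)).trans ?_
    refine mul_le_mul' ?_ le_rfl
    rw [ENNReal.ofReal_rpow_of_nonneg hB0 (by norm_num)]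
    apply ENNReal.ofReal_le_ofReal
    norm_num
    positivity
  · refine (hy 3 (by norm_num)).trans ?_
    refine mul_le_mul' ?_ le_rfl
    rw [ENNReal.ofReal_rpow_of_nonneg hB0 (by norm_num)]
    apply ENNReal.ofReal_le_ofReal
    norm_num
    positivity

end

/-- normalised rescaled normal -/
noncomputable def nresk (h : ℝ → ℝ) (n : Fin 3 → ℝ) (b s κ : ℝ) : Fin 3 → ℝ := fun i => nres h n b s i / κ

theorem kapn_resk {c C : ℝ} {h : ℝ → ℝ} (hh : HC c C h) (b : ℝ) {s : ℝ} (hs : 0 < s) (n : Fin 3 → ℝ) (κ u : ℝ) :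
    kapn (hres h b s) (nresk h n b s κ) u = kapn h n (b + s * u) / κ := by
  rw [← kapn_res hh b hs]
  unfold kapn nresk
  ring

theorem NormalAt.res {c C C1 : ℝ} {h : ℝ → ℝ} (hh : HC c C h) {n : Fin 3 → ℝ} {b s κ : ℝ} (hs : 0 < s)
    (hκ : 0 < κ) (hn : NormalAt C1 h n b s κ) : Normal C1 (hres h b s) (nresk h n b s κ) := by
  have h0 := hn.lower 0 (by simp)
  have h1 := hn.upper 0 (by simp)
  simp only [mul_zero, add_zero] at h0 h1
  refine ⟨?_, ?_, ?_⟩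
  · intro i
    fin_cases i
    · show |s ^ 2 * n 0 / κ| ≤ C1
      rw [abs_div, abs_of_pos hκ, div_le_iff₀ hκ, abs_mul, abs_of_pos (by positivity : 0 < s ^ 2)]
      exact hn.b0
    · show |s * (n 1 - b * n 0) / κ| ≤ C1
      rw [abs_div, abs_of_pos hκ, div_le_iff₀ hκ, abs_mul, abs_of_pos hs, mul_comm b]
      exact hn.b1
    · show |kapn h n b / κ| ≤ C1
      rw [abs_div, abs_of_pos hκ, div_le_iff₀ hκ, abs_of_pos (hκ.trans_le h0)]
      exact h1
  · intro u hu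
    rw [kapn_resk hh b hs, le_div_iff₀ hκ, one_mul]
    exact hn.lower u hu
  · intro u hu
    rw [kapn_resk hh b hs, div_le_iff₀ hκ]
    exact hn.upper u hu

theorem slabAt_div (n : Fin 3 → ℝ) {κ : ℝ} (hκ : 0 < κ) (c' H t : ℝ) :
    slabAt (fun i => n i / κ) (c' / κ) (H / κ) t = slabAt n c' H t := by
  unfold slabAt
  ext x
  simp only [mem_setOf_eq]
  have e : n 0 / κ * x 0 + n 1 / κ * x 1 + n 2 / κ * t - c' / κ = (n 0 * x 0 + n 1 * x 1 + n 2 * t - c') / κ := by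
    ring
  rw [e, abs_div, abs_of_pos hκ, div_le_div_iff_of_pos_right hκ]

theorem slabInt_resk {h : ℝ → ℝ} (n : Fin 3 → ℝ) {b s κ : ℝ} (hs : 0 < s) (hκ : 0 < κ) {f : E2 → ℂ}
    (hfs : FS f (Gcap b s)) (c' H R p : ℝ) :
    slabInt h n c' H R p f = ENNReal.ofReal ((s ^ 3)⁻¹) *
      slabInt (hres h b s) (nresk h n b s κ) (s ^ 2 * c' / κ) (s ^ 2 * H / κ) (s ^ 2 * R) p (rsc b s f) := by
  rw [slabInt_res n hs hfs]
  congr 1
  unfold slabInt nresk
  simp_rw [slabAt_div (nres h n b s) hκ]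

theorem stAR2 (hFL : StFL) : StAR2 := by
  intro c C C1 hc
  obtain ⟨K, hK, hFL'⟩ := hFL c C C1 hc
  refine ⟨K, hK, ?_⟩
  intro h n b s κ hh hs hs1 hκ hn c' H R hH f hf hfs
  rw [slabInt_resk n hs hκ hfs]
  have := hFL' (hres h b s) (nresk h n b s κ) (hh.hres b hs hs1) (hn.res hh hs hκ) (s ^ 2 * c' / κ)
    (s ^ 2 * H / κ) (s ^ 2 * R) (by positivity) (rsc b s f) (adm_rsc hs hf) (FS_rsc hs hfs)
  calc _ ≤ ENNReal.ofReal ((s ^ 3)⁻¹) * (ENNReal.ofReal (K * (s ^ 2 * H / κ)) * ∫⁻ x, ‖rsc b s f x‖ₑ ^ (2:ℝ)) := by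
        gcongr
    _ = ENNReal.ofReal ((s ^ 3)⁻¹ * (K * (s ^ 2 * H / κ)) * s) * ∫⁻ x, ‖f x‖ₑ ^ (2:ℝ) := by
        rw [lintegral_rsc hs, ← mul_assoc, ← mul_assoc, ← ENNReal.ofReal_mul (by positivity),
          ← ENNReal.ofReal_mul (by positivity)]
    _ = _ := by
        congr 2
        field_simp

theorem stAR3 (hSL : StSL) (hPL : StPL) : StAR3 := by
  intro c C C1 ε hc hε
  obtain ⟨K, hK, hSL'⟩ := hSL c C C1 ε hc hε
  obtain ⟨K', hK', hPL'⟩ := hPL c C C1 hc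
  refine ⟨max K K', le_max_of_le_left hK, ?_⟩
  intro h n b s κ hh hs hs1 hκ hn c' H R hH hsR hHκ f hf hfs
  have hs2 : s ^ 2 ≤ 1 := by nlinarith
  have hR1 : 1 ≤ R := by
    have hR0 : 0 < R := by
      by_contra hcon
      push Not at hcon
      have : s ^ 2 * R ≤ 0 := mul_nonpos_of_nonneg_of_nonpos (by positivity) hcon
      linarith
    nlinarith
  have hR0 : 0 < R := by linarith
  rw [slabInt_resk n hs hκ hfs]
  set H' := s ^ 2 * H / κ with hH'
  set R' := s ^ 2 * R with hR'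
  have hH'0 : 0 < H' := by positivity
  have hR'0 : 0 < R' := by positivity
  have hHR' : H' ≤ R' := by
    rw [hH', hR', div_le_iff₀ hκ]
    calc s ^ 2 * H ≤ s ^ 2 * (κ * R) := by gcongr
      _ = _ := by ring
  have key : slabInt (hres h b s) (nresk h n b s κ) (s ^ 2 * c' / κ) H' R' 3 (rsc b s f) ≤
      ENNReal.ofReal (max K K' * R ^ ε * (H' * R') ^ (1/2:ℝ)) * ∫⁻ x, ‖rsc b s f x‖ₑ ^ (3:ℝ) := by
    rcases le_total 1 H' with h1 | h1
    · refine (hSL' (hres h b s) (nresk h n b s κ) (hh.hres b hs hs1) (hn.res hh hs hκ) (s ^ 2 * c' / κ)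
        H' R' h1 hHR' (rsc b s f) (adm_rsc hs hf) (FS_rsc hs hfs)).trans ?_
      refine mul_le_mul' (ENNReal.ofReal_le_ofReal ?_) le_rfl
      have : R' ≤ R := by rw [hR']; nlinarith
      gcongr
      exact le_max_left _ _
    · refine (hPL' (hres h b s) (nresk h n b s κ) (hh.hres b hs hs1) (hn.res hh hs hκ) (s ^ 2 * c' / κ)
        H' R' hH'0 hsR (rsc b s f) (adm_rsc hs hf) (FS_rsc hs hfs)).trans ?_
      refine mul_le_mul' (ENNReal.ofReal_le_ofReal ?_) le_rfl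
      have e1 : H' ≤ H' ^ (1/2:ℝ) := by
        conv_lhs => rw [← Real.rpow_one H']
        exact Real.rpow_le_rpow_of_exponent_ge hH'0 h1 (by norm_num)
      rw [Real.mul_rpow hH'0.le hR'0.le]
      have e2 : 1 ≤ R ^ ε := Real.one_le_rpow hR1 hε.le
      calc K' * (H' * R' ^ (1/2:ℝ)) ≤ K' * (H' ^ (1/2:ℝ) * R' ^ (1/2:ℝ)) := by gcongr
        _ = K' * 1 * (H' ^ (1/2:ℝ) * R' ^ (1/2:ℝ)) := by ring
        _ ≤ max K K' * R ^ ε * (H' ^ (1/2:ℝ) * R' ^ (1/2:ℝ)) := by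
            gcongr
            exact le_max_right _ _
  calc _ ≤ ENNReal.ofReal ((s ^ 3)⁻¹) * (ENNReal.ofReal (max K K' * R ^ ε * (H' * R') ^ (1/2:ℝ)) *
        ∫⁻ x, ‖rsc b s f x‖ₑ ^ (3:ℝ)) := by gcongr
    _ = ENNReal.ofReal ((s ^ 3)⁻¹ * (max K K' * R ^ ε * (H' * R') ^ (1/2:ℝ)) * s) * ∫⁻ x, ‖f x‖ₑ ^ (3:ℝ) := by
        have hm : 0 ≤ max K K' := le_max_of_le_left hK
        rw [lintegral_rsc hs, ← mul_assoc, ← mul_assoc, ← ENNReal.ofReal_mul (by positivity),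
          ← ENNReal.ofReal_mul (by positivity)]
    _ = _ := by
        congr 2
        have e : (H' * R') ^ (1/2:ℝ) = s ^ 2 * (H * R / κ) ^ (1/2:ℝ) := by
          have : H' * R' = (s ^ 2) ^ 2 * (H * R / κ) := by rw [hH', hR']; ring
          rw [this, Real.mul_rpow (by positivity) (by positivity)]
          congr 1
          rw [← Real.rpow_natCast, ← Real.rpow_mul (by positivity)]
          norm_num
        rw [e]
        field_simp

end Vale.Agent.P106
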