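import Vale.Agent.P106.B.LowMain

/-! # The crude kernel bound -/

open MeasureTheory Complex Set
open scoped ENNReal NNReal ContDiff FourierTransform SchwartzMap

set_option linter.all false

namespace Vale.Agent.P106

open Vale.Agent.P117 (E2 E3 Adm cv integrable_cv cv_inv_eq DB fourier_decay contDiff_st)

/-- smooth modification of the square root near zero -/
noncomputable def gsq (v : ℝ) : ℝ :=
  Real.sqrt (v * Real.smoothTransition (20000 * v - 1) + (1 - Real.smoothTransition (20000 * v - 1)))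

theorem gsq_pos (v : ℝ) : 0 < v * Real.smoothTransition (20000 * v - 1) + (1 - Real.smoothTransition (20000 * v - 1)) := by
  have h0 := Real.smoothTransition.nonneg (20000 * v - 1)
  have h1 := Real.smoothTransition.le_one (20000 * v - 1)
  by_cases hv : v ≤ 1/20000
  · rw [Real.smoothTransition.zero_of_nonpos (by linarith)]; norm_num
  · push Not at hv
    by_cases hv1 : Real.smoothTransition (20000 * v - 1) = 0
    · rw [hv1]; norm_num
    · have : 0 < Real.smoothTransition (20000 * v - 1) := lt_of_le_of_ne h0 (Ne.symm hv1)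
      have : 0 < v * Real.smoothTransition (20000 * v - 1) := by
        apply mul_pos _ this
        linarith
      linarith

theorem contDiff_gsq : ContDiff ℝ ∞ gsq := by
  unfold gsq
  apply ContDiff.sqrt
  · have h := contDiff_st
    have h1 : ContDiff ℝ ∞ (fun v : ℝ => Real.smoothTransition (20000 * v - 1)) := h.comp (by fun_prop)
    exact (contDiff_id.mul h1).add (contDiff_const.sub h1)
  · intro v
    exact (gsq_pos v).ne'

theorem gsq_eq {v : ℝ} (hv : 1/10000 ≤ v) : gsq v = Real.sqrt v := by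
  unfold gsq
  rw [Real.smoothTransition.one_of_one_le (by linarith)]
  simp

/-- smooth modification of the norm near zero -/
noncomputable def psn (ξ : E2) : ℝ := gsq (‖ξ‖ ^ 2)

theorem contDiff_psn : ContDiff ℝ ∞ psn := by
  unfold psn
  exact contDiff_gsq.comp (contDiff_norm_sq ℝ)

theorem psn_eq {ξ : E2} (hξ : 1/100 ≤ ‖ξ‖) : psn ξ = ‖ξ‖ := by
  unfold psn
  rw [gsq_eq (by nlinarith), Real.sqrt_sq (norm_nonneg _)]

/-- the wave multiplier -/
noncomputable def Wt (X : E2 → ℂ) (t : ℝ) (ξ : E2) : ℂ := er (t * psn ξ) * X ξ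

section
variable {X : E2 → ℂ} (hX : ContDiff ℝ ∞ X) (hXc : HasCompactSupport X) (hXs : ∀ ξ, X ξ ≠ 0 → 1/100 ≤ ‖ξ‖)

theorem contDiff_er : ContDiff ℝ ∞ er := by
  unfold er
  have h1 : ContDiff ℝ ∞ (fun v : ℝ => (((2 * Real.pi * v : ℝ) : ℂ) * I)) := by
    have h2 : ContDiff ℝ ∞ (fun v : ℝ => ((2 * Real.pi * v : ℝ) : ℂ)) :=
      Complex.ofRealCLM.contDiff.comp (contDiff_const.mul contDiff_id)
    exact h2.mul contDiff_const
  exact h1.cexp

theorem iteratedDeriv_er (i : ℕ) : iteratedDeriv i er = fun v => (2 * Real.pi * I) ^ i * er v := by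
  induction i with
  | zero => ext v; simp
  | succ i ih =>
    rw [iteratedDeriv_succ, ih]
    ext v
    have h1 : HasDerivAt er (er v * (2 * Real.pi * I)) v := by
      unfold er
      have h2 : HasDerivAt (fun v : ℝ => (((2 * Real.pi * v : ℝ) : ℂ) * I)) (2 * Real.pi * I) v := by
        have h3 : HasDerivAt (fun v : ℝ => (2 * Real.pi * v : ℝ)) (2 * Real.pi) v := by
          simpa using (hasDerivAt_id v).const_mul (2 * Real.pi)
        have h4 := h3.ofReal_comp.mul_const I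
        simpa using h4
      exact h2.cexp
    rw [(h1.const_mul _).deriv]
    ring

include hX in
theorem contDiff_Wt (t : ℝ) : ContDiff ℝ ∞ (Wt X t) := by
  unfold Wt
  have h1 : ContDiff ℝ ∞ (fun ξ => er (t * psn ξ)) := by
    apply contDiff_er.comp
    exact contDiff_const.mul contDiff_psn
  exact h1.mul hX

include hX hXc in
theorem integrable_Wt (t : ℝ) : Integrable (Wt X t) := by
  have : HasCompactSupport (Wt X t) := by
    unfold Wt
    exact hXc.mul_left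
  exact (contDiff_Wt hX t).continuous.integrable_of_hasCompactSupport this

include hX hXc hXs in
theorem wv_eq (t : ℝ) {f : E2 → ℂ} (hf : Adm volume f) : wv X t f = cv (𝓕⁻ (Wt X t)) f := by
  rw [cv_inv_eq (integrable_Wt hX hXc t) hf.int]
  have : (fun ξ : E2 => Wt X t ξ * 𝓕 f ξ) =
      fun ξ : E2 => cexp (2 * Real.pi * I * (t * ‖ξ‖ : ℝ)) * (X ξ * 𝓕 f ξ) := by
    ext ξ
    unfold Wt
    by_cases h : X ξ = 0
    · rw [h]; ring
    · rw [psn_eq (hXs ξ h)]
      unfold er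
      have : (((2 * Real.pi * (t * ‖ξ‖) : ℝ) : ℂ) * I) = 2 * Real.pi * I * (t * ‖ξ‖ : ℝ) := by
        push_cast; ring
      rw [this]
      ring
  rw [this]
  rfl

include hX hXc in
theorem kernel_decay (k : ℕ) : ∃ B : ℝ, 0 ≤ B ∧ ∀ t : ℝ, ∀ x : E2,
    (1 + ‖x‖) ^ k * ‖𝓕⁻ (Wt X t) x‖ ≤ B * (1 + |t|) ^ k := by
  obtain ⟨r, hr⟩ := hXc.isCompact.isBounded.subset_closedBall (0 : E2)
  obtain ⟨C, hC, hdec⟩ := fourier_decay (V := E2) k r
  -- bounds for X
  have hXb : ∃ A : ℝ, 0 ≤ A ∧ ∀ x : E2, ‖x‖ ≤ r → DB k A X x := by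
    have hb : ∀ i : ℕ, ∃ C : ℝ, ∀ z ∈ Metric.closedBall (0:E2) r, ‖iteratedFDeriv ℝ i X z‖ ≤ C := by
      intro i
      have hc : Continuous (iteratedFDeriv ℝ i X) := hX.continuous_iteratedFDeriv (by exact_mod_cast le_top)
      exact (isCompact_closedBall (0:E2) r).exists_bound_of_continuousOn hc.continuousOn
    choose Cb hCb using hb
    refine ⟨∑ i ∈ Finset.range (k + 1), |Cb i|, Finset.sum_nonneg fun i _ => abs_nonneg _, ?_⟩
    intro x hx i hi
    calc ‖iteratedFDeriv ℝ i X x‖ ≤ |Cb i| := (hCb i x (by simpa using hx)).trans (le_abs_self _)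
      _ ≤ _ := Finset.single_le_sum (f := fun i => |Cb i|) (fun _ _ => abs_nonneg _) (Finset.mem_range.2 (by omega))
  have hpb : ∃ A : ℝ, 1 ≤ A ∧ ∀ x : E2, ‖x‖ ≤ r → DB k A psn x := by
    have hb : ∀ i : ℕ, ∃ C : ℝ, ∀ z ∈ Metric.closedBall (0:E2) r, ‖iteratedFDeriv ℝ i psn z‖ ≤ C := by
      intro i
      have hc : Continuous (iteratedFDeriv ℝ i psn) := contDiff_psn.continuous_iteratedFDeriv (by exact_mod_cast le_top)
      exact (isCompact_closedBall (0:E2) r).exists_bound_of_continuousOn hc.continuousOn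
    choose Cb hCb using hb
    have h0 : 0 ≤ ∑ i ∈ Finset.range (k + 1), |Cb i| := Finset.sum_nonneg fun i _ => abs_nonneg _
    refine ⟨1 + ∑ i ∈ Finset.range (k + 1), |Cb i|, by linarith, ?_⟩
    intro x hx i hi
    calc ‖iteratedFDeriv ℝ i psn x‖ ≤ |Cb i| := (hCb i x (by simpa using hx)).trans (le_abs_self _)
      _ ≤ ∑ i ∈ Finset.range (k + 1), |Cb i| :=
        Finset.single_le_sum (f := fun i => |Cb i|) (fun _ _ => abs_nonneg _) (Finset.mem_range.2 (by omega))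
      _ ≤ _ := by linarith
  obtain ⟨A1, hA1, hX1⟩ := hXb
  obtain ⟨A2, hA2, hp1⟩ := hpb
  set A3 : ℝ := (2 * Real.pi) ^ k with hA3
  have hpi := Real.pi_gt_three
  have hA30 : 0 ≤ A3 := by rw [hA3]; positivity
  refine ⟨C * (2 ^ k * (k.factorial * A3 * A2 ^ k) * A1), by positivity, ?_⟩
  intro t x
  have hDBt : ∀ ξ : E2, ‖ξ‖ ≤ r → DB k ((1 + |t|) * A2) (fun ξ => t * psn ξ) ξ := by
    intro ξ hξ i hi
    have h1 : iteratedFDeriv ℝ i (fun ξ => t * psn ξ) ξ = t • iteratedFDeriv ℝ i psn ξ := by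
      have := iteratedFDeriv_const_smul_apply (𝕜 := ℝ) (i := i) (a := t) (f := psn) (x := ξ)
        (contDiff_psn.contDiffAt.of_le (by exact_mod_cast le_top))
      exact this
    rw [h1, norm_smul, Real.norm_eq_abs]
    have h2 := hp1 ξ hξ i hi
    have h3 := norm_nonneg (iteratedFDeriv ℝ i psn ξ)
    have h4 := abs_nonneg t
    nlinarith
  have hDBe : ∀ v : ℝ, DB k A3 er v := by
    apply DB.of_bound_real
    intro i hi v
    rw [iteratedDeriv_er]
    simp only [norm_mul, norm_pow, norm_er, mul_one]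
    have : ‖(2:ℂ)‖ * ‖(Real.pi : ℂ)‖ * ‖I‖ = 2 * Real.pi := by
      simp [abs_of_pos Real.pi_pos]
    rw [this, hA3]
    exact pow_le_pow_right₀ (by linarith) hi
  have hD1 : 1 ≤ (1 + |t|) * A2 := by
    have := abs_nonneg t
    nlinarith
  have hDBc : ∀ ξ : E2, ‖ξ‖ ≤ r → DB k (k.factorial * A3 * ((1 + |t|) * A2) ^ k) (fun ξ => er (t * psn ξ)) ξ := by
    intro ξ hξ
    exact DB.comp contDiff_er (contDiff_const.mul contDiff_psn) (hDBe _) (hDBt ξ hξ) hD1
  have hDBW : ∀ ξ : E2, ‖ξ‖ ≤ r → DB k (2 ^ k * (k.factorial * A3 * ((1 + |t|) * A2) ^ k) * A1) (Wt X t) ξ := by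
    intro ξ hξ
    exact DB.mul (contDiff_er.comp (contDiff_const.mul contDiff_psn)) hX (hDBc ξ hξ) (hX1 ξ hξ)
  have h1 := hdec (Wt X t) _ (contDiff_Wt hX t) (by
    intro ξ hξ
    have : X ξ ≠ 0 := right_ne_zero_of_mul hξ
    have h2 := hr (subset_tsupport _ this)
    simpa using h2) hDBW (by positivity) (-x)
  rw [norm_neg, ← Real.fourierInv_eq_fourier_neg] at h1
  refine h1.trans (le_of_eq ?_)
  rw [mul_pow]
  ring

end

theorem stCK : StCK := by
  intro X hX hXc hXs p δ hpp hδ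
  have hp1 : 1 ≤ p := by rcases hpp with h | h <;> rw [h] <;> norm_num
  obtain ⟨k, hk⟩ := exists_nat_ge (3 * (1 + δ) / δ + 4)
  have hk4 : 4 ≤ (k:ℝ) := by
    have : 0 ≤ 3 * (1 + δ) / δ := by positivity
    linarith
  have hk4' : 4 ≤ k := by exact_mod_cast hk4
  obtain ⟨B, hB, hdec⟩ := kernel_decay hX hXc k
  set B' : ℝ := B * 2 ^ k * 2 ^ (k - 2) * Real.pi with hB'
  have hB'0 : 0 ≤ B' := by rw [hB']; have := Real.pi_pos; positivity
  refine ⟨2 * (4 * B') ^ p, by positivity, ?_⟩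
  intro Λ R S hΛ hR hRS hΛS f hf hfs
  have hS : 0 < S := by linarith
  have hS1 : 1 ≤ S := (Real.one_le_rpow hΛ (by linarith)).trans hΛS
  have hpow : Λ ^ k ≤ S ^ (k - 3) := by
    have h1 : Λ ^ (k:ℝ) ≤ (Λ ^ (1 + δ)) ^ ((k:ℝ) - 3) := by
      rw [← Real.rpow_mul (by linarith)]
      apply Real.rpow_le_rpow_of_exponent_le hΛ
      have h2 : 3 * (1 + δ) / δ ≤ k := by linarith
      rw [div_le_iff₀ hδ] at h2
      nlinarith
    have h3 : (Λ ^ (1 + δ)) ^ ((k:ℝ) - 3) ≤ S ^ ((k:ℝ) - 3) :=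
      Real.rpow_le_rpow (by positivity) hΛS (by linarith)
    have h4 := h1.trans h3
    rw [Real.rpow_natCast] at h4
    refine h4.trans (le_of_eq ?_)
    rw [← Real.rpow_natCast]
    congr 1
    push_cast [Nat.cast_sub (by omega : 3 ≤ k)]
    ring
  have hker : ∀ t, |t| ≤ Λ → ∀ b : ℝ, 4 / 5 * S ≤ |b| →
      ∫⁻ a : ℝ, ‖𝓕⁻ (Wt X t) (mk2 a b)‖ₑ ≤ ENNReal.ofReal (B' / S) := by
    intro t ht b hb
    have hpt : ∀ a : ℝ, ‖𝓕⁻ (Wt X t) (mk2 a b)‖ₑ ≤ ENNReal.ofReal (B * 2 ^ k * 2 ^ (k - 2) / S) *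
        ENNReal.ofReal (1⁻¹ * (1 + (a / 1) ^ 2)⁻¹) := by
      intro a
      rw [← ofReal_norm, ← ENNReal.ofReal_mul (by positivity)]
      apply ENNReal.ofReal_le_ofReal
      have h1 := hdec t (mk2 a b)
      have hn : ‖mk2 a b‖ ^ 2 = a ^ 2 + b ^ 2 := Vale.Agent.P117.E2_norm_sq _
      have hnb : |b| ≤ ‖mk2 a b‖ := by
        apply abs_le_of_sq_le_sq _ (norm_nonneg _)
        nlinarith [sq_nonneg a]
      have hna : a ^ 2 ≤ ‖mk2 a b‖ ^ 2 := by nlinarith [sq_nonneg b]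
      set x := ‖mk2 a b‖ with hx
      have hx0 : 0 ≤ x := norm_nonneg _
      have hx1 : S / 2 ≤ x := by linarith
      have h2 : (1 + |t|) ^ k ≤ 2 ^ k * S ^ (k - 3) := by
        calc (1 + |t|) ^ k ≤ (2 * Λ) ^ k := by gcongr; linarith
          _ = 2 ^ k * Λ ^ k := mul_pow _ _ _
          _ ≤ _ := by gcongr
      have h3 : (S / 2) ^ (k - 2) * (1 + a ^ 2) ≤ (1 + x) ^ k := by
        calc (S / 2) ^ (k - 2) * (1 + a ^ 2) ≤ (1 + x) ^ (k - 2) * (1 + x) ^ 2 := by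
              gcongr
              · linarith
              · nlinarith
          _ = (1 + x) ^ k := by rw [← pow_add]; congr 1; omega
      have h4 : S ^ (k - 2) = S ^ (k - 3) * S := by
        rw [← pow_succ]; congr 1; omega
      have hSp : 0 < S ^ (k - 3) := by positivity
      have ha0 : 0 < 1 + a ^ 2 := by positivity
      have h5 : (S / 2) ^ (k - 2) * (1 + a ^ 2) * ‖𝓕⁻ (Wt X t) (mk2 a b)‖ ≤ B * (2 ^ k * S ^ (k - 3)) := by
        calc _ ≤ (1 + x) ^ k * ‖𝓕⁻ (Wt X t) (mk2 a b)‖ := by gcongr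
          _ ≤ B * (1 + |t|) ^ k := h1
          _ ≤ _ := by gcongr
      rw [div_pow, h4] at h5
      have h6 : S ^ (k - 3) * (S * (1 + a ^ 2) * ‖𝓕⁻ (Wt X t) (mk2 a b)‖) ≤
          S ^ (k - 3) * (B * 2 ^ k * 2 ^ (k - 2)) := by
        have e1 : S ^ (k - 3) * (S * (1 + a ^ 2) * ‖𝓕⁻ (Wt X t) (mk2 a b)‖) =
            2 ^ (k - 2) * (S ^ (k - 3) * S / 2 ^ (k - 2) * (1 + a ^ 2) * ‖𝓕⁻ (Wt X t) (mk2 a b)‖) := by
          field_simp
        rw [e1]
        calc _ ≤ 2 ^ (k - 2) * (B * (2 ^ k * S ^ (k - 3))) := by gcongr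
          _ = _ := by ring
      have h7 := le_of_mul_le_mul_left h6 hSp
      rw [inv_one, one_mul, div_one, ← div_eq_mul_inv, div_div, le_div_iff₀ (by positivity)]
      calc ‖𝓕⁻ (Wt X t) (mk2 a b)‖ * (S * (1 + a ^ 2)) = S * (1 + a ^ 2) * ‖𝓕⁻ (Wt X t) (mk2 a b)‖ := by ring
        _ ≤ _ := h7
    calc ∫⁻ a : ℝ, ‖𝓕⁻ (Wt X t) (mk2 a b)‖ₑ ≤ ∫⁻ a : ℝ, ENNReal.ofReal (B * 2 ^ k * 2 ^ (k - 2) / S) *
        ENNReal.ofReal (1⁻¹ * (1 + (a / 1) ^ 2)⁻¹) := lintegral_mono hpt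
      _ = ENNReal.ofReal (B * 2 ^ k * 2 ^ (k - 2) / S) * ENNReal.ofReal Real.pi := by
        rw [lintegral_const_mul' _ _ ENNReal.ofReal_ne_top, Vale.Agent.P117.lintegral_w one_pos]
      _ = _ := by
        rw [← ENNReal.ofReal_mul (by positivity), hB']
        congr 1; ring
  have hslice : ∀ t ∈ Icc (-Λ) Λ, ∫⁻ x in {x : E2 | |x 1| ≤ 2 * R}, ‖wv X t f x‖ₑ ^ p ≤
      ENNReal.ofReal ((4 * B') ^ p * (R / S)) * ∫⁻ y, ‖f y‖ₑ ^ p := by
    intro t ht
    rw [wv_eq hX hXc hXs t hf]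
    have hKm : Measurable (𝓕⁻ (Wt X t)) :=
      (Vale.Agent.P117.continuous_fourierInv (integrable_Wt hX hXc t)).measurable
    exact schur_strip hKm hB'0 hR hRS (hker t (abs_le.2 ht)) hf.meas hfs hp1
  calc _ ≤ ∫⁻ t in Icc (-Λ) Λ, ENNReal.ofReal ((4 * B') ^ p * (R / S)) * ∫⁻ y, ‖f y‖ₑ ^ p :=
        setLIntegral_mono' measurableSet_Icc hslice
    _ = ENNReal.ofReal ((4 * B') ^ p * (R / S)) * (∫⁻ y, ‖f y‖ₑ ^ p) * ENNReal.ofReal (2 * Λ) := by
        rw [setLIntegral_const, Real.volume_Icc]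
        congr 2; ring
    _ = ENNReal.ofReal ((4 * B') ^ p * (R / S) * (2 * Λ)) * ∫⁻ y, ‖f y‖ₑ ^ p := by
        rw [ENNReal.ofReal_mul (q := 2 * Λ) (by positivity)]
        ring
    _ = _ := by
        congr 2; ring

end Vale.Agent.P106
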