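import Vale.Agent.P106.B.Low

/-! # Low angles: the estimate -/

open MeasureTheory Complex Set
open scoped ENNReal NNReal ContDiff FourierTransform SchwartzMap

set_option linter.all false

namespace Vale.Agent.P106

open Vale.Agent.P117 (E2 E3 Adm cv integrable_cv cv_inv_eq)

section
variable {χ w : ℝ → ℂ} (hp : Prof χ w)

theorem HC.deriv_lower {c C : ℝ} {h : ℝ → ℝ} (hh : HC c C h) {u : ℝ} (hu : 0 ≤ u) : c * u ≤ deriv h u := by
  have hd : ∀ x, HasDerivAt (fun x => deriv h x - c * x) (deriv (deriv h) x - c) x := by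
    intro x
    have h0 : HasDerivAt (deriv h) (deriv (deriv h) x) x :=
      (hh.smooth1.differentiable (by simp)).differentiableAt.hasDerivAt
    have h1 : HasDerivAt (fun x : ℝ => c * x) c x := by simpa using (hasDerivAt_id x).const_mul c
    exact h0.sub h1
  have hmono : Monotone (fun x => deriv h x - c * x) := by
    apply monotone_of_deriv_nonneg
    · intro x; exact (hd x).differentiableAt
    · intro x
      rw [(hd x).deriv]
      have := hh.lower x
      linarith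
  have := hmono hu
  simp only [hh.dzero, mul_zero, sub_zero] at this
  linarith

/-- `L¹` bound of the kernel along horizontal lines: non-stationary case -/
theorem kernel_L1 {c C : ℝ} (hc : 0 < c) {h : ℝ → ℝ} (hh : HC c C h) {σ Λ S W t b : ℝ} (hσ : 0 < σ)
    (hΛ : 0 ≤ Λ) (hS : 0 < S) (hW : 0 ≤ W) (hW1 : ∀ u, ‖w u‖ ≤ W) (hW2 : ∀ u, ‖deriv w u‖ ≤ W) (ht : |t| ≤ Λ)
    (hcond : ∀ u, |u| ≤ σ → Λ * |deriv h u| ≤ S / 4) (hb : 4 / 5 * S ≤ |b|) :
    ∫⁻ a : ℝ, ‖𝓕⁻ (Mt h χ w σ t) (mk2 a b)‖ₑ ≤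
      ENNReal.ofReal ((∫ v, ‖G1 hp v‖) * (4 * W + 2 * W * C / c) / S) := by
  have hC0 : 0 ≤ C := hc.le.trans ((hh.lower 0).trans (hh.upper 0))
  have hφ : ∀ u ∈ Icc (-σ) σ, S / 2 ≤ |b + t * deriv h u| := by
    intro u hu
    have h1 : |t * deriv h u| ≤ S / 4 := by
      rw [abs_mul]
      calc |t| * |deriv h u| ≤ Λ * |deriv h u| := by gcongr
        _ ≤ S / 4 := hcond u (abs_le.2 hu)
    have h2 := abs_sub_abs_le_abs_sub b (-(t * deriv h u))
    rw [abs_neg, sub_neg_eq_add] at h2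
    linarith
  have hne : ∀ u ∈ Icc (-σ) σ, b + t * deriv h u ≠ 0 := by
    intro u hu h0
    have := hφ u hu
    rw [h0, abs_zero] at this
    linarith
  set A : ℝ → ℂ := fun u => deriv w (u / σ) * (σ:ℂ)⁻¹ * ((b + t * deriv h u : ℝ) : ℂ)⁻¹ -
        w (u / σ) * ((t * deriv (deriv h) u : ℝ) : ℂ) * (((b + t * deriv h u : ℝ) : ℂ)⁻¹) ^ 2 with hA
  have hAm : Measurable A := by
    have m1 := hp.cw.continuous.measurable
    have m2 : Measurable (deriv w) := (hp.cw.continuous_deriv (by simp)).measurable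
    have m3 := hh.smooth1.continuous.measurable
    have m4 := hh.smooth2.continuous.measurable
    rw [hA]
    fun_prop
  set Q : ℝ := W * σ⁻¹ * (2 / S) + W * (Λ * C) * (2 / S) ^ 2 with hQ
  have hQ0 : 0 ≤ Q := by rw [hQ]; positivity
  have hAb : ∀ u ∈ Icc (-σ) σ, ‖A u‖ ≤ Q := by
    intro u hu
    have h1 : ‖((b + t * deriv h u : ℝ) : ℂ)⁻¹‖ ≤ 2 / S := by
      rw [norm_inv, Complex.norm_real, Real.norm_eq_abs, inv_le_comm₀ (by
        have := hφ u hu; linarith) (by positivity)]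
      rw [inv_div]
      exact hφ u hu
    have h2 : ‖((t * deriv (deriv h) u : ℝ) : ℂ)‖ ≤ Λ * C := by
      rw [Complex.norm_real, Real.norm_eq_abs, abs_mul]
      have := hh.upper u
      have h3 := hh.lower u
      rw [abs_of_nonneg (hc.le.trans h3)]
      gcongr
      exact hc.le.trans h3
    have h3 : ‖(σ:ℂ)⁻¹‖ = σ⁻¹ := by
      rw [norm_inv, Complex.norm_real, Real.norm_of_nonneg hσ.le]
    rw [hA, hQ]
    refine (norm_sub_le _ _).trans ?_
    rw [norm_mul, norm_mul, norm_mul, norm_mul, norm_pow, h3]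
    gcongr
    · exact hW2 _
    · exact hW1 _
  have hg1 : Measurable (fun v => ‖G1 hp v‖ₑ) := (G1 hp).continuous.measurable.enorm
  -- pointwise bound
  have hpt : ∀ a, ‖𝓕⁻ (Mt h χ w σ t) (mk2 a b)‖ₑ ≤
      ∫⁻ u in Ioc (-σ) σ, ENNReal.ofReal Q * ‖G1 hp (a + u * b + t * h u)‖ₑ := by
    intro a
    have h1 := inv_Mt_ibp hp hh hσ t a b hne
    have h2 : ‖𝓕⁻ (Mt h χ w σ t) (mk2 a b)‖ₑ ≤ ‖(2 * Real.pi * I) * 𝓕⁻ (Mt h χ w σ t) (mk2 a b)‖ₑ := by
      rw [← ofReal_norm, ← ofReal_norm]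
      apply ENNReal.ofReal_le_ofReal
      have : ‖(2 * Real.pi * I : ℂ)‖ = 2 * Real.pi := by
        simp [abs_of_pos Real.pi_pos]
      rw [norm_mul, this]
      have hpi := Real.pi_gt_three
      have h0 := norm_nonneg (𝓕⁻ (Mt h χ w σ t) (mk2 a b))
      nlinarith
    refine h2.trans ?_
    rw [h1, enorm_neg, intervalIntegral.integral_of_le (by linarith)]
    refine (enorm_integral_le_lintegral_enorm _).trans ?_
    apply setLIntegral_mono' measurableSet_Ioc
    intro u hu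
    rw [enorm_mul]
    refine mul_le_mul' ?_ le_rfl
    rw [← ofReal_norm]
    exact ENNReal.ofReal_le_ofReal (hAb u ⟨hu.1.le, hu.2⟩)
  have hσΛ : σ * Λ ≤ S / (4 * c) := by
    have h1 := hcond σ (by rw [abs_of_pos hσ])
    have h2 := hh.deriv_lower hσ.le
    rw [abs_of_nonneg ((mul_nonneg hc.le hσ.le).trans h2)] at h1
    rw [le_div_iff₀ (by positivity)]
    have h3 : Λ * (c * σ) ≤ Λ * deriv h σ := by gcongr
    nlinarith
  calc ∫⁻ a : ℝ, ‖𝓕⁻ (Mt h χ w σ t) (mk2 a b)‖ₑ ≤ ∫⁻ a : ℝ, ∫⁻ u in Ioc (-σ) σ, ENNReal.ofReal Q *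
        ‖G1 hp (a + u * b + t * h u)‖ₑ := lintegral_mono hpt
    _ = ∫⁻ u in Ioc (-σ) σ, ∫⁻ a : ℝ, ENNReal.ofReal Q * ‖G1 hp (a + u * b + t * h u)‖ₑ := by
        rw [lintegral_lintegral_swap]
        have hhm := hh.smooth.continuous.measurable
        have m : Measurable (fun z : ℝ × ℝ => ENNReal.ofReal Q * ‖G1 hp (z.1 + z.2 * b + t * h z.2)‖ₑ) := by
          refine Measurable.const_mul (hg1.comp ?_) _
          have : Measurable (fun z : ℝ × ℝ => h z.2) := hhm.comp measurable_snd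
          fun_prop
        exact m.aemeasurable
    _ = ∫⁻ u in Ioc (-σ) σ, ENNReal.ofReal Q * ENNReal.ofReal (∫ v, ‖G1 hp v‖) := by
        refine lintegral_congr fun u => ?_
        rw [lintegral_const_mul' _ _ ENNReal.ofReal_ne_top,
          ofReal_integral_norm_eq_lintegral_enorm (G1 hp).integrable]
        congr 1
        have : ∀ a : ℝ, a + u * b + t * h u = a + (u * b + t * h u) := fun a => by ring
        simp_rw [this]
        exact lintegral_add_right_eq_self (fun v => ‖G1 hp v‖ₑ) _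
    _ = ENNReal.ofReal (Q * (∫ v, ‖G1 hp v‖) * (2 * σ)) := by
        rw [setLIntegral_const, Real.volume_Ioc, ← ENNReal.ofReal_mul hQ0, ← ENNReal.ofReal_mul (by
          have : 0 ≤ ∫ v, ‖G1 hp v‖ := integral_nonneg fun _ => norm_nonneg _
          positivity)]
        congr 1; ring
    _ ≤ _ := by
        apply ENNReal.ofReal_le_ofReal
        have hI : 0 ≤ ∫ v, ‖G1 hp v‖ := integral_nonneg fun _ => norm_nonneg _
        have key : Q * (2 * σ) ≤ (4 * W + 2 * W * C / c) / S := by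
          have e1 : Q * (2 * σ) = 4 * W / S + 8 * W * C / S ^ 2 * (σ * Λ) := by
            rw [hQ]; field_simp; ring
          have e2 : 8 * W * C / S ^ 2 * (σ * Λ) ≤ 8 * W * C / S ^ 2 * (S / (4 * c)) := by gcongr
          have e3 : 8 * W * C / S ^ 2 * (S / (4 * c)) = 2 * W * C / c / S := by field_simp; ring
          rw [e1, add_div]
          linarith
        calc Q * (∫ v, ‖G1 hp v‖) * (2 * σ) = (∫ v, ‖G1 hp v‖) * (Q * (2 * σ)) := by ring
          _ ≤ (∫ v, ‖G1 hp v‖) * ((4 * W + 2 * W * C / c) / S) := by gcongr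
          _ = _ := by ring

/-- `L¹` bound of the kernel along horizontal lines: trivial case -/
theorem kernel_L1' {h : ℝ → ℝ} (hh : Measurable h) {σ S W D t b : ℝ} (hσ : 0 < σ)
    (hS : 0 < S) (hW : 0 ≤ W) (hW1 : ∀ u, ‖w u‖ ≤ W) (hD : σ * S ≤ D) :
    ∫⁻ a : ℝ, ‖𝓕⁻ (Mt h χ w σ t) (mk2 a b)‖ₑ ≤
      ENNReal.ofReal ((∫ v, ‖G2S hp v‖) * (2 * W * D) / S) := by
  have hg1 : Measurable (fun v => ‖G2S hp v‖ₑ) := (G2S hp).continuous.measurable.enorm
  have hpt : ∀ a, ‖𝓕⁻ (Mt h χ w σ t) (mk2 a b)‖ₑ ≤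
      ∫⁻ u in Ioc (-σ) σ, ENNReal.ofReal W * ‖G2S hp (a + u * b + t * h u)‖ₑ := by
    intro a
    rw [inv_Mt' hp hh hσ t a b, intervalIntegral.integral_of_le (by linarith)]
    refine (enorm_integral_le_lintegral_enorm _).trans ?_
    apply setLIntegral_mono' measurableSet_Ioc
    intro u hu
    rw [enorm_mul, G2S_eq]
    refine mul_le_mul' ?_ le_rfl
    rw [← ofReal_norm]
    exact ENNReal.ofReal_le_ofReal (hW1 _)
  calc ∫⁻ a : ℝ, ‖𝓕⁻ (Mt h χ w σ t) (mk2 a b)‖ₑ ≤ ∫⁻ a : ℝ, ∫⁻ u in Ioc (-σ) σ, ENNReal.ofReal W *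
        ‖G2S hp (a + u * b + t * h u)‖ₑ := lintegral_mono hpt
    _ = ∫⁻ u in Ioc (-σ) σ, ∫⁻ a : ℝ, ENNReal.ofReal W * ‖G2S hp (a + u * b + t * h u)‖ₑ := by
        rw [lintegral_lintegral_swap]
        have m : Measurable (fun z : ℝ × ℝ => ENNReal.ofReal W * ‖G2S hp (z.1 + z.2 * b + t * h z.2)‖ₑ) := by
          refine Measurable.const_mul (hg1.comp ?_) _
          have : Measurable (fun z : ℝ × ℝ => h z.2) := hh.comp measurable_snd
          fun_prop
        exact m.aemeasurable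
    _ = ∫⁻ u in Ioc (-σ) σ, ENNReal.ofReal W * ENNReal.ofReal (∫ v, ‖G2S hp v‖) := by
        refine lintegral_congr fun u => ?_
        rw [lintegral_const_mul' _ _ ENNReal.ofReal_ne_top,
          ofReal_integral_norm_eq_lintegral_enorm (G2S hp).integrable]
        congr 1
        have : ∀ a : ℝ, a + u * b + t * h u = a + (u * b + t * h u) := fun a => by ring
        simp_rw [this]
        exact lintegral_add_right_eq_self (fun v => ‖G2S hp v‖ₑ) _
    _ = ENNReal.ofReal (W * (∫ v, ‖G2S hp v‖) * (2 * σ)) := by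
        rw [setLIntegral_const, Real.volume_Ioc, ← ENNReal.ofReal_mul hW, ← ENNReal.ofReal_mul (by
          have : 0 ≤ ∫ v, ‖G2S hp v‖ := integral_nonneg fun _ => norm_nonneg _
          positivity)]
        congr 1; ring
    _ ≤ _ := by
        apply ENNReal.ofReal_le_ofReal
        have hI : 0 ≤ ∫ v, ‖G2S hp v‖ := integral_nonneg fun _ => norm_nonneg _
        have e1 : σ ≤ D / S := by rw [le_div_iff₀ hS]; exact hD
        calc W * (∫ v, ‖G2S hp v‖) * (2 * σ) ≤ W * (∫ v, ‖G2S hp v‖) * (2 * (D / S)) := by gcongr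
          _ = _ := by ring

end

theorem stLow : StLow := by
  intro c C D hc χ w hp p hpp
  obtain ⟨W, hW, hW1, hW2⟩ := w_bounds hp
  have hp1 : 1 ≤ p := by rcases hpp with h | h <;> rw [h] <;> norm_num
  set I1 : ℝ := ∫ v, ‖G1 hp v‖ with hI1
  set I2 : ℝ := ∫ v, ‖G2S hp v‖ with hI2
  have hI10 : 0 ≤ I1 := integral_nonneg fun _ => norm_nonneg _
  have hI20 : 0 ≤ I2 := integral_nonneg fun _ => norm_nonneg _
  set B : ℝ := I1 * (4 * W + 2 * W * |C| / c) + I2 * (2 * W * |D|) with hB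
  have hB0 : 0 ≤ B := by rw [hB]; positivity
  refine ⟨2 * (4 * B) ^ p, by positivity, ?_⟩
  intro h hh Λ R S σ hΛ hR hRS hσ hcond f hf hfs
  have hS : 0 < S := by linarith
  have hhm : Measurable h := hh.smooth.continuous.measurable
  have hC0 : 0 ≤ C := hc.le.trans ((hh.lower 0).trans (hh.upper 0))
  have hker : ∀ t, |t| ≤ Λ → ∀ b : ℝ, 4 / 5 * S ≤ |b| →
      ∫⁻ a : ℝ, ‖𝓕⁻ (Mt h χ w σ t) (mk2 a b)‖ₑ ≤ ENNReal.ofReal (B / S) := by
    intro t ht b hb
    rcases hcond with h1 | h1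
    · refine (kernel_L1 hp hc hh hσ (by linarith) hS hW hW1 hW2 ht h1 hb).trans ?_
      apply ENNReal.ofReal_le_ofReal
      rw [← hI1]
      gcongr
      rw [hB, abs_of_nonneg hC0]
      have : 0 ≤ I2 * (2 * W * |D|) := by positivity
      linarith
    · refine (kernel_L1' hp hhm hσ hS hW hW1 h1).trans ?_
      apply ENNReal.ofReal_le_ofReal
      rw [← hI2]
      gcongr
      rw [hB]
      have e1 : 0 ≤ I1 * (4 * W + 2 * W * |C| / c) := by positivity
      have e2 : I2 * (2 * W * D) ≤ I2 * (2 * W * |D|) := by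
        gcongr
        exact le_abs_self _
      linarith
  have hslice : ∀ t ∈ Icc (-Λ) Λ, ∫⁻ x in {x : E2 | |x 1| ≤ 2 * R}, ‖evarc h χ w 0 σ t f x‖ₑ ^ p ≤
      ENNReal.ofReal ((4 * B) ^ p * (R / S)) * ∫⁻ y, ‖f y‖ₑ ^ p := by
    intro t ht
    rw [evarc_eq hp hhm hσ t hf]
    have hKm : Measurable (𝓕⁻ (Mt h χ w σ t)) :=
      (Vale.Agent.P117.continuous_fourierInv (integrable_Mt hp hhm hσ t)).measurable
    exact schur_strip hKm hB0 hR hRS (hker t (abs_le.2 ht)) hf.meas hfs hp1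
  calc _ ≤ ∫⁻ t in Icc (-Λ) Λ, ENNReal.ofReal ((4 * B) ^ p * (R / S)) * ∫⁻ y, ‖f y‖ₑ ^ p :=
        setLIntegral_mono' measurableSet_Icc hslice
    _ = ENNReal.ofReal ((4 * B) ^ p * (R / S)) * (∫⁻ y, ‖f y‖ₑ ^ p) * ENNReal.ofReal (2 * Λ) := by
        rw [setLIntegral_const, Real.volume_Icc]
        congr 2; ring
    _ = ENNReal.ofReal ((4 * B) ^ p * (R / S) * (2 * Λ)) * ∫⁻ y, ‖f y‖ₑ ^ p := by
        rw [ENNReal.ofReal_mul (q := 2 * Λ) (by positivity)]
        ring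
    _ = _ := by
        congr 2; ring

end Vale.Agent.P106
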