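import Vale.Agent.P106.B.TSe
import Vale.Agent.P106.B.Arc
import Vale.Agent.P106.B.CK
import Vale.Agent.P106.B.LowMain
import Vale.Agent.P106.C.PL

/-! # Summary of the finished blocks -/

namespace Vale.Agent.P106

theorem slab_final : StSL := stSL C.StPL_proof stTS

theorem ar3_final : StAR3 := stAR3 slab_final C.StPL_proof

end Vale.Agent.P106
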