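import Vale.Agent.P106.Defs
import Vale.Agent.P117.Bdl.B2

/-! # Linear changes of variables in the plane -/

open MeasureTheory Complex Set
open scoped ENNReal NNReal ContDiff FourierTransform SchwartzMap

set_option linter.all false

namespace Vale.Agent.P106

open Vale.Agent.P117 (E2 E3 Adm cv)

/-- linear map of the plane -/
noncomputable def lin2 (a b c d : ℝ) : E2 →ₗ[ℝ] E2 :=
  Matrix.toLin (EuclideanSpace.basisFun (Fin 2) ℝ).toBasis (EuclideanSpace.basisFun (Fin 2) ℝ).toBasis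
    !![a, b; c, d]

theorem lin2_det (a b c d : ℝ) : LinearMap.det (lin2 a b c d) = a * d - b * c := by
  unfold lin2
  rw [LinearMap.det_toLin, Matrix.det_fin_two_of]

theorem lin2_apply (a b c d : ℝ) (y : E2) : lin2 a b c d y = !₂[a * y 0 + b * y 1, c * y 0 + d * y 1] := by
  ext i
  unfold lin2
  fin_cases i <;>
  · simp [Matrix.toLin_apply, Fin.sum_univ_two, Matrix.mulVec, dotProduct]

theorem lin2_emb {a b c d : ℝ} (h : a * d - b * c ≠ 0) : MeasurableEmbedding (lin2 a b c d) := by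
  have hdet : LinearMap.det (lin2 a b c d) ≠ 0 := by rwa [lin2_det]
  have : Function.Injective (lin2 a b c d) := (LinearMap.equivOfDetNeZero _ hdet).injective
  exact ((lin2 a b c d).continuous_of_finiteDimensional.measurableEmbedding this)

theorem integral_lin2 {a b c d : ℝ} (h : a * d - b * c ≠ 0) (F : E2 → ℂ) :
    ∫ y : E2, F (!₂[a * y 0 + b * y 1, c * y 0 + d * y 1]) = (|(a * d - b * c)⁻¹| : ℝ) • ∫ x, F x := by
  have hdet : LinearMap.det (lin2 a b c d) ≠ 0 := by rwa [lin2_det]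
  have hmap := Measure.map_linearMap_addHaar_eq_smul_addHaar (μ := (volume : Measure E2)) hdet
  have h2 : ∫ y, F (lin2 a b c d y) = ∫ ξ, F ξ ∂(Measure.map (lin2 a b c d) volume) :=
    ((lin2_emb h).integral_map F).symm
  simp_rw [← lin2_apply]
  rw [h2, hmap, integral_smul_measure, lin2_det, ENNReal.toReal_ofReal (abs_nonneg _)]

theorem lintegral_lin2 {a b c d : ℝ} (h : a * d - b * c ≠ 0) (F : E2 → ℝ≥0∞) :
    ∫⁻ y : E2, F (!₂[a * y 0 + b * y 1, c * y 0 + d * y 1]) =
      ENNReal.ofReal |(a * d - b * c)⁻¹| * ∫⁻ x, F x := by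
  have hdet : LinearMap.det (lin2 a b c d) ≠ 0 := by rwa [lin2_det]
  have hmap := Measure.map_linearMap_addHaar_eq_smul_addHaar (μ := (volume : Measure E2)) hdet
  have h2 : ∫⁻ y, F (lin2 a b c d y) = ∫⁻ ξ, F ξ ∂(Measure.map (lin2 a b c d) volume) :=
    ((lin2_emb h).lintegral_map F).symm
  simp_rw [← lin2_apply]
  rw [h2, hmap, lintegral_smul_measure, lin2_det, smul_eq_mul]

theorem integrable_lin2 {a b c d : ℝ} (h : a * d - b * c ≠ 0) {F : E2 → ℂ} (hF : Integrable F) :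
    Integrable (fun y : E2 => F (!₂[a * y 0 + b * y 1, c * y 0 + d * y 1])) := by
  have hdet : LinearMap.det (lin2 a b c d) ≠ 0 := by rwa [lin2_det]
  have hmap := Measure.map_linearMap_addHaar_eq_smul_addHaar (μ := (volume : Measure E2)) hdet
  simp_rw [← lin2_apply]
  have := ((lin2_emb h).integrable_map_iff (g := F) (μ := volume)).1 (by
    rw [hmap]
    exact hF.smul_measure ENNReal.ofReal_ne_top)
  exact this

theorem continuous_lin2 (a b c d : ℝ) : Continuous (fun y : E2 => (!₂[a * y 0 + b * y 1, c * y 0 + d * y 1] : E2)) := by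
  simp_rw [← lin2_apply]
  exact (lin2 a b c d).continuous_of_finiteDimensional

theorem four_eq (f : E2 → ℂ) (ξ : E2) : 𝓕 f ξ = ∫ x : E2, cexp (((-2 * Real.pi * (x 0 * ξ 0 + x 1 * ξ 1) : ℝ) : ℂ) * I) * f x := by
  rw [Real.fourier_eq']
  congr 1
  ext x
  rw [smul_eq_mul, Vale.Agent.P117.E2_inner]

theorem inv2_eq (f : E2 → ℂ) (x : E2) : 𝓕⁻ f x = ∫ ξ : E2, cexp (((2 * Real.pi * (x 0 * ξ 0 + x 1 * ξ 1) : ℝ) : ℂ) * I) * f ξ := by
  rw [Real.fourierInv_eq']
  congr 1
  ext ξ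
  rw [smul_eq_mul, Vale.Agent.P117.E2_inner, mul_comm (ξ 0), mul_comm (ξ 1)]

end Vale.Agent.P106
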