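import Vale.Agent.P106.B.Strip

/-! # Low angles: one integration by parts -/

open MeasureTheory Complex Set
open scoped ENNReal NNReal ContDiff FourierTransform SchwartzMap

set_option linter.all false

namespace Vale.Agent.P106

open Vale.Agent.P117 (E2 E3 Adm cv integrable_cv cv_inv_eq)

section
variable {χ w : ℝ → ℂ} (hp : Prof χ w)

include hp in
theorem hasCompactSupport_chi : HasCompactSupport χ := by
  apply HasCompactSupport.of_support_subset_isCompact (isCompact_Icc (a := (1/100:ℝ)) (b := 100))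
  intro t ht
  exact hp.sχ t ht

include hp in
theorem hasCompactSupport_w : HasCompactSupport w := by
  apply HasCompactSupport.of_support_subset_isCompact (isCompact_Icc (a := (-1:ℝ)) (b := 1))
  intro t ht
  exact abs_le.1 (hp.sw t ht)

noncomputable def chS : 𝓢(ℝ, ℂ) := (hasCompactSupport_chi hp).toSchwartzMap hp.cχ

/-- the profile -/
noncomputable def G1 : 𝓢(ℝ, ℂ) := 𝓕⁻ (chS hp)

/-- character -/
noncomputable def er (v : ℝ) : ℂ := cexp (((2 * Real.pi * v : ℝ) : ℂ) * I)

theorem norm_er (v : ℝ) : ‖er v‖ = 1 := by unfold er; exact Complex.norm_exp_ofReal_mul_I _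
theorem er_add (u v : ℝ) : er (u + v) = er u * er v := by
  unfold er; rw [← Complex.exp_add]; congr 1; push_cast; ring
theorem continuous_er : Continuous er := by unfold er; fun_prop

theorem G1_eq (v : ℝ) : G1 hp v = ∫ ξ : ℝ, er (ξ * v) * χ ξ := by
  have : (G1 hp) v = 𝓕⁻ (chS hp : ℝ → ℂ) v := by
    unfold G1
    rw [SchwartzMap.fourierInv_coe]
  rw [this, Real.fourierInv_eq']
  congr 1
  ext ξ
  rw [smul_eq_mul]
  unfold er
  have : inner ℝ ξ v = ξ * v := by simp [mul_comm]
  rw [this]
  rfl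

/-- derivative of the profile -/
noncomputable def G2 (χ : ℝ → ℂ) (v : ℝ) : ℂ := ∫ ξ : ℝ, er (ξ * v) * (ξ * χ ξ)

include hp in
theorem hasDerivAt_G1 (v : ℝ) : HasDerivAt (G1 hp) (2 * Real.pi * I * G2 χ v) v := by
  have hcs := hasCompactSupport_chi hp
  have hcont : Continuous (fun ξ : ℝ => (ξ : ℂ) * χ ξ) := by
    have := hp.cχ.continuous
    fun_prop
  have hcs2 : HasCompactSupport (fun ξ : ℝ => (ξ : ℂ) * χ ξ) := hcs.mul_left
  have hint : Integrable (fun ξ : ℝ => (ξ : ℂ) * χ ξ) := hcont.integrable_of_hasCompactSupport hcs2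
  have hint0 : Integrable χ := hp.cχ.continuous.integrable_of_hasCompactSupport hcs
  have e : (G1 hp : ℝ → ℂ) = fun v => ∫ ξ : ℝ, er (ξ * v) * χ ξ := by ext v; exact G1_eq hp v
  rw [e]
  have h := hasDerivAt_integral_of_dominated_loc_of_deriv_le (μ := (volume : Measure ℝ)) (𝕜 := ℝ)
    (F := fun v ξ => er (ξ * v) * χ ξ) (F' := fun v ξ => (2 * Real.pi * I) * (er (ξ * v) * (ξ * χ ξ)))
    (x₀ := v) (s := univ) (bound := fun ξ => 2 * Real.pi * ‖(ξ:ℂ) * χ ξ‖) Filter.univ_mem
    (by
      filter_upwards with v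
      have := hp.cχ.continuous
      have := continuous_er
      exact Continuous.aestronglyMeasurable (by fun_prop))
    (by
      refine hint0.norm.mono' ?_ ?_
      · have := hp.cχ.continuous
        have := continuous_er
        exact Continuous.aestronglyMeasurable (by fun_prop)
      · filter_upwards with ξ
        rw [norm_mul, norm_er, one_mul])
    (by
      have := hp.cχ.continuous
      have := continuous_er
      exact Continuous.aestronglyMeasurable (by fun_prop))
    (by
      filter_upwards with ξ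
      intro v _
      have : ‖(2 * Real.pi * I : ℂ)‖ = 2 * Real.pi := by
        simp [abs_of_pos Real.pi_pos]
      rw [norm_mul (2 * Real.pi * I : ℂ), norm_mul (er _), norm_er, one_mul, this])
    (hint.norm.const_mul _)
    (by
      filter_upwards with ξ
      intro v _
      have h1 : HasDerivAt (fun v : ℝ => er (ξ * v)) (er (ξ * v) * (2 * Real.pi * ξ * I)) v := by
        unfold er
        have h2 : HasDerivAt (fun v : ℝ => (((2 * Real.pi * (ξ * v) : ℝ) : ℂ) * I)) (2 * Real.pi * ξ * I) v := by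
          have h3 : HasDerivAt (fun v : ℝ => (2 * Real.pi * (ξ * v) : ℝ)) (2 * Real.pi * ξ) v := by
            have := ((hasDerivAt_id v).const_mul ξ).const_mul (2 * Real.pi)
            simpa using this
          have h4 := h3.ofReal_comp.mul_const I
          simpa using h4
        exact h2.cexp
      have h5 := h1.mul_const (χ ξ)
      refine h5.congr_deriv ?_
      ring)
  refine h.2.congr_deriv ?_
  rw [integral_const_mul]
  rfl

theorem contDiff_ch2 (hp : Prof χ w) : ContDiff ℝ ∞ (fun ξ : ℝ => (ξ : ℂ) * χ ξ) := by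
  have h1 : ContDiff ℝ ∞ (fun ξ : ℝ => (ξ : ℂ)) := Complex.ofRealCLM.contDiff
  exact h1.mul hp.cχ

noncomputable def ch2S : 𝓢(ℝ, ℂ) :=
  HasCompactSupport.toSchwartzMap (f := fun ξ : ℝ => (ξ : ℂ) * χ ξ) ((hasCompactSupport_chi hp).mul_left)
    (contDiff_ch2 hp)

noncomputable def G2S : 𝓢(ℝ, ℂ) := 𝓕⁻ (ch2S hp)

theorem G2S_eq (v : ℝ) : G2S hp v = G2 χ v := by
  have : (G2S hp) v = 𝓕⁻ (ch2S hp : ℝ → ℂ) v := by
    unfold G2S
    rw [SchwartzMap.fourierInv_coe]
  rw [this, Real.fourierInv_eq']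
  unfold G2
  congr 1
  ext ξ
  rw [smul_eq_mul]
  unfold er
  have : inner ℝ ξ v = ξ * v := by simp [mul_comm]
  rw [this]
  rfl

include hp in
theorem continuous_G2 : Continuous (G2 χ) := by
  have : G2 χ = (G2S hp : ℝ → ℂ) := by ext v; rw [G2S_eq]
  rw [this]; exact (G2S hp).continuous

/-- the kernel multiplier -/
noncomputable def Mt (h : ℝ → ℝ) (χ w : ℝ → ℂ) (σ t : ℝ) (ξ : E2) : ℂ :=
  cexp (2 * Real.pi * I * (t * qh h ξ : ℝ)) * marc χ w 0 σ ξ

include hp in
theorem integrable_Mt {h : ℝ → ℝ} (hh : Measurable h) {σ : ℝ} (hσ : 0 < σ) (t : ℝ) : Integrable (Mt h χ w σ t) := by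
  have h1 := integrable_marc hp 0 σ hσ
  have hq := measurable_qh hh
  refine h1.norm.mono' ?_ ?_
  · have : Measurable (fun ξ : E2 => cexp (2 * Real.pi * I * (t * qh h ξ : ℝ))) := by fun_prop
    exact this.aestronglyMeasurable.mul h1.aestronglyMeasurable
  · filter_upwards with ξ
    unfold Mt
    have e : (2 * Real.pi * I * (t * qh h ξ : ℝ) : ℂ) = ((2 * Real.pi * (t * qh h ξ) : ℝ) : ℂ) * I := by
      push_cast; ring
    rw [norm_mul, e, Complex.norm_exp_ofReal_mul_I, one_mul]

include hp in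
theorem evarc_eq {h : ℝ → ℝ} (hh : Measurable h) {σ : ℝ} (hσ : 0 < σ) (t : ℝ) {f : E2 → ℂ} (hf : Adm volume f) :
    evarc h χ w 0 σ t f = cv (𝓕⁻ (Mt h χ w σ t)) f := by
  rw [cv_inv_eq (integrable_Mt hp hh hσ t) hf.int]
  have : (fun ξ : E2 => Mt h χ w σ t ξ * 𝓕 f ξ) =
      fun ξ : E2 => cexp (2 * Real.pi * I * (t * qh h ξ : ℝ)) * (marc χ w 0 σ ξ * 𝓕 f ξ) := by
    ext ξ
    unfold Mt
    ring
  rw [this]
  rfl

include hp in
/-- polar form of the kernel -/
theorem inv_Mt {h : ℝ → ℝ} (hh : Measurable h) {σ : ℝ} (hσ : 0 < σ) (t a b : ℝ) :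
    𝓕⁻ (Mt h χ w σ t) (mk2 a b) = ∫ u : ℝ, w (u / σ) * G2 χ (a + u * b + t * h u) := by
  have hcw : Continuous w := hp.cw.continuous
  have hcχ : Continuous χ := hp.cχ.continuous
  rw [inv2_eq]
  have ha : (mk2 a b) 0 = a := rfl
  have hb : (mk2 a b) 1 = b := rfl
  rw [ha, hb]
  -- write as an integral over ℝ × ℝ
  set F : ℝ × ℝ → ℂ := fun z => er (a * z.1 + b * z.2) * (er (t * (z.1 * h (z.2 / z.1))) *
    (χ z.1 * w ((z.2 / z.1 - 0) / σ))) with hF
  have e1 : ∫ ξ : E2, cexp (((2 * Real.pi * (a * ξ 0 + b * ξ 1) : ℝ) : ℂ) * I) * Mt h χ w σ t ξ =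
      ∫ z, F z := by
    rw [← Vale.Agent.P117.integral_E2 F]
    congr 1
    ext ξ
    simp only [hF, Mt, marc, qh, er]
    congr 2
    push_cast
    ring_nf
  have hFi : Integrable F := by
    have h1 : Integrable (fun ξ : E2 => cexp (((2 * Real.pi * (a * ξ 0 + b * ξ 1) : ℝ) : ℂ) * I) * Mt h χ w σ t ξ) := by
      have h0 := integrable_Mt hp hh hσ t
      refine h0.norm.mono' ?_ ?_
      · have : Continuous (fun ξ : E2 => cexp (((2 * Real.pi * (a * ξ 0 + b * ξ 1) : ℝ) : ℂ) * I)) := by fun_prop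
        exact this.aestronglyMeasurable.mul h0.aestronglyMeasurable
      · filter_upwards with ξ
        rw [norm_mul, Complex.norm_exp_ofReal_mul_I, one_mul]
    have h2 : (fun ξ : E2 => cexp (((2 * Real.pi * (a * ξ 0 + b * ξ 1) : ℝ) : ℂ) * I) * Mt h χ w σ t ξ) =
        F ∘ Vale.Agent.P117.pe := by
      ext ξ
      simp only [hF, Mt, marc, qh, er, Function.comp_apply, Vale.Agent.P117.pe_apply]
      congr 2
      push_cast
      ring_nf
    rw [h2] at h1
    exact (Vale.Agent.P117.mp_pe.integrable_comp_emb Vale.Agent.P117.pe.measurableEmbedding).1 h1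
  rw [e1, Measure.volume_eq_prod, integral_prod _ (by rwa [← Measure.volume_eq_prod])]
  -- inner substitution
  have e2 : ∀ r : ℝ, ∫ v : ℝ, F (r, v) = ∫ u : ℝ, er (r * (a + u * b + t * h u)) * (r * χ r) * w (u / σ) := by
    intro r
    by_cases hr : χ r = 0
    · have : ∀ v, F (r, v) = 0 := by intro v; simp only [hF]; rw [hr]; ring
      simp_rw [this, hr]
      simp
    · have hr0 : 0 < r := by have := (hp.sχ r hr).1; linarith
      have h3 := Measure.integral_comp_mul_left (fun v => F (r, v)) r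
      rw [abs_of_pos (by positivity), Complex.real_smul] at h3
      have h4 : ∫ v : ℝ, F (r, v) = (r : ℂ) * ∫ u : ℝ, F (r, r * u) := by
        rw [h3, ← mul_assoc, ← Complex.ofReal_mul, mul_inv_cancel₀ hr0.ne', Complex.ofReal_one, one_mul]
      rw [h4, ← integral_const_mul]
      congr 1
      ext u
      simp only [hF]
      have : r * u / r = u := by field_simp
      rw [this, sub_zero]
      have h5 : er (r * (a + u * b + t * h u)) = er (a * r + b * (r * u)) * er (t * (r * h u)) := by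
        rw [← er_add]; congr 1; ring
      rw [h5]
      ring
  simp only [e2]
  rw [integral_integral_swap]
  · congr 1
    ext u
    unfold G2
    rw [← integral_const_mul]
    congr 1
    ext r
    ring
  · have i1 : Integrable (fun r : ℝ => (r:ℂ) * χ r) :=
      (contDiff_ch2 hp).continuous.integrable_of_hasCompactSupport ((hasCompactSupport_chi hp).mul_left)
    have i2 : Integrable (fun u : ℝ => w (u / σ)) :=
      (hcw.integrable_of_hasCompactSupport (hasCompactSupport_w hp)).comp_div hσ.ne'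
    have i3 : Integrable (fun z : ℝ × ℝ => ((z.1:ℂ) * χ z.1) * w (z.2 / σ)) (volume.prod volume) := i1.mul_prod i2
    refine i3.norm.mono' ?_ ?_
    · have m1 : Measurable (fun z : ℝ × ℝ => er (z.1 * (a + z.2 * b + t * h z.2))) := by
        have h2 : Measurable (fun z : ℝ × ℝ => h z.2) := hh.comp measurable_snd
        exact continuous_er.measurable.comp (by fun_prop)
      have m2 : Measurable (fun z : ℝ × ℝ => (z.1:ℂ) * χ z.1) := by
        have := hcχ.measurable
        fun_prop
      have m3 : Measurable (fun z : ℝ × ℝ => w (z.2 / σ)) := hcw.measurable.comp (by fun_prop)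
      exact ((m1.mul m2).mul m3).aestronglyMeasurable
    · filter_upwards with z
      simp only [Function.uncurry, norm_mul, norm_er, one_mul]
      exact le_rfl

/-- sup norms of the profile -/
theorem w_bounds (hp : Prof χ w) : ∃ W : ℝ, 0 ≤ W ∧ (∀ u, ‖w u‖ ≤ W) ∧ (∀ u, ‖deriv w u‖ ≤ W) := by
  obtain ⟨C, hC⟩ := (hasCompactSupport_w hp).exists_bound_of_continuous hp.cw.continuous
  have h1 : Continuous (deriv w) := hp.cw.continuous_deriv (by simp)
  obtain ⟨C', hC'⟩ := (hasCompactSupport_w hp).deriv.exists_bound_of_continuous h1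
  refine ⟨max C C', ?_, fun u => (hC u).trans (le_max_left _ _), fun u => (hC' u).trans (le_max_right _ _)⟩
  exact le_max_of_le_left ((norm_nonneg _).trans (hC 0))

theorem w_end (hp : Prof χ w) : w 1 = 0 ∧ w (-1) = 0 := by
  have hc := hp.cw.continuous
  constructor
  · have h1 : Filter.Tendsto w (nhdsWithin 1 (Ioi 1)) (nhds (w 1)) := hc.continuousAt.tendsto.mono_left nhdsWithin_le_nhds
    have h2 : Filter.Tendsto w (nhdsWithin 1 (Ioi 1)) (nhds 0) := by
      refine Filter.Tendsto.congr' ?_ tendsto_const_nhds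
      filter_upwards [self_mem_nhdsWithin] with t ht
      by_contra hne
      have := hp.sw t (Ne.symm hne)
      have ht' : 1 < t := ht
      rw [abs_le] at this
      linarith [this.2]
    exact tendsto_nhds_unique h1 h2
  · have h1 : Filter.Tendsto w (nhdsWithin (-1) (Iio (-1))) (nhds (w (-1))) :=
      hc.continuousAt.tendsto.mono_left nhdsWithin_le_nhds
    have h2 : Filter.Tendsto w (nhdsWithin (-1) (Iio (-1))) (nhds 0) := by
      refine Filter.Tendsto.congr' ?_ tendsto_const_nhds
      filter_upwards [self_mem_nhdsWithin] with t ht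
      by_contra hne
      have := hp.sw t (Ne.symm hne)
      have ht' : t < -1 := ht
      rw [abs_le] at this
      linarith [this.1]
    exact tendsto_nhds_unique h1 h2

include hp in
/-- restriction of the kernel integral to `[-σ, σ]` -/
theorem inv_Mt' {h : ℝ → ℝ} (hh : Measurable h) {σ : ℝ} (hσ : 0 < σ) (t a b : ℝ) :
    𝓕⁻ (Mt h χ w σ t) (mk2 a b) = ∫ u in (-σ)..σ, w (u / σ) * G2 χ (a + u * b + t * h u) := by
  rw [inv_Mt hp hh hσ, intervalIntegral.integral_of_le (by linarith), ← integral_indicator measurableSet_Ioc]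
  apply integral_congr_ae
  have : ∀ᵐ u : ℝ, u ≠ -σ := by
    rw [ae_iff]
    simp
  filter_upwards [this] with u hu
  by_cases hu2 : u ∈ Ioc (-σ) σ
  · rw [indicator_of_mem hu2]
  · rw [indicator_of_notMem hu2]
    have : w (u / σ) = 0 := by
      by_contra hne
      have h1 := hp.sw _ hne
      rw [abs_div, abs_of_pos hσ, div_le_one hσ, abs_le] at h1
      exact hu2 ⟨lt_of_le_of_ne h1.1 (Ne.symm hu), h1.2⟩
    rw [this, zero_mul]

include hp in
/-- the kernel after one integration by parts -/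
theorem inv_Mt_ibp {c C : ℝ} {h : ℝ → ℝ} (hh : HC c C h) {σ : ℝ} (hσ : 0 < σ) (t a b : ℝ)
    (hne : ∀ u ∈ Icc (-σ) σ, b + t * deriv h u ≠ 0) :
    (2 * Real.pi * I) * 𝓕⁻ (Mt h χ w σ t) (mk2 a b) = - ∫ u in (-σ)..σ,
      (deriv w (u / σ) * (σ:ℂ)⁻¹ * ((b + t * deriv h u : ℝ) : ℂ)⁻¹ -
        w (u / σ) * ((t * deriv (deriv h) u : ℝ) : ℂ) * (((b + t * deriv h u : ℝ) : ℂ)⁻¹) ^ 2) *
        G1 hp (a + u * b + t * h u) := by
  have hhm : Measurable h := hh.smooth.continuous.measurable
  rw [inv_Mt' hp hhm hσ, ← intervalIntegral.integral_const_mul]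
  have huIcc : uIcc (-σ) σ = Icc (-σ) σ := uIcc_of_le (by linarith)
  set φ : ℝ → ℝ := fun u => b + t * deriv h u with hφ
  have hφd : ∀ u, HasDerivAt φ (t * deriv (deriv h) u) u := by
    intro u
    have h0 : HasDerivAt (deriv h) (deriv (deriv h) u) u :=
      (hh.smooth1.differentiable (by simp)).differentiableAt.hasDerivAt
    exact (h0.const_mul t).const_add b
  have hwd : ∀ u, HasDerivAt (fun u => w (u / σ)) (deriv w (u / σ) * (σ:ℂ)⁻¹) u := by
    intro u
    have h0 : HasDerivAt w (deriv w (u / σ)) (u / σ) :=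
      (hp.cw.differentiable (by simp)).differentiableAt.hasDerivAt
    have h1 : HasDerivAt (fun u : ℝ => u / σ) (σ⁻¹) u := by
      have := (hasDerivAt_id u).div_const σ
      simpa using this
    have h2 := h0.scomp u h1
    refine h2.congr_deriv ?_
    rw [Complex.real_smul, Complex.ofReal_inv]
    ring
  have hu : ∀ u ∈ uIcc (-σ) σ, HasDerivAt (fun u => w (u / σ) * ((φ u : ℝ) : ℂ)⁻¹)
      (deriv w (u / σ) * (σ:ℂ)⁻¹ * ((φ u : ℝ) : ℂ)⁻¹ -
        w (u / σ) * ((t * deriv (deriv h) u : ℝ) : ℂ) * (((φ u : ℝ) : ℂ)⁻¹) ^ 2) u := by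
    intro u hu
    rw [huIcc] at hu
    have hn : ((φ u : ℝ) : ℂ) ≠ 0 := by exact_mod_cast hne u hu
    have h1 := (hφd u).ofReal_comp
    have h2 := h1.inv hn
    refine ((hwd u).mul h2).congr_deriv ?_
    simp only [Pi.inv_apply]
    field_simp
    ring
  have hΦd : ∀ u, HasDerivAt (fun u => a + u * b + t * h u) (φ u) u := by
    intro u
    have h1 : HasDerivAt (fun u : ℝ => a + u * b) b u := by
      have := ((hasDerivAt_id u).mul_const b).const_add a
      simpa using this
    exact h1.add ((hh.hd1 u).const_mul t)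
  have hv : ∀ u ∈ uIcc (-σ) σ, HasDerivAt (fun u => G1 hp (a + u * b + t * h u))
      ((φ u : ℂ) * (2 * Real.pi * I * G2 χ (a + u * b + t * h u))) u := by
    intro u _
    have h1 := (hasDerivAt_G1 hp (a + u * b + t * h u)).scomp u (hΦd u)
    refine h1.congr_deriv ?_
    rw [Complex.real_smul]
  have cφ : Continuous φ := by
    have := hh.smooth1.continuous
    rw [hφ]; fun_prop
  have cφi : ContinuousOn (fun u => ((φ u : ℝ) : ℂ)⁻¹) (uIcc (-σ) σ) := by
    apply ContinuousOn.inv₀
    · exact (Complex.continuous_ofReal.comp cφ).continuousOn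
    · intro u hu
      rw [huIcc] at hu
      exact_mod_cast hne u hu
  have cw := hp.cw.continuous
  have cw' : Continuous (deriv w) := hp.cw.continuous_deriv (by simp)
  have ch := hh.smooth.continuous
  have ch2 := hh.smooth2.continuous
  have cG2 := continuous_G2 hp
  have hu' : IntervalIntegrable (fun u => deriv w (u / σ) * (σ:ℂ)⁻¹ * ((φ u : ℝ) : ℂ)⁻¹ -
        w (u / σ) * ((t * deriv (deriv h) u : ℝ) : ℂ) * (((φ u : ℝ) : ℂ)⁻¹) ^ 2) volume (-σ) σ := by
    apply ContinuousOn.intervalIntegrable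
    have c1 : Continuous (fun u => deriv w (u / σ) * (σ:ℂ)⁻¹) := by fun_prop
    have c2 : Continuous (fun u => w (u / σ) * ((t * deriv (deriv h) u : ℝ) : ℂ)) := by fun_prop
    exact (c1.continuousOn.mul cφi).sub (c2.continuousOn.mul (cφi.pow 2))
  have hv' : IntervalIntegrable (fun u => (φ u : ℂ) * (2 * Real.pi * I * G2 χ (a + u * b + t * h u))) volume (-σ) σ := by
    apply Continuous.intervalIntegrable
    fun_prop
  have hibp := intervalIntegral.integral_mul_deriv_eq_deriv_mul hu hv hu' hv'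
  have hw1 : w (σ / σ) = 0 := by rw [div_self hσ.ne']; exact (w_end hp).1
  have hw2 : w (-σ / σ) = 0 := by rw [neg_div, div_self hσ.ne']; exact (w_end hp).2
  rw [hw1, hw2] at hibp
  simp only [zero_mul, sub_zero, zero_sub] at hibp
  rw [← hibp]
  apply intervalIntegral.integral_congr
  intro u hu2
  rw [huIcc] at hu2
  have hn : ((φ u : ℝ) : ℂ) ≠ 0 := by exact_mod_cast hne u hu2
  simp only
  field_simp

end

end Vale.Agent.P106
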