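import Vale.Agent.P106.B.Pieces

/-! # The cubic square function bound for the pieces -/

open MeasureTheory Complex Set
open scoped ENNReal NNReal ContDiff FourierTransform SchwartzMap

set_option linter.all false

namespace Vale.Agent.P106

open Vale.Agent.P117 (E2 E3 Adm cv)

theorem plancherel_inv_le {f : E2 → ℂ} (hf : Integrable f) (hfm : Measurable f) :
    ∫⁻ ξ, ‖𝓕⁻ f ξ‖ₑ ^ 2 ≤ ∫⁻ x, ‖f x‖ₑ ^ 2 := by
  have h1 := Vale.Agent.P117.lintegral_sq_fourier_le (hf.comp_neg) (hfm.comp measurable_neg)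
  rw [← Real.fourierInv_eq_fourier_comp_neg] at h1
  refine h1.trans (le_of_eq ?_)
  exact lintegral_neg_eq_self (fun x => ‖f x‖ₑ ^ 2)

theorem plancherel_le {g : E2 → ℂ} (hg : Integrable g) (hc : Continuous g) (hF : Integrable (𝓕 g)) :
    ∫⁻ x, ‖g x‖ₑ ^ 2 ≤ ∫⁻ ξ, ‖𝓕 g ξ‖ₑ ^ 2 := by
  have h1 : 𝓕⁻ (𝓕 g) = g := hc.fourierInv_fourier_eq hg hF
  have h2 := plancherel_inv_le hF (Vale.Agent.P117.continuous_fourier hg).measurable
  rwa [h1] at h2

theorem piece_L2 {K : ℕ} (hK : 1 ≤ K) {f : E2 → ℂ} (hf : Adm volume f) :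
    ∑ j ∈ Finset.Icc (-(K:ℤ)) K, ∫⁻ x, ‖piece K j f x‖ₑ ^ 2 ≤ 3 * ∫⁻ x, ‖f x‖ₑ ^ 2 := by
  have hFm : Measurable (𝓕 f) := (Vale.Agent.P117.continuous_fourier hf.int).measurable
  calc ∑ j ∈ Finset.Icc (-(K:ℤ)) K, ∫⁻ x, ‖piece K j f x‖ₑ ^ 2 ≤
      ∑ j ∈ Finset.Icc (-(K:ℤ)) K, ∫⁻ ξ, ‖mj K j ξ‖ₑ ^ 2 * ‖𝓕 f ξ‖ₑ ^ 2 := by
        apply Finset.sum_le_sum
        intro j hj
        rw [Finset.mem_Icc] at hj
        have hj' : |j| ≤ K := abs_le.2 ⟨hj.1, hj.2⟩
        have hi := integrable_fourier_of_FS (adm_piece hK j hf).int isCompact_Gbig (FS_piece_big hK j hf hj')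
        refine (plancherel_le (adm_piece hK j hf).int (continuous_piece hK j hf) hi).trans (le_of_eq ?_)
        refine lintegral_congr fun ξ => ?_
        rw [fourier_piece hK j hf, enorm_mul, mul_pow]
    _ = ∫⁻ ξ, (∑ j ∈ Finset.Icc (-(K:ℤ)) K, ‖mj K j ξ‖ₑ ^ 2) * ‖𝓕 f ξ‖ₑ ^ 2 := by
        rw [← lintegral_finset_sum]
        · refine lintegral_congr fun ξ => ?_
          rw [Finset.sum_mul]
        · intro j _
          exact ((continuous_mj j hK).measurable.enorm.pow_const 2).mul (hFm.enorm.pow_const 2)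
    _ ≤ ∫⁻ ξ, 3 * ‖𝓕 f ξ‖ₑ ^ 2 := by
        refine lintegral_mono fun ξ => ?_
        have h := ENNReal.ofReal_le_ofReal (sum_norm_mj_sq (K := K) ξ)
        rw [ENNReal.ofReal_sum_of_nonneg (fun j _ => by positivity)] at h
        have e : ∀ j, ENNReal.ofReal (‖mj K j ξ‖ ^ 2) = ‖mj K j ξ‖ₑ ^ 2 := by
          intro j
          rw [ENNReal.ofReal_pow (norm_nonneg _), ofReal_norm]
        simp_rw [e] at h
        have e3 : ENNReal.ofReal 3 = 3 := by norm_num
        rw [e3] at h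
        gcongr
    _ = 3 * ∫⁻ ξ, ‖𝓕 f ξ‖ₑ ^ 2 := lintegral_const_mul' _ _ (by norm_num)
    _ ≤ _ := mul_le_mul' le_rfl (Vale.Agent.P117.lintegral_sq_fourier_le hf.int hf.meas)

theorem piece_add {K : ℕ} (hK : 1 ≤ K) (j : ℤ) {f g : E2 → ℂ} (hf : Adm volume f) (hg : Adm volume g) (x : E2) :
    piece K j (fun x => f x + g x) x = piece K j f x + piece K j g x := by
  obtain ⟨C, hC⟩ := kpc_bdd hK j
  have hi : ∀ {f : E2 → ℂ}, Adm volume f → Integrable (fun y => kpc K j (x - y) * f y) := by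
    intro f hf
    apply hf.int.bdd_mul (c := C)
    · exact ((continuous_kpc K j).comp (by fun_prop)).aestronglyMeasurable
    · filter_upwards with y
      exact hC _
  unfold piece cv
  rw [← integral_add (hi hf) (hi hg)]
  congr 1
  ext y
  ring

/-- [M3] -/
theorem piece_L3 {K : ℕ} (hK : 1 ≤ K) {f : E2 → ℂ} (hf : Adm volume f) :
    ∑ j ∈ Finset.Icc (-(K:ℤ)) K, ∫⁻ x, ‖piece K j f x‖ₑ ^ 3 ≤
      ENNReal.ofReal (72 * B0) * ∫⁻ x, ‖f x‖ₑ ^ 3 := by
  set J : Finset ℤ := Finset.Icc (-(K:ℤ)) K with hJ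
  have hsum : ∀ (f : E2 → ℂ) (p : ℕ), Adm volume f →
      ∫⁻ z : J × E2, (fun z : J × E2 => ‖piece K z.1 f z.2‖ₑ) z ^ p ∂((Measure.count : Measure J).prod volume) =
        ∑ j ∈ J, ∫⁻ x, ‖piece K j f x‖ₑ ^ p := by
    intro f p hf
    have hm : Measurable (fun z : J × E2 => ‖piece K z.1 f z.2‖ₑ) := by
      apply measurable_from_prod_countable_right
      intro j
      exact (adm_piece hK j hf).meas.enorm
    rw [lintegral_prod _ (hm.pow_const p).aemeasurable, lintegral_count, tsum_fintype]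
    exact Finset.sum_coe_sort J (fun j => ∫⁻ x, ‖piece K j f x‖ₑ ^ p)
  have h := Tri.sublinear_interp (volume : Measure E2) ((Measure.count : Measure J).prod volume)
    (fun f (z : J × E2) => ‖piece K z.1 f z.2‖ₑ) (A := 3) (B := B0) (by norm_num) B0_nonneg
    (by
      intro f hf
      apply measurable_from_prod_countable_right
      intro j
      exact (adm_piece hK j hf).meas.enorm)
    (by
      intro f g hf hg z
      rw [piece_add hK _ hf hg]
      exact enorm_add_le _ _)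
    (by
      intro f hf
      rw [hsum f 2 hf]
      refine (piece_L2 hK hf).trans (le_of_eq ?_)
      norm_num)
    (by
      intro f hf M hM z
      rw [← ofReal_norm]
      exact ENNReal.ofReal_le_ofReal (norm_piece_le hK _ hf hM _))
    hf
  rw [hsum f 3 hf] at h
  refine h.trans (le_of_eq ?_)
  congr 2
  ring

end Vale.Agent.P106
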