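import Vale.Agent.P106.A.Red

/-! # Non-stationary phase for the planar multiplier: one-dimensional part -/

open MeasureTheory Complex Set
open scoped ENNReal NNReal ContDiff FourierTransform

set_option linter.all false

namespace Vale.Agent.P106

open Vale.Agent.P117 (E2 E3 Adm nrm Bump mult Th mult_eq)

/-- non-stationary range of `q = |ξ|²` -/
def NSq (q : ℝ) : Prop := (0 ≤ q ∧ q ≤ 1/400) ∨ 100 ≤ q

/-- weight -/
noncomputable def Wk (q s : ℝ) (a : ℤ) (k : ℕ) (τ : ℝ) : ℝ := τ ^ a * ((q - s ^ 2 / 4 * (τ ^ 2)⁻¹)⁻¹) ^ k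

/-- phase factor -/
noncomputable def Ek (Λ q s τ : ℝ) : ℂ := cexp (2 * Real.pi * I * ((Λ * (τ * q + s ^ 2 / 4 * τ⁻¹) : ℝ) : ℂ))

noncomputable def Jk (Λ q s : ℝ) (θ : ℝ → ℂ) (a : ℤ) (k : ℕ) : ℂ :=
  ∫ τ in (1/4:ℝ)..4, θ τ * (Wk q s a k τ : ℂ) * Ek Λ q s τ

theorem norm_Ek (Λ q s τ : ℝ) : ‖Ek Λ q s τ‖ = 1 := by
  unfold Ek
  have : (2 * Real.pi * I * ((Λ * (τ * q + s ^ 2 / 4 * τ⁻¹) : ℝ) : ℂ)) =
      ((2 * Real.pi * (Λ * (τ * q + s ^ 2 / 4 * τ⁻¹)) : ℝ) : ℂ) * I := by push_cast; ring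
  rw [this, Complex.norm_exp_ofReal_mul_I]

section
variable {q s : ℝ} (hs1 : 1 ≤ s) (hs2 : s ≤ 2) (hq : NSq q)

include hs1 hs2 hq in
theorem den_lower {τ : ℝ} (hτ : τ ∈ Icc (1/4:ℝ) 4) : (1 + q) / 100 ≤ |q - s ^ 2 / 4 * (τ ^ 2)⁻¹| := by
  obtain ⟨h1, h2⟩ := hτ
  have t0 : 0 < τ := by linarith
  have i1 : 1/16 ≤ (τ ^ 2)⁻¹ := by
    rw [le_inv_comm₀ (by norm_num) (by positivity)]
    norm_num
    nlinarith
  have i2 : (τ ^ 2)⁻¹ ≤ 16 := by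
    rw [inv_le_comm₀ (by positivity) (by norm_num)]
    nlinarith
  have s2 : s ^ 2 ≤ 4 := by nlinarith
  have s1 : 1 ≤ s ^ 2 := by nlinarith
  have b1 : 1/64 ≤ s ^ 2 / 4 * (τ ^ 2)⁻¹ := by
    have : (1/4:ℝ) * (1/16) ≤ s ^ 2 / 4 * (τ ^ 2)⁻¹ := mul_le_mul (by linarith) i1 (by norm_num) (by positivity)
    linarith
  have b2 : s ^ 2 / 4 * (τ ^ 2)⁻¹ ≤ 16 := by
    have : s ^ 2 / 4 * (τ ^ 2)⁻¹ ≤ 1 * 16 := mul_le_mul (by linarith) i2 (by positivity) (by norm_num)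
    linarith
  rcases hq with ⟨h3, h4⟩ | h3
  · refine le_trans ?_ (neg_le_abs _)
    linarith
  · refine le_trans ?_ (le_abs_self _)
    linarith

include hq in
theorem NSq.pos : 0 < 1 + q := by
  rcases hq with ⟨h3, h4⟩ | h3 <;> linarith

include hs1 hs2 hq in
theorem den_ne {τ : ℝ} (hτ : τ ∈ Icc (1/4:ℝ) 4) : q - s ^ 2 / 4 * (τ ^ 2)⁻¹ ≠ 0 := by
  have h1 := den_lower hs1 hs2 hq hτ
  have h2 := NSq.pos hq
  intro h
  rw [h, abs_zero] at h1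
  linarith

theorem zpow_bd (a : ℤ) : ∃ C : ℝ, 0 ≤ C ∧ ∀ τ ∈ Icc (1/4:ℝ) 4, |τ ^ a| ≤ C := by
  have hc : ContinuousOn (fun τ : ℝ => τ ^ a) (Icc (1/4:ℝ) 4) := by
    intro τ hτ
    exact (continuousAt_zpow₀ τ a (Or.inl (by have := hτ.1; intro h; rw [h] at this; norm_num at this))).continuousWithinAt
  obtain ⟨C, hC⟩ := isCompact_Icc.exists_bound_of_continuousOn hc
  refine ⟨C, (norm_nonneg _).trans (hC 1 (by norm_num)), fun τ hτ => hC τ hτ⟩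

theorem Wk_bd (a : ℤ) (k : ℕ) : ∃ C : ℝ, 0 ≤ C ∧ ∀ q s : ℝ, 1 ≤ s → s ≤ 2 → NSq q → ∀ τ ∈ Icc (1/4:ℝ) 4,
    |Wk q s a k τ| ≤ C * ((1 + q) ^ k)⁻¹ := by
  obtain ⟨C, hC, h⟩ := zpow_bd a
  refine ⟨C * 100 ^ k, by positivity, ?_⟩
  intro q s hs1 hs2 hq τ hτ
  unfold Wk
  have h0 := NSq.pos hq
  rw [abs_mul, abs_pow, abs_inv]
  have h1 : |q - s ^ 2 / 4 * (τ ^ 2)⁻¹|⁻¹ ≤ 100 * (1 + q)⁻¹ := by
    rw [inv_le_comm₀ (lt_of_lt_of_le (by positivity) (den_lower hs1 hs2 hq hτ)) (by positivity)]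
    rw [mul_inv, inv_inv]
    have := den_lower hs1 hs2 hq hτ
    linarith
  calc |τ ^ a| * |q - s ^ 2 / 4 * (τ ^ 2)⁻¹|⁻¹ ^ k ≤ C * (100 * (1 + q)⁻¹) ^ k := by
        gcongr
        exact h τ hτ
    _ = _ := by rw [mul_pow, inv_pow, mul_assoc]

include hs1 hs2 hq in
theorem hasDerivAt_Wk (a : ℤ) (k : ℕ) {τ : ℝ} (hτ : τ ∈ Icc (1/4:ℝ) 4) :
    HasDerivAt (Wk q s a k) (a * Wk q s (a - 1) k τ - k * (s ^ 2 / 2) * Wk q s (a - 3) (k + 1) τ) τ := by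
  have t0 : 0 < τ := by have := hτ.1; linarith
  have hne := den_ne hs1 hs2 hq hτ
  unfold Wk
  have h1 : HasDerivAt (fun τ : ℝ => τ ^ a) (a * τ ^ (a - 1)) τ := hasDerivAt_zpow a τ (Or.inl t0.ne')
  have h2 : HasDerivAt (fun τ : ℝ => q - s ^ 2 / 4 * (τ ^ 2)⁻¹) (s ^ 2 / 2 * (τ ^ 3)⁻¹) τ := by
    have h3 : HasDerivAt (fun τ : ℝ => τ ^ 2) (2 * τ) τ := by
      simpa using hasDerivAt_pow 2 τ
    have h4 := h3.inv (by positivity)
    refine ((h4.const_mul (s ^ 2 / 4)).const_sub q).congr_deriv ?_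
    field_simp
    ring
  have h3 := (h2.inv hne).pow k
  refine (h1.mul h3).congr_deriv ?_
  simp only [Pi.inv_apply, Pi.pow_apply]
  set r := (q - s ^ 2 / 4 * (τ ^ 2)⁻¹)⁻¹ with hr
  have e1 : -(s ^ 2 / 2 * (τ ^ 3)⁻¹) / (q - s ^ 2 / 4 * (τ ^ 2)⁻¹) ^ 2 = -(s ^ 2 / 2) * (τ ^ 3)⁻¹ * r ^ 2 := by
    rw [hr, inv_pow]
    ring
  have e2 : τ ^ (a - 3) = τ ^ a * (τ ^ 3)⁻¹ := by
    rw [zpow_sub₀ t0.ne']
    norm_cast
  rw [e2]
  rcases k with _ | k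
  · simp
  · simp only [Nat.add_sub_cancel]
    rw [show (q - s ^ 2 / 4 * (τ ^ 2)⁻¹) ^ 2 = (q - s ^ 2 / 4 * (τ ^ 2)⁻¹) ^ 2 from rfl, e1]
    ring

theorem hasDerivAt_Ek (Λ : ℝ) {τ : ℝ} (hτ : 0 < τ) :
    HasDerivAt (Ek Λ q s) (2 * Real.pi * I * Λ * ((q - s ^ 2 / 4 * (τ ^ 2)⁻¹ : ℝ) : ℂ) * Ek Λ q s τ) τ := by
  unfold Ek
  have h1 : HasDerivAt (fun τ : ℝ => Λ * (τ * q + s ^ 2 / 4 * τ⁻¹)) (Λ * (q - s ^ 2 / 4 * (τ ^ 2)⁻¹)) τ := by
    have h2 := hasDerivAt_inv hτ.ne'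
    refine ((((hasDerivAt_id τ).mul_const q).add (h2.const_mul (s ^ 2 / 4))).const_mul Λ).congr_deriv ?_
    ring
  have h2 := (h1.ofReal_comp.const_mul (2 * Real.pi * I)).cexp
  refine h2.congr_deriv ?_
  push_cast
  ring

end

theorem Bump.deriv' {M : ℕ} {A : ℝ} {θ : ℝ → ℂ} (h : Bump (M + 1) A θ) : Bump M A (deriv θ) := by
  refine ⟨?_, ?_, ?_⟩
  · have := h.smooth
    rw [show ((⊤ : ℕ∞) : WithTop ℕ∞) = ((⊤ : ℕ∞) : WithTop ℕ∞) + 1 from rfl, contDiff_succ_iff_deriv] at this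
    exact this.2.2
  · intro t ht
    by_contra hc
    apply ht
    have := h.iteratedDeriv_support 1 hc
    rwa [iteratedDeriv_one] at this
  · intro i hi t
    rw [← iteratedDeriv_succ']
    exact h.bound (i + 1) (by omega) t

theorem Bump.end_zero {M : ℕ} {A : ℝ} {θ : ℝ → ℂ} (h : Bump M A θ) : θ (1/4) = 0 ∧ θ 4 = 0 := by
  have ho : IsOpen {t | θ t ≠ 0} := isOpen_ne_fun h.continuous continuous_const
  have hsub : {t | θ t ≠ 0} ⊆ Ioo (1/4:ℝ) 4 := by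
    rw [← interior_Icc]
    exact interior_maximal (fun t ht => h.supp t ht) ho
  constructor
  · by_contra hc
    exact lt_irrefl _ (hsub hc).1
  · by_contra hc
    exact lt_irrefl _ (hsub hc).2

section
variable {q s : ℝ} (hs1 : 1 ≤ s) (hs2 : s ≤ 2) (hq : NSq q)

include hs1 hs2 hq in
theorem ci_Wk (a : ℤ) (k : ℕ) : ContinuousOn (Wk q s a k) (Icc (1/4:ℝ) 4) :=
  fun τ hτ => (hasDerivAt_Wk hs1 hs2 hq a k hτ).continuousAt.continuousWithinAt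

theorem ci_Ek (Λ : ℝ) : ContinuousOn (Ek Λ q s) (Icc (1/4:ℝ) 4) :=
  fun τ hτ => (hasDerivAt_Ek Λ (by have := hτ.1; linarith)).continuousAt.continuousWithinAt

include hs1 hs2 hq in
theorem ii_Jk (Λ : ℝ) {θ : ℝ → ℂ} (hθ : Continuous θ) (a : ℤ) (k : ℕ) :
    IntervalIntegrable (fun τ => θ τ * (Wk q s a k τ : ℂ) * Ek Λ q s τ) volume (1/4) 4 := by
  apply ContinuousOn.intervalIntegrable
  rw [uIcc_of_le (by norm_num)]
  exact (hθ.continuousOn.mul (Complex.continuous_ofReal.comp_continuousOn (ci_Wk hs1 hs2 hq a k))).mul (ci_Ek Λ)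

include hs1 hs2 hq in
/-- integration by parts -/
theorem Jk_ibp (Λ : ℝ) {M : ℕ} {A : ℝ} {θ : ℝ → ℂ} (h : Bump M A θ) (a : ℤ) (k : ℕ) :
    2 * Real.pi * I * Λ * Jk Λ q s θ a k = -(Jk Λ q s (deriv θ) a (k + 1) + a * Jk Λ q s θ (a - 1) (k + 1) -
      ((k + 1 : ℕ) : ℂ) * ((s ^ 2 / 2 : ℝ) : ℂ) * Jk Λ q s θ (a - 3) (k + 2)) := by
  have hd : ∀ τ ∈ uIcc (1/4:ℝ) 4, HasDerivAt (fun τ => θ τ * (Wk q s a (k+1) τ : ℂ) * Ek Λ q s τ)
      (deriv θ τ * (Wk q s a (k+1) τ : ℂ) * Ek Λ q s τ + a * (θ τ * (Wk q s (a-1) (k+1) τ : ℂ) * Ek Λ q s τ) -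
        ((k + 1 : ℕ) : ℂ) * ((s ^ 2 / 2 : ℝ) : ℂ) * (θ τ * (Wk q s (a-3) (k+2) τ : ℂ) * Ek Λ q s τ) +
        2 * Real.pi * I * Λ * (θ τ * (Wk q s a k τ : ℂ) * Ek Λ q s τ)) τ := by
    intro τ hτ
    rw [uIcc_of_le (by norm_num)] at hτ
    have t0 : 0 < τ := by have := hτ.1; linarith
    have h1 : HasDerivAt θ (deriv θ τ) τ := ((h.smooth.differentiable (by simp)) τ).hasDerivAt
    have h2 := (hasDerivAt_Wk hs1 hs2 hq a (k+1) hτ).ofReal_comp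
    have h3 := hasDerivAt_Ek (q := q) (s := s) Λ t0
    refine ((h1.mul h2).mul h3).congr_deriv ?_
    have e : (Wk q s a k τ : ℂ) = (Wk q s a (k+1) τ : ℂ) * ((q - s ^ 2 / 4 * (τ ^ 2)⁻¹ : ℝ) : ℂ) := by
      rw [← Complex.ofReal_mul]
      congr 1
      unfold Wk
      have hne := den_ne hs1 hs2 hq hτ
      generalize q - s ^ 2 / 4 * (τ ^ 2)⁻¹ = D at hne
      rw [pow_succ, mul_assoc, mul_assoc, inv_mul_cancel₀ hne, mul_one]
    rw [e]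
    simp only [Pi.mul_apply]
    push_cast
    ring
  have hI := intervalIntegral.integral_eq_sub_of_hasDerivAt hd (by
    have c1 : Continuous (deriv θ) := (h.smooth.continuous_deriv (by simp))
    exact (((ii_Jk hs1 hs2 hq Λ c1 a (k+1)).add ((ii_Jk hs1 hs2 hq Λ h.continuous (a-1) (k+1)).const_mul _)).sub
      ((ii_Jk hs1 hs2 hq Λ h.continuous (a-3) (k+2)).const_mul _)).add
      ((ii_Jk hs1 hs2 hq Λ h.continuous a k).const_mul _))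
  have c1 : Continuous (deriv θ) := (h.smooth.continuous_deriv (by simp))
  rw [intervalIntegral.integral_add, intervalIntegral.integral_sub, intervalIntegral.integral_add,
    intervalIntegral.integral_const_mul, intervalIntegral.integral_const_mul,
    intervalIntegral.integral_const_mul] at hI
  · rw [(Bump.end_zero h).1, (Bump.end_zero h).2] at hI
    simp only [zero_mul, sub_zero] at hI
    unfold Jk
    linear_combination hI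
  · exact ii_Jk hs1 hs2 hq Λ c1 a (k+1)
  · exact (ii_Jk hs1 hs2 hq Λ h.continuous (a-1) (k+1)).const_mul _
  · exact ((ii_Jk hs1 hs2 hq Λ c1 a (k+1)).add ((ii_Jk hs1 hs2 hq Λ h.continuous (a-1) (k+1)).const_mul _))
  · exact (ii_Jk hs1 hs2 hq Λ h.continuous (a-3) (k+2)).const_mul _
  · exact (((ii_Jk hs1 hs2 hq Λ c1 a (k+1)).add ((ii_Jk hs1 hs2 hq Λ h.continuous (a-1) (k+1)).const_mul _)).sub
      ((ii_Jk hs1 hs2 hq Λ h.continuous (a-3) (k+2)).const_mul _))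
  · exact ((ii_Jk hs1 hs2 hq Λ h.continuous a k).const_mul _)

end

/-- non-stationary phase -/
theorem ns_core : ∀ (N : ℕ) (a : ℤ) (k : ℕ), ∃ C : ℝ, 0 ≤ C ∧ ∀ (Λ q s A : ℝ) (θ : ℝ → ℂ), 0 < Λ → 1 ≤ s → s ≤ 2 →
    NSq q → Bump N A θ → ‖Jk Λ q s θ a k‖ ≤ C * A * ((1 + q) ^ (k + N))⁻¹ * (Λ ^ N)⁻¹ := by
  intro N
  induction N with
  | zero =>
    intro a k
    obtain ⟨C, hC, hW⟩ := Wk_bd a k
    refine ⟨4 * C, by positivity, ?_⟩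
    intro Λ q s A θ hΛ hs1 hs2 hq h
    have h0 := NSq.pos hq
    unfold Jk
    have := intervalIntegral.norm_integral_le_of_norm_le_const (a := (1/4:ℝ)) (b := 4)
      (f := fun τ => θ τ * (Wk q s a k τ : ℂ) * Ek Λ q s τ) (C := A * (C * ((1 + q) ^ k)⁻¹)) (by
        intro τ hτ
        rw [uIoc_of_le (by norm_num)] at hτ
        rw [norm_mul, norm_mul, norm_Ek, mul_one, Complex.norm_real, Real.norm_eq_abs]
        exact mul_le_mul (h.norm_le τ) (hW q s hs1 hs2 hq τ (Ioc_subset_Icc_self hτ)) (abs_nonneg _) h.nonneg)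
    refine this.trans ?_
    rw [abs_of_nonneg (by norm_num)]
    have hA := h.nonneg
    simp only [add_zero, pow_zero, inv_one, mul_one]
    have : 0 ≤ A * (C * ((1 + q) ^ k)⁻¹) := by positivity
    nlinarith
  | succ N ih =>
    intro a k
    obtain ⟨C1, hC1, h1⟩ := ih a (k + 1)
    obtain ⟨C2, hC2, h2⟩ := ih (a - 1) (k + 1)
    obtain ⟨C3, hC3, h3⟩ := ih (a - 3) (k + 2)
    refine ⟨C1 + |(a:ℝ)| * C2 + (k + 1) * 2 * C3, by positivity, ?_⟩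
    intro Λ q s A θ hΛ hs1 hs2 hq h
    have h0 := NSq.pos hq
    have h01 : 1 ≤ 1 + q := by rcases hq with ⟨_, _⟩ | _ <;> linarith
    have hA := h.nonneg
    have hibp := Jk_ibp hs1 hs2 hq Λ h a k
    have g1 := h1 Λ q s A (deriv θ) hΛ hs1 hs2 hq (Bump.deriv' h)
    have g2 := h2 Λ q s A θ hΛ hs1 hs2 hq (h.mono (by omega) le_rfl)
    have g3 := h3 Λ q s A θ hΛ hs1 hs2 hq (h.mono (by omega) le_rfl)
    have e1 : k + 1 + N = k + (N + 1) := by ring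
    rw [e1] at g1 g2
    set Y := ((1 + q) ^ (k + (N + 1)))⁻¹ with hY
    have hY0 : 0 ≤ Y := by rw [hY]; positivity
    have g3' : ((1 + q) ^ (k + 2 + N))⁻¹ ≤ Y := by
      rw [hY]
      apply inv_anti₀ (by positivity)
      exact pow_le_pow_right₀ h01 (by omega)
    have hs2' : s ^ 2 / 2 ≤ 2 := by nlinarith
    have hn : ‖2 * Real.pi * I * Λ * Jk Λ q s θ a k‖ ≤
        C1 * A * Y * (Λ ^ N)⁻¹ + |(a:ℝ)| * (C2 * A * Y * (Λ ^ N)⁻¹) + (k + 1) * 2 * (C3 * A * Y * (Λ ^ N)⁻¹) := by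
      rw [hibp, norm_neg]
      refine (norm_sub_le _ _).trans ?_
      refine add_le_add ((norm_add_le _ _).trans (add_le_add g1 ?_)) ?_
      · rw [norm_mul, Complex.norm_intCast]
        gcongr
      · rw [norm_mul, norm_mul, Complex.norm_natCast, Complex.norm_real, Real.norm_of_nonneg (by positivity)]
        push_cast
        have : ‖Jk Λ q s θ (a - 3) (k + 2)‖ ≤ C3 * A * Y * (Λ ^ N)⁻¹ := g3.trans (by gcongr)
        gcongr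
    rw [norm_mul] at hn
    have e2 : ‖(2 * Real.pi * I * Λ : ℂ)‖ = 2 * Real.pi * Λ := by
      simp [abs_of_pos Real.pi_pos, abs_of_pos hΛ]
    rw [e2] at hn
    have hΛ' : Λ * ‖Jk Λ q s θ a k‖ ≤ 2 * Real.pi * Λ * ‖Jk Λ q s θ a k‖ := by
      have : 0 ≤ Λ * ‖Jk Λ q s θ a k‖ := by positivity
      nlinarith [Real.pi_gt_three]
    have hfin := hΛ'.trans hn
    have : ‖Jk Λ q s θ a k‖ ≤ Λ⁻¹ * (C1 * A * Y * (Λ ^ N)⁻¹ + |(a:ℝ)| * (C2 * A * Y * (Λ ^ N)⁻¹) +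
        (k + 1) * 2 * (C3 * A * Y * (Λ ^ N)⁻¹)) := by
      rw [← div_eq_inv_mul, le_div_iff₀ hΛ]
      linarith
    refine this.trans (le_of_eq ?_)
    rw [pow_succ, mul_inv]
    ring

end Vale.Agent.P106
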