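import Vale.Agent.P106.B.NSa
import Vale.Agent.P106.Defs3

/-! # Non-stationary phase for the planar multiplier -/

open MeasureTheory Complex Set
open scoped ENNReal NNReal ContDiff FourierTransform Topology

set_option linter.all false

namespace Vale.Agent.P106

open Vale.Agent.P117 (E2 E3 Adm nrm Bump mult Th mult_eq)

section
variable {M : ℕ} {A : ℝ} {θ : ℝ → ℂ}

noncomputable def Fj (Λ s : ℝ) (θ : ℝ → ℂ) (j : ℕ) (q τ : ℝ) : ℂ := θ τ * (τ:ℂ) ^ j * Ek Λ q s τ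

/-- derivatives of the multiplier -/
noncomputable def Dj (Λ s : ℝ) (θ : ℝ → ℂ) (j : ℕ) (q : ℝ) : ℂ :=
  (Λ ^ (1/2:ℝ) : ℝ) * (2 * Real.pi * I * Λ) ^ j * ∫ τ in (1/4:ℝ)..4, Fj Λ s θ j q τ

theorem Jk_eq (Λ q s : ℝ) (θ : ℝ → ℂ) (j : ℕ) : Jk Λ q s θ j 0 = ∫ τ in (1/4:ℝ)..4, Fj Λ s θ j q τ := by
  unfold Jk Fj
  congr 1
  ext τ
  unfold Wk
  push_cast
  simp

theorem cont_Fj (h : Bump M A θ) (Λ s : ℝ) (j : ℕ) (q : ℝ) : ContinuousOn (Fj Λ s θ j q) (Icc (1/4:ℝ) 4) := by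
  unfold Fj
  have h1 : Continuous (fun τ : ℝ => (τ:ℂ) ^ j) := by fun_prop
  exact (h.continuous.continuousOn.mul h1.continuousOn).mul (ci_Ek Λ)

theorem hasDerivAt_Fj (Λ s : ℝ) (j : ℕ) (q τ : ℝ) :
    HasDerivAt (fun q => Fj Λ s θ j q τ) (2 * Real.pi * I * Λ * Fj Λ s θ (j + 1) q τ) q := by
  unfold Fj Ek
  have h1 : HasDerivAt (fun q : ℝ => Λ * (τ * q + s ^ 2 / 4 * τ⁻¹)) (Λ * τ) q := by
    refine ((((hasDerivAt_id q).const_mul τ).add_const (s ^ 2 / 4 * τ⁻¹)).const_mul Λ).congr_deriv ?_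
    ring
  have h2 := ((h1.ofReal_comp.const_mul (2 * Real.pi * I)).cexp).const_mul (θ τ * (τ:ℂ) ^ j)
  refine h2.congr_deriv ?_
  push_cast
  ring

theorem hasDerivAt_Dj (h : Bump M A θ) {Λ : ℝ} (hΛ : 0 < Λ) (s : ℝ) (j : ℕ) (q : ℝ) :
    HasDerivAt (Dj Λ s θ j) (Dj Λ s θ (j + 1) q) q := by
  have hkey := (intervalIntegral.hasDerivAt_integral_of_dominated_loc_of_deriv_le (μ := volume)
    (F := fun q τ => Fj Λ s θ j q τ) (F' := fun q τ => 2 * Real.pi * I * Λ * Fj Λ s θ (j + 1) q τ)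
    (x₀ := q) (a := 1/4) (b := 4) (s := Set.univ) (bound := fun _ => 2 * Real.pi * Λ * (A * 4 ^ (j + 1)))
    Filter.univ_mem ?_ ?_ ?_ ?_ ?_ ?_).2
  · have h1 := hkey.const_mul (((Λ ^ (1/2:ℝ) : ℝ) : ℂ) * (2 * Real.pi * I * Λ) ^ j)
    rw [intervalIntegral.integral_const_mul] at h1
    unfold Dj
    refine h1.congr_deriv ?_
    rw [pow_succ]
    ring
  · refine Filter.Eventually.of_forall fun x => ?_
    exact ((cont_Fj h Λ s j x).mono (by rw [uIoc_of_le (by norm_num)]; exact Ioc_subset_Icc_self)).aestronglyMeasurable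
      measurableSet_uIoc
  · apply ContinuousOn.intervalIntegrable
    rw [uIcc_of_le (by norm_num)]
    exact cont_Fj h Λ s j q
  · have : ContinuousOn (fun τ => 2 * Real.pi * I * Λ * Fj Λ s θ (j + 1) q τ) (Icc (1/4:ℝ) 4) :=
      continuousOn_const.mul (cont_Fj h Λ s (j+1) q)
    exact (this.mono (by rw [uIoc_of_le (by norm_num)]; exact Ioc_subset_Icc_self)).aestronglyMeasurable
      measurableSet_uIoc
  · refine Filter.Eventually.of_forall fun τ hτ x _ => ?_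
    rw [uIoc_of_le (by norm_num)] at hτ
    unfold Fj
    have e2 : ‖(2 * Real.pi * I * Λ : ℂ)‖ = 2 * Real.pi * Λ := by
      simp [abs_of_pos Real.pi_pos, abs_of_pos hΛ]
    rw [norm_mul (2 * Real.pi * I * Λ : ℂ), e2, norm_mul, norm_mul, norm_Ek, mul_one]
    rw [norm_pow, Complex.norm_real, Real.norm_of_nonneg (by linarith [hτ.1])]
    have hA := h.nonneg
    have hp := Real.pi_pos
    have h1 := h.norm_le τ
    have h2 : τ ^ (j + 1) ≤ 4 ^ (j + 1) := pow_le_pow_left₀ (by linarith [hτ.1]) hτ.2 _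
    have h3 : 0 ≤ τ ^ (j+1) := pow_nonneg (by linarith [hτ.1]) _
    exact mul_le_mul_of_nonneg_left (mul_le_mul h1 h2 h3 hA) (by positivity)
  · exact intervalIntegrable_const
  · exact Filter.Eventually.of_forall fun τ _ x _ => hasDerivAt_Fj Λ s j x τ

theorem iteratedDeriv_Dj (h : Bump M A θ) {Λ : ℝ} (hΛ : 0 < Λ) (s : ℝ) (j : ℕ) :
    iteratedDeriv j (Dj Λ s θ 0) = Dj Λ s θ j := by
  induction j with
  | zero => simp
  | succ j ih =>
    rw [iteratedDeriv_succ, ih]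
    ext q
    exact (hasDerivAt_Dj h hΛ s j q).deriv

theorem contDiff_Dj (h : Bump M A θ) {Λ : ℝ} (hΛ : 0 < Λ) (s : ℝ) : ContDiff ℝ ∞ (Dj Λ s θ 0) := by
  apply contDiff_of_differentiable_iteratedDeriv
  intro m _
  rw [iteratedDeriv_Dj h hΛ]
  exact fun q => (hasDerivAt_Dj h hΛ s m q).differentiableAt

theorem mult_Dj (h : Bump M A θ) {Λ : ℝ} (hΛ : 0 < Λ) (T q : ℝ) :
    mult Λ (thT Λ T θ) q = Dj Λ (T / Λ) θ 0 q := by
  obtain ⟨A', h'⟩ := thT_bump h Λ T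
  rw [mult_eq h' hΛ]
  unfold Th Dj
  rw [pow_zero, mul_one, ← intervalIntegral.integral_const_mul, intervalIntegral.integral_of_le (by norm_num),
    ← integral_Icc_eq_integral_Ioc, ← setIntegral_eq_integral_of_forall_compl_eq_zero (s := Icc (1/4:ℝ) 4)]
  · apply setIntegral_congr_fun measurableSet_Icc
    intro τ hτ
    have hτ0 : (0:ℝ) < τ := by have := hτ.1; linarith
    simp only
    unfold thT Fj Ek
    rw [pow_zero, mul_one]
    have e1 : cexp (2 * Real.pi * I * ((Λ * τ : ℝ) : ℂ)) * cexp (Real.pi * I * (T ^ 2 : ℝ) / (2 * ((Λ * τ : ℝ) : ℂ))) *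
        cexp (2 * Real.pi * I * τ * ((Λ * (q - 1) : ℝ) : ℂ)) =
        cexp (2 * Real.pi * I * ((Λ * (τ * q + (T / Λ) ^ 2 / 4 * τ⁻¹) : ℝ) : ℂ)) := by
      rw [← Complex.exp_add, ← Complex.exp_add]
      congr 1
      have h1 : (Λ : ℂ) ≠ 0 := by exact_mod_cast hΛ.ne'
      have h2 : (τ : ℂ) ≠ 0 := by exact_mod_cast hτ0.ne'
      push_cast
      field_simp
      ring
    rw [← e1]
    ring
  · intro τ hτ
    have : thT Λ T θ τ = 0 := h'.eq_zero hτ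
    rw [this]; ring

end

/-- bounds for the derivatives in the non-stationary range -/
theorem Dj_bound (M : ℕ) (hM : 4 ≤ M) : ∃ C : ℝ, 0 ≤ C ∧ ∀ (Λ s A q : ℝ) (θ : ℝ → ℂ), 1 ≤ Λ → 1 ≤ s → s ≤ 2 → NSq q →
    Bump M A θ → ∀ j ≤ 3, ‖Dj Λ s θ j q‖ ≤ C * A * ((1 + q) ^ M)⁻¹ := by
  choose C hC h using fun j : ℕ => ns_core M (j:ℤ) 0
  refine ⟨(2 * Real.pi) ^ 3 * (∑ j ∈ Finset.range 4, C j), by
    have := Real.pi_pos
    exact mul_nonneg (by positivity) (Finset.sum_nonneg fun j _ => hC j), ?_⟩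
  intro Λ s A q θ hΛ hs1 hs2 hq hb j hj
  have hΛ0 : 0 < Λ := by linarith
  have h0 := NSq.pos hq
  have hA := hb.nonneg
  have hJ := h j Λ q s A θ hΛ0 hs1 hs2 hq hb
  rw [Jk_eq, zero_add] at hJ
  unfold Dj
  rw [norm_mul, norm_mul, norm_pow, Complex.norm_real, Real.norm_of_nonneg (by positivity)]
  have e2 : ‖(2 * Real.pi * I * Λ : ℂ)‖ = 2 * Real.pi * Λ := by
    simp [abs_of_pos Real.pi_pos, abs_of_pos hΛ0]
  rw [e2, mul_pow]
  have hCj : C j ≤ ∑ j ∈ Finset.range 4, C j :=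
    Finset.single_le_sum (f := C) (fun j _ => hC j) (Finset.mem_range.2 (by omega))
  have hpi : (2 * Real.pi) ^ j ≤ (2 * Real.pi) ^ 3 :=
    pow_le_pow_right₀ (by linarith [Real.pi_gt_three]) hj
  have hΛp : Λ ^ (1/2:ℝ) * Λ ^ j * (Λ ^ M)⁻¹ ≤ 1 := by
    have h1 : Λ ^ (1/2:ℝ) ≤ Λ := by
      calc Λ ^ (1/2:ℝ) ≤ Λ ^ (1:ℝ) := Real.rpow_le_rpow_of_exponent_le hΛ (by norm_num)
        _ = Λ := Real.rpow_one _
    have h2 : Λ ^ j ≤ Λ ^ 3 := pow_le_pow_right₀ hΛ hj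
    have h3 : Λ ^ 4 ≤ Λ ^ M := pow_le_pow_right₀ hΛ hM
    rw [← div_eq_mul_inv, div_le_one (by positivity)]
    calc Λ ^ (1/2:ℝ) * Λ ^ j ≤ Λ * Λ ^ 3 := by gcongr
      _ = Λ ^ 4 := by ring
      _ ≤ _ := h3
  have hpp := Real.pi_pos
  have hS : 0 ≤ ∑ j ∈ Finset.range 4, C j := Finset.sum_nonneg fun j _ => hC j
  calc Λ ^ (1/2:ℝ) * ((2 * Real.pi) ^ j * Λ ^ j) * ‖∫ τ in (1/4:ℝ)..4, Fj Λ s θ j q τ‖ ≤
      Λ ^ (1/2:ℝ) * ((2 * Real.pi) ^ j * Λ ^ j) * (C j * A * ((1 + q) ^ M)⁻¹ * (Λ ^ M)⁻¹) := by gcongr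
    _ = ((2 * Real.pi) ^ j * C j) * (A * ((1 + q) ^ M)⁻¹) * (Λ ^ (1/2:ℝ) * Λ ^ j * (Λ ^ M)⁻¹) := by ring
    _ ≤ ((2 * Real.pi) ^ 3 * (∑ j ∈ Finset.range 4, C j)) * (A * ((1 + q) ^ M)⁻¹) * 1 := by
        have := hC j
        gcongr
    _ = _ := by ring

theorem ns_deriv (X : E2 → ℂ) (hX : ContDiff ℝ ∞ X) (hXc : HasCompactSupport X)
    (hX1 : ∀ ξ, 1/20 ≤ ‖ξ‖ → ‖ξ‖ ≤ 10 → X ξ = 1) : ∃ (M : ℕ) (C : ℝ), 0 ≤ C ∧
    ∀ (Λ T A : ℝ) (θ : ℝ → ℂ), 1 ≤ Λ → T ∈ Icc Λ (2 * Λ) → Bump M A θ →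
      ContDiff ℝ ∞ (fun ξ : E2 => (1 - X ξ) * mult Λ (thT Λ T θ) (‖ξ‖ ^ 2)) ∧
      ∀ n ≤ 3, ∀ ξ : E2, ‖iteratedFDeriv ℝ n (fun ξ : E2 => (1 - X ξ) * mult Λ (thT Λ T θ) (‖ξ‖ ^ 2)) ξ‖ ≤
        C * A * ((1 + ‖ξ‖) ^ 3)⁻¹ := by
  have t1 : Function.HasTemperateGrowth (fun ξ : E2 => 1 - X ξ) :=
    (Function.HasTemperateGrowth.const 1).sub (hXc.hasTemperateGrowth hX)
  have t2 : Function.HasTemperateGrowth (fun ξ : E2 => ‖ξ‖ ^ 2) := Function.hasTemperateGrowth_norm_sq E2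
  obtain ⟨k1, C1, hC1, h1⟩ := t1.norm_iteratedFDeriv_le_uniform 3
  obtain ⟨k2, C2, hC2, h2⟩ := t2.norm_iteratedFDeriv_le_uniform 3
  set M : ℕ := k1 + 3 * k2 + 4 with hM
  obtain ⟨CG, hCG, hG⟩ := Dj_bound M (by omega)
  refine ⟨M, 8 * C1 * (6 * CG * (1 + C2) ^ 3) * 2 ^ M, by positivity, ?_⟩
  intro Λ T A θ hΛ hT hb
  have hΛ0 : 0 < Λ := by linarith
  set s := T / Λ with hs
  have hs1 : 1 ≤ s := by rw [hs, le_div_iff₀ hΛ0, one_mul]; exact hT.1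
  have hs2 : s ≤ 2 := by rw [hs, div_le_iff₀ hΛ0]; exact hT.2
  have hA := hb.nonneg
  set G := Dj Λ s θ 0 with hGdef
  have hGs : ContDiff ℝ ∞ G := contDiff_Dj hb hΛ0 s
  have eP : (fun ξ : E2 => (1 - X ξ) * mult Λ (thT Λ T θ) (‖ξ‖ ^ 2)) =
      fun ξ : E2 => (1 - X ξ) * (G ∘ (fun ξ : E2 => ‖ξ‖ ^ 2)) ξ := by
    ext ξ
    rw [mult_Dj hb hΛ0]
    rfl
  rw [eP]
  have c2 : ContDiff ℝ ∞ (fun ξ : E2 => ‖ξ‖ ^ 2) := t2.1
  have cG : ContDiff ℝ ∞ (G ∘ (fun ξ : E2 => ‖ξ‖ ^ 2)) := hGs.comp c2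
  refine ⟨t1.1.mul cG, ?_⟩
  intro n hn ξ
  by_cases hz : 1/20 < ‖ξ‖ ∧ ‖ξ‖ < 10
  · -- zero zone
    have hev : (fun ξ : E2 => (1 - X ξ) * (G ∘ (fun ξ : E2 => ‖ξ‖ ^ 2)) ξ) =ᶠ[𝓝 ξ] fun _ => 0 := by
      have ho : IsOpen {ζ : E2 | 1/20 < ‖ζ‖ ∧ ‖ζ‖ < 10} :=
        (isOpen_lt continuous_const continuous_norm).inter (isOpen_lt continuous_norm continuous_const)
      filter_upwards [ho.mem_nhds hz] with ζ hζ
      rw [hX1 ζ hζ.1.le hζ.2.le]; ring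
    have := (hev.iteratedFDeriv ℝ n).eq_of_nhds
    rw [this]
    have e0 : iteratedFDeriv ℝ n (fun _ : E2 => (0:ℂ)) ξ = 0 := by
      rw [iteratedFDeriv_zero_fun]; rfl
    rw [e0, norm_zero]
    positivity
  · -- non-stationary zone
    have hq : NSq (‖ξ‖ ^ 2) := by
      rw [not_and_or, not_lt, not_lt] at hz
      rcases hz with hz | hz
      · left
        have := norm_nonneg ξ
        exact ⟨by positivity, by nlinarith⟩
      · right
        nlinarith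
    set y := 1 + ‖ξ‖ with hy
    have hy1 : 1 ≤ y := by rw [hy]; linarith [norm_nonneg ξ]
    set D := (1 + C2) * y ^ k2 with hD
    have hyk : 1 ≤ y ^ k2 := one_le_pow₀ hy1
    have hD1 : 1 ≤ D := by rw [hD]; nlinarith
    have hcomp : ∀ m ≤ 3, ‖iteratedFDeriv ℝ m (G ∘ (fun ξ : E2 => ‖ξ‖ ^ 2)) ξ‖ ≤
        6 * (CG * A * ((1 + ‖ξ‖ ^ 2) ^ M)⁻¹) * D ^ 3 := by
      intro m hm
      have := norm_iteratedFDeriv_comp_le (𝕜 := ℝ) (g := G) (f := fun ξ : E2 => ‖ξ‖ ^ 2) (n := m) (N := ∞) hGs c2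
        (by exact_mod_cast le_top) ξ (C := CG * A * ((1 + ‖ξ‖ ^ 2) ^ M)⁻¹) (D := D) (by
          intro i hi
          rw [norm_iteratedFDeriv_eq_norm_iteratedDeriv, iteratedDeriv_Dj hb hΛ0]
          exact hG Λ s A _ θ hΛ hs1 hs2 hq hb i (by omega)) (by
          intro i hi1 hi2
          refine (h2 i (by omega) ξ).trans ?_
          calc C2 * (1 + ‖ξ‖) ^ k2 ≤ D := by rw [hD]; nlinarith
            _ = D ^ 1 := (pow_one D).symm
            _ ≤ D ^ i := pow_le_pow_right₀ hD1 hi1)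
      refine this.trans ?_
      have hf : (m.factorial : ℝ) ≤ 6 := by
        have : m.factorial ≤ (3).factorial := Nat.factorial_le hm
        have h3 : (3).factorial = 6 := rfl
        rw [h3] at this
        exact_mod_cast this
      have hDm : D ^ m ≤ D ^ 3 := pow_le_pow_right₀ hD1 hm
      gcongr
    have hmul := norm_iteratedFDeriv_mul_le (𝕜 := ℝ) t1.1 cG ξ (n := n) (by exact_mod_cast le_top)
    refine hmul.trans ?_
    set Z := 6 * (CG * A * ((1 + ‖ξ‖ ^ 2) ^ M)⁻¹) * D ^ 3 with hZ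
    have hZ0 : 0 ≤ Z := by rw [hZ]; positivity
    have hsum : ∑ i ∈ Finset.range (n + 1), (n.choose i : ℝ) * ‖iteratedFDeriv ℝ i (fun ξ : E2 => 1 - X ξ) ξ‖ *
        ‖iteratedFDeriv ℝ (n - i) (G ∘ (fun ξ : E2 => ‖ξ‖ ^ 2)) ξ‖ ≤ 8 * ((C1 * y ^ k1) * Z) := by
      calc _ ≤ ∑ i ∈ Finset.range (n + 1), (n.choose i : ℝ) * ((C1 * y ^ k1) * Z) := by
            refine Finset.sum_le_sum fun i hi => ?_
            rw [Finset.mem_range] at hi
            rw [mul_assoc]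
            have a1 := h1 i (by omega) ξ
            have a2 := hcomp (n - i) (by omega)
            gcongr
        _ = (2:ℝ) ^ n * ((C1 * y ^ k1) * Z) := by
            rw [← Finset.sum_mul]
            congr 1
            have := Nat.sum_range_choose n
            exact_mod_cast this
        _ ≤ 8 * ((C1 * y ^ k1) * Z) := by
            have : (2:ℝ) ^ n ≤ 2 ^ 3 := pow_le_pow_right₀ (by norm_num) hn
            have h8 : (2:ℝ) ^ n ≤ 8 := by linarith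
            gcongr
    refine hsum.trans ?_
    have hpow : y ^ (k1 + 3 * k2) * ((1 + ‖ξ‖ ^ 2) ^ M)⁻¹ ≤ 2 ^ M * (y ^ 3)⁻¹ := by
      have i1 : y ^ 2 ≤ 2 * (1 + ‖ξ‖ ^ 2) := by rw [hy]; nlinarith [sq_nonneg (1 - ‖ξ‖)]
      have i2 : (y ^ 2) ^ M ≤ (2 * (1 + ‖ξ‖ ^ 2)) ^ M := pow_le_pow_left₀ (by positivity) i1 _
      have i3 : y ^ (k1 + 3 * k2) * y ^ 3 ≤ (y ^ 2) ^ M := by
        rw [← pow_add, ← pow_mul]
        exact pow_le_pow_right₀ hy1 (by omega)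
      rw [mul_pow] at i2
      rw [← div_eq_mul_inv, ← div_eq_mul_inv, div_le_div_iff₀ (by positivity) (by positivity)]
      linarith
    have hfin : 8 * ((C1 * y ^ k1) * Z) = 8 * C1 * (6 * CG * (1 + C2) ^ 3) * A *
        (y ^ (k1 + 3 * k2) * ((1 + ‖ξ‖ ^ 2) ^ M)⁻¹) := by
      rw [hZ, hD]
      ring
    rw [hfin]
    calc _ ≤ 8 * C1 * (6 * CG * (1 + C2) ^ 3) * A * (2 ^ M * (y ^ 3)⁻¹) := by gcongr
      _ = _ := by ring

theorem stNS : StNS := by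
  intro X hX hXc hX1
  obtain ⟨M, C, hC, h⟩ := ns_deriv X hX hXc hX1
  have hI3 : Integrable (fun x : E2 => (1 + ‖x‖) ^ (-(3:ℝ))) := by
    apply integrable_one_add_norm
    rw [finrank_euclideanSpace_fin]; norm_num
  set I3 : ℝ := ∫ x : E2, (1 + ‖x‖) ^ (-(3:ℝ)) with hI3d
  have hI30 : 0 ≤ I3 := integral_nonneg fun x => by positivity
  have e3 : ∀ x : E2, ((1 + ‖x‖) ^ 3)⁻¹ = (1 + ‖x‖) ^ (-(3:ℝ)) := by
    intro x
    rw [Real.rpow_neg (by positivity)]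
    congr 1
    exact_mod_cast (Real.rpow_natCast (1 + ‖x‖) 3).symm
  refine ⟨M, 8 * (32 * (C * I3)), by positivity, ?_⟩
  intro Λ T A θ hΛ hT hb
  obtain ⟨hcd, hd⟩ := h Λ T A θ hΛ hT hb
  set P := (fun ξ : E2 => (1 - X ξ) * mult Λ (thT Λ T θ) (‖ξ‖ ^ 2)) with hP
  have hA := hb.nonneg
  have hint : ∀ n ≤ 3, Integrable (fun v => ‖iteratedFDeriv ℝ n P v‖) := by
    intro n hn
    refine (hI3.const_mul (C * A)).mono' ?_ ?_
    · exact ((hcd.continuous_iteratedFDeriv (m := n) (by exact_mod_cast le_top)).norm).aestronglyMeasurable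
    · filter_upwards with v
      rw [norm_norm]
      have := hd n hn v
      rwa [e3] at this
  have hintb : ∀ n ≤ 3, ∫ v, ‖iteratedFDeriv ℝ n P v‖ ≤ C * A * I3 := by
    intro n hn
    rw [hI3d, ← integral_const_mul]
    refine integral_mono (hint n hn) (hI3.const_mul _) ?_
    intro v
    have := hd n hn v
    rwa [e3] at this
  have hPi : Integrable P := by
    refine (hI3.const_mul (C * A)).mono' hcd.continuous.aestronglyMeasurable ?_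
    filter_upwards with v
    have := hd 0 (by norm_num) v
    rwa [e3, norm_iteratedFDeriv_zero] at this
  refine ⟨hPi, ?_⟩
  intro x
  have hF : ∀ n ≤ 3, ‖x‖ ^ n * ‖𝓕⁻ P x‖ ≤ 32 * (C * I3) * A := by
    intro n hn
    have := Real.pow_mul_norm_iteratedFDeriv_fourier_le (K := 0) (N := 3) (f := P) (hcd.of_le (by exact_mod_cast le_top))
      (by
        intro k m hk hm
        have hk0 : k = 0 := by exact_mod_cast le_antisymm hk zero_le
        subst hk0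
        simpa using hint m (by exact_mod_cast hm)) (k := 0) (n := n) le_rfl (by exact_mod_cast hn) (-x)
    rw [norm_iteratedFDeriv_zero, norm_neg] at this
    rw [Real.fourierInv_eq_fourier_neg]
    refine this.trans ?_
    have hs : ∑ p ∈ Finset.range (0 + 1) ×ˢ Finset.range (n + 1), ∫ v, ‖v‖ ^ p.1 * ‖iteratedFDeriv ℝ p.2 P v‖ ≤
        4 * (C * A * I3) := by
      calc _ ≤ ∑ p ∈ Finset.range (0 + 1) ×ˢ Finset.range (n + 1), C * A * I3 := by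
            refine Finset.sum_le_sum fun p hp => ?_
            rw [Finset.mem_product, Finset.mem_range, Finset.mem_range] at hp
            have hp1 : p.1 = 0 := by omega
            rw [hp1]
            simpa using hintb p.2 (by omega)
        _ ≤ _ := by
            rw [Finset.sum_const, Finset.card_product, Finset.card_range, Finset.card_range, nsmul_eq_mul]
            have : ((((0 + 1) * (n + 1) : ℕ)) : ℝ) ≤ 4 := by
              have : (0 + 1) * (n + 1) ≤ 4 := by omega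
              exact_mod_cast this
            gcongr
    have h8 : (2:ℝ) ^ n ≤ 2 ^ 3 := pow_le_pow_right₀ (by norm_num) hn
    simp only [pow_zero, one_mul, Nat.cast_zero, mul_zero, zero_add]
    simp only [zero_add] at hs
    calc _ ≤ (2:ℝ) ^ 3 * (4 * (C * A * I3)) := by
          refine mul_le_mul h8 hs ?_ (by norm_num)
          exact Finset.sum_nonneg fun p _ => integral_nonneg fun v => by positivity
      _ = _ := by ring
  have e : (1 + ‖x‖) ^ 3 * ‖𝓕⁻ P x‖ = ‖x‖ ^ 0 * ‖𝓕⁻ P x‖ + 3 * (‖x‖ ^ 1 * ‖𝓕⁻ P x‖) +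
      3 * (‖x‖ ^ 2 * ‖𝓕⁻ P x‖) + ‖x‖ ^ 3 * ‖𝓕⁻ P x‖ := by ring
  rw [e]
  have f0 := hF 0 (by norm_num)
  have f1 := hF 1 (by norm_num)
  have f2 := hF 2 (by norm_num)
  have f3 := hF 3 (by norm_num)
  linarith

end Vale.Agent.P106
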