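import Vale.Agent.P106.B.Lin
import Vale.Agent.P106.Tri.BN

/-! # Angular pieces -/

open MeasureTheory Complex Set
open scoped ENNReal NNReal ContDiff FourierTransform SchwartzMap

set_option linter.all false

namespace Vale.Agent.P106

open Vale.Agent.P117 (E2 E3 Adm cv eta0 eta0_supp eta0_sum contDiff_eta0 contDiff_st integrable_cv
  norm_cv_le continuous_cv fourier_cv)

/-- radial cut-off -/
noncomputable def chi0 (r : ℝ) : ℂ :=
  ((Real.smoothTransition (200 * r - 1) * Real.smoothTransition ((200 - r) / 100) : ℝ) : ℂ)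

theorem contDiff_chi0 : ContDiff ℝ ∞ chi0 := by
  unfold chi0
  have h := contDiff_st
  exact Complex.ofRealCLM.contDiff.comp ((h.comp (by fun_prop)).mul (h.comp (by fun_prop)))

theorem chi0_one {r : ℝ} (h1 : 1/100 ≤ r) (h2 : r ≤ 100) : chi0 r = 1 := by
  unfold chi0
  rw [Real.smoothTransition.one_of_one_le (by linarith), Real.smoothTransition.one_of_one_le (by linarith)]
  simp

theorem chi0_supp {r : ℝ} (h : chi0 r ≠ 0) : 1/200 ≤ r ∧ r ≤ 200 := by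
  by_contra hcon
  apply h
  unfold chi0
  rw [not_and_or] at hcon
  push Not at hcon
  rcases hcon with h | h
  · rw [Real.smoothTransition.zero_of_nonpos (show 200 * r - 1 ≤ 0 by linarith)]; simp
  · rw [Real.smoothTransition.zero_of_nonpos (show (200 - r) / 100 ≤ 0 by linarith)]; simp

theorem norm_chi0 (r : ℝ) : ‖chi0 r‖ ≤ 1 := by
  unfold chi0
  rw [Complex.norm_real, Real.norm_eq_abs, abs_of_nonneg (mul_nonneg (Real.smoothTransition.nonneg _)
    (Real.smoothTransition.nonneg _))]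
  exact mul_le_one₀ (Real.smoothTransition.le_one _) (Real.smoothTransition.nonneg _)
    (Real.smoothTransition.le_one _)

theorem norm_eta0 (r : ℝ) : ‖eta0 r‖ ≤ 1 := by
  unfold eta0
  rw [Complex.norm_real, Real.norm_eq_abs, abs_le]
  have h1 := Real.smoothTransition.nonneg (r + 1)
  have h2 := Real.smoothTransition.nonneg r
  have h3 := Real.smoothTransition.le_one (r + 1)
  have h4 := Real.smoothTransition.le_one r
  constructor <;> linarith

/-- base multiplier -/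
noncomputable def M0 (ξ : E2) : ℂ := eta0 (ξ 1 / ξ 0) * chi0 (ξ 0)

theorem contDiff_M0 : ContDiff ℝ ∞ M0 := by
  rw [contDiff_iff_contDiffAt]
  intro ξ
  by_cases h : 0 < ξ 0
  · have h1 : ContDiffAt ℝ ∞ (fun ξ : E2 => ξ 1 / ξ 0) ξ := by
      apply ContDiffAt.div
      · fun_prop
      · fun_prop
      · exact h.ne'
    have h2 : ContDiffAt ℝ ∞ (fun ξ : E2 => eta0 (ξ 1 / ξ 0)) ξ := contDiff_eta0.contDiffAt.comp ξ h1
    have h3 : ContDiffAt ℝ ∞ (fun ξ : E2 => chi0 (ξ 0)) ξ :=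
      contDiff_chi0.contDiffAt.comp ξ (by fun_prop)
    exact h2.mul h3
  · have : M0 =ᶠ[nhds ξ] fun _ => 0 := by
      have hopen : IsOpen {ζ : E2 | ζ 0 < 1/200} := isOpen_lt (by fun_prop) continuous_const
      filter_upwards [hopen.mem_nhds (show ξ 0 < 1/200 by linarith)] with ζ hζ
      unfold M0
      have : chi0 (ζ 0) = 0 := by
        by_contra hc
        have := (chi0_supp hc).1
        have hζ' : ζ 0 < 1/200 := hζ
        linarith
      rw [this, mul_zero]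
    exact contDiffAt_const.congr_of_eventuallyEq this

theorem M0_supp {ξ : E2} (h : M0 ξ ≠ 0) : 1/200 ≤ ξ 0 ∧ ξ 0 ≤ 200 ∧ |ξ 1 / ξ 0| ≤ 1 := by
  have h1 := chi0_supp (right_ne_zero_of_mul h)
  have h2 := eta0_supp _ (left_ne_zero_of_mul h)
  exact ⟨h1.1, h1.2, h2⟩

theorem hasCompactSupport_M0 : HasCompactSupport M0 := by
  apply HasCompactSupport.of_support_subset_isCompact (isCompact_closedBall (0 : E2) 400)
  intro ξ hξ
  obtain ⟨h1, h2, h3⟩ := M0_supp hξ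
  have h0 : 0 < ξ 0 := by linarith
  rw [abs_div, abs_of_pos h0, div_le_one h0] at h3
  rw [Metric.mem_closedBall, dist_zero_right]
  have h4 : ‖ξ‖ ^ 2 = ξ 0 ^ 2 + ξ 1 ^ 2 := Vale.Agent.P117.E2_norm_sq ξ
  have h5 : ξ 1 ^ 2 ≤ 200 ^ 2 := by
    rw [← sq_abs]; have := abs_nonneg (ξ 1); nlinarith
  have h6 : ‖ξ‖ ^ 2 ≤ 400 ^ 2 := by rw [h4]; nlinarith
  exact (pow_le_pow_iff_left₀ (norm_nonneg _) (by norm_num) two_ne_zero).1 h6

noncomputable def MS : 𝓢(E2, ℂ) := hasCompactSupport_M0.toSchwartzMap contDiff_M0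

theorem MS_apply (ξ : E2) : MS ξ = M0 ξ := rfl

/-- base kernel -/
noncomputable def k0S : 𝓢(E2, ℂ) := 𝓕⁻ MS

theorem fourier_k0S (ξ : E2) : 𝓕 (k0S : E2 → ℂ) ξ = M0 ξ := by
  have : 𝓕 k0S = MS := by unfold k0S; simp
  rw [← SchwartzMap.fourier_coe, this, MS_apply]

/-- kernel of the `j`-th piece -/
noncomputable def kpc (K : ℕ) (j : ℤ) (x : E2) : ℂ :=
  (((K:ℝ)⁻¹ : ℝ) : ℂ) * k0S (!₂[1 * x 0 + (j/K) * x 1, 0 * x 0 + (K:ℝ)⁻¹ * x 1])

theorem continuous_kpc (K : ℕ) (j : ℤ) : Continuous (kpc K j) := by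
  unfold kpc
  exact continuous_const.mul (k0S.continuous.comp (continuous_lin2 _ _ _ _))

theorem kpc_det {K : ℕ} (hK : 1 ≤ K) (j : ℤ) : (1:ℝ) * (K:ℝ)⁻¹ - (j/K) * 0 ≠ 0 := by
  have : (0:ℝ) < K := by exact_mod_cast hK
  rw [mul_zero, sub_zero, one_mul]
  positivity

theorem integrable_kpc {K : ℕ} (hK : 1 ≤ K) (j : ℤ) : Integrable (kpc K j) := by
  unfold kpc
  exact (integrable_lin2 (kpc_det hK j) k0S.integrable).const_mul _

/-- the common L¹ bound of the kernels -/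
noncomputable def B0 : ℝ := ∫ x : E2, ‖k0S x‖

theorem B0_nonneg : 0 ≤ B0 := integral_nonneg fun _ => norm_nonneg _

theorem lintegral_kpc {K : ℕ} (hK : 1 ≤ K) (j : ℤ) : ∫⁻ x, ‖kpc K j x‖ₑ = ENNReal.ofReal B0 := by
  have hK0 : (0:ℝ) < K := by exact_mod_cast hK
  unfold kpc
  simp_rw [enorm_mul]
  rw [lintegral_const_mul' _ _ enorm_ne_top, lintegral_lin2 (kpc_det hK j) (fun x => ‖k0S x‖ₑ), B0,
    ofReal_integral_norm_eq_lintegral_enorm k0S.integrable, ← mul_assoc]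
  have : ‖(((K:ℝ)⁻¹ : ℝ) : ℂ)‖ₑ * ENNReal.ofReal |((1:ℝ) * (K:ℝ)⁻¹ - (j/K) * 0)⁻¹| = 1 := by
    rw [← ofReal_norm, Complex.norm_real, Real.norm_of_nonneg (by positivity),
      ← ENNReal.ofReal_mul (by positivity), mul_zero, sub_zero, one_mul, inv_inv, abs_of_pos hK0,
      inv_mul_cancel₀ hK0.ne', ENNReal.ofReal_one]
  rw [this, one_mul]

/-- multiplier of the `j`-th piece -/
noncomputable def mj (K : ℕ) (j : ℤ) (ξ : E2) : ℂ := eta0 ((K * ξ 1 - j * ξ 0) / ξ 0) * chi0 (ξ 0)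

theorem mj_eq (K : ℕ) (j : ℤ) (ξ : E2) : mj K j ξ = M0 (!₂[1 * ξ 0 + 0 * ξ 1, (-j) * ξ 0 + K * ξ 1]) := by
  unfold mj M0
  have e0 : (!₂[1 * ξ 0 + 0 * ξ 1, (-j) * ξ 0 + K * ξ 1] : E2) 0 = ξ 0 := by simp
  have e1 : (!₂[1 * ξ 0 + 0 * ξ 1, (-j) * ξ 0 + K * ξ 1] : E2) 1 = K * ξ 1 - j * ξ 0 := by simp; ring
  rw [e0, e1]

theorem fourier_kpc {K : ℕ} (hK : 1 ≤ K) (j : ℤ) (ξ : E2) : 𝓕 (kpc K j) ξ = mj K j ξ := by
  have hK0 : (0:ℝ) < K := by exact_mod_cast hK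
  rw [mj_eq, ← fourier_k0S, four_eq, four_eq]
  have h := integral_lin2 (a := 1) (b := j / K) (c := 0) (d := (K:ℝ)⁻¹) (by
    have := kpc_det hK j; simpa using this) (fun y : E2 => cexp (((-2 * Real.pi * (y 0 * ξ 0 +
      y 1 * (-j * ξ 0 + K * ξ 1)) : ℝ) : ℂ) * I) * k0S y)
  have e : ∀ x : E2, cexp (((-2 * Real.pi * (x 0 * ξ 0 + x 1 * ξ 1) : ℝ) : ℂ) * I) * kpc K j x =
      (((K:ℝ)⁻¹ : ℝ) : ℂ) * (fun y : E2 => cexp (((-2 * Real.pi * (y 0 * ξ 0 +
      y 1 * (-j * ξ 0 + K * ξ 1)) : ℝ) : ℂ) * I) * k0S y) (!₂[1 * x 0 + (j/K) * x 1, 0 * x 0 + (K:ℝ)⁻¹ * x 1]) := by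
    intro x
    unfold kpc
    have e2 : (-2 * Real.pi * (x 0 * ξ 0 + x 1 * ξ 1) : ℝ) = -2 * Real.pi * ((1 * x 0 + (j/K) * x 1) * ξ 0 +
      (0 * x 0 + (K:ℝ)⁻¹ * x 1) * (-j * ξ 0 + K * ξ 1)) := by field_simp; ring
    rw [e2]
    simp
    ring
  simp_rw [e]
  rw [integral_const_mul, h, Complex.real_smul, ← mul_assoc, ← Complex.ofReal_mul]
  have : (K:ℝ)⁻¹ * |((1:ℝ) * (K:ℝ)⁻¹ - (j/K) * 0)⁻¹| = 1 := by
    rw [mul_zero, sub_zero, one_mul, inv_inv, abs_of_pos hK0, inv_mul_cancel₀ hK0.ne']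
  rw [this, Complex.ofReal_one, one_mul]
  congr 1
  ext y
  simp

/-- the `j`-th angular piece of `f` -/
noncomputable def piece (K : ℕ) (j : ℤ) (f : E2 → ℂ) : E2 → ℂ := cv (kpc K j) f

/-- enlarged region -/
def Gbig : Set E2 := {ξ | 1/200 ≤ ξ 0 ∧ ξ 0 ≤ 200 ∧ |ξ 1| ≤ 2 * ξ 0}

section
variable {K : ℕ} (hK : 1 ≤ K) (j : ℤ) {f : E2 → ℂ} (hf : Adm volume f)

include hK in
theorem kpc_bdd : ∃ C, ∀ x, ‖kpc K j x‖ ≤ C := by
  obtain ⟨C, hC⟩ := k0S.decay 0 0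
  refine ⟨‖(((K:ℝ)⁻¹ : ℝ) : ℂ)‖ * C, fun x => ?_⟩
  have := hC.2 (!₂[1 * x 0 + (j/K) * x 1, 0 * x 0 + (K:ℝ)⁻¹ * x 1])
  simp only [pow_zero, one_mul, norm_iteratedFDeriv_zero] at this
  unfold kpc
  rw [norm_mul]
  gcongr
  simpa using this

include hK hf in
theorem norm_piece_le {M : ℝ} (hM : ∀ x, ‖f x‖ ≤ M) (x : E2) : ‖piece K j f x‖ ≤ B0 * M := by
  have hM0 : 0 ≤ M := (norm_nonneg _).trans (hM 0)
  have h1 := Vale.Agent.P117.enorm_cv_le (kpc K j) f x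
  have h2 : ‖piece K j f x‖ₑ ≤ ENNReal.ofReal (B0 * M) := by
    refine h1.trans ?_
    calc ∫⁻ y, ‖kpc K j (x - y)‖ₑ * ‖f y‖ₑ ≤ ∫⁻ y, ‖kpc K j (x - y)‖ₑ * ENNReal.ofReal M := by
          gcongr with y
          rw [← ofReal_norm]; exact ENNReal.ofReal_le_ofReal (hM y)
      _ = (∫⁻ y, ‖kpc K j (x - y)‖ₑ) * ENNReal.ofReal M := lintegral_mul_const' _ _ ENNReal.ofReal_ne_top
      _ = _ := by
          rw [lintegral_sub_left_eq_self (fun y => ‖kpc K j y‖ₑ), lintegral_kpc hK,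
            ENNReal.ofReal_mul B0_nonneg]
  rw [← ofReal_norm] at h2
  exact (ENNReal.ofReal_le_ofReal_iff (mul_nonneg B0_nonneg hM0)).1 h2

include hK hf in
theorem continuous_piece : Continuous (piece K j f) := by
  obtain ⟨C, hC⟩ := kpc_bdd hK j
  exact continuous_cv (continuous_kpc K j) hC hf.int

include hK hf in
theorem adm_piece : Adm volume (piece K j f) := by
  obtain ⟨M, hM⟩ := hf.bdd
  exact ⟨(continuous_piece hK j hf).measurable, integrable_cv (integrable_kpc hK j) hf.int,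
    B0 * M, norm_piece_le hK j hf hM⟩

include hK hf in
theorem fourier_piece (ξ : E2) : 𝓕 (piece K j f) ξ = mj K j ξ * 𝓕 f ξ := by
  unfold piece
  rw [fourier_cv (integrable_kpc hK j) hf.int, fourier_kpc hK]

theorem mj_supp {ξ : E2} (h : mj K j ξ ≠ 0) : 1/200 ≤ ξ 0 ∧ ξ 0 ≤ 200 ∧ |K * ξ 1 - j * ξ 0| ≤ ξ 0 := by
  have h1 := chi0_supp (right_ne_zero_of_mul h)
  have h2 := eta0_supp _ (left_ne_zero_of_mul h)
  have h0 : 0 < ξ 0 := by linarith
  rw [abs_div, abs_of_pos h0, div_le_one h0] at h2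
  exact ⟨h1.1, h1.2, h2⟩

theorem norm_mj (ξ : E2) : ‖mj K j ξ‖ ≤ 1 := by
  unfold mj
  rw [norm_mul]
  exact mul_le_one₀ (norm_eta0 _) (norm_nonneg _) (norm_chi0 _)

include hK hf in
theorem FS_piece_big (hj : |j| ≤ K) : FS (piece K j f) Gbig := by
  intro ξ hξ
  rw [fourier_piece hK j hf]
  by_contra hne
  apply hξ
  have hK0 : (1:ℝ) ≤ K := by exact_mod_cast hK
  obtain ⟨h1, h2, h3⟩ := mj_supp j (left_ne_zero_of_mul hne)
  refine ⟨h1, h2, ?_⟩
  have hj' : |(j:ℝ)| ≤ K := by exact_mod_cast hj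
  have h0 : 0 < ξ 0 := by linarith
  have h4 : |(K:ℝ) * ξ 1| ≤ ξ 0 + K * ξ 0 := by
    calc |(K:ℝ) * ξ 1| = |(K * ξ 1 - j * ξ 0) + j * ξ 0| := by congr 1; ring
      _ ≤ |K * ξ 1 - j * ξ 0| + |j * ξ 0| := abs_add_le _ _
      _ ≤ ξ 0 + K * ξ 0 := by
        rw [abs_mul (j:ℝ), abs_of_pos h0]
        gcongr
  rw [abs_mul, abs_of_pos (by linarith : (0:ℝ) < K)] at h4
  have h5 : (K:ℝ) * |ξ 1| ≤ K * (2 * ξ 0) := by nlinarith
  exact le_of_mul_le_mul_left h5 (by linarith)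

include hK hf in
theorem FS_piece_cap (hfs : FS f (Gcap 0 1)) : FS (piece K j f) (Gcap (j / K) (1 / K)) := by
  intro ξ hξ
  rw [fourier_piece hK j hf]
  by_contra hne
  apply hξ
  have hK0 : (0:ℝ) < K := by exact_mod_cast hK
  obtain ⟨h1, h2, h3⟩ := mj_supp j (left_ne_zero_of_mul hne)
  have h4 : ξ ∈ Gcap 0 1 := by
    by_contra hc
    exact (right_ne_zero_of_mul hne) (hfs ξ hc)
  refine ⟨h4.1, h4.2.1, ?_⟩
  have e : ξ 1 - j / K * ξ 0 = (K:ℝ)⁻¹ * (K * ξ 1 - j * ξ 0) := by field_simp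
  rw [e, abs_mul, abs_of_pos (by positivity), one_div]
  gcongr

theorem sum_mj {ξ : E2} (hξ : ξ ∈ Gcap 0 1) : ∑ j ∈ Finset.Icc (-(K:ℤ)) K, mj K j ξ = 1 := by
  obtain ⟨h1, h2, h3⟩ := hξ
  have h0 : 0 < ξ 0 := by linarith
  unfold mj
  rw [chi0_one h1 h2]
  simp only [mul_one]
  have : ∀ j : ℤ, ((K:ℝ) * ξ 1 - j * ξ 0) / ξ 0 = K * ξ 1 / ξ 0 - j := by
    intro j; field_simp
  simp_rw [this]
  apply eta0_sum
  rw [abs_div, abs_of_pos h0, abs_mul, abs_of_nonneg (Nat.cast_nonneg K), div_le_iff₀ h0]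
  gcongr
  simpa using h3

theorem sum_norm_mj_sq (ξ : E2) : ∑ j ∈ Finset.Icc (-(K:ℤ)) K, ‖mj K j ξ‖ ^ 2 ≤ 3 := by
  classical
  by_cases h0 : 0 < ξ 0
  swap
  · have : ∀ j : ℤ, mj K j ξ = 0 := by
      intro j
      by_contra hc
      have := (mj_supp j hc).1
      linarith
    simp [this]
  set m : ℤ := round (K * ξ 1 / ξ 0) with hm
  have hsupp : ∀ j ∈ Finset.Icc (-(K:ℤ)) K, j ∉ Finset.Icc (m - 1) (m + 1) → ‖mj K j ξ‖ ^ 2 = 0 := by
    intro j _ hj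
    by_contra hc
    apply hj
    have hne : mj K j ξ ≠ 0 := by
      intro h; apply hc; rw [h]; simp
    obtain ⟨_, _, h3⟩ := mj_supp j hne
    have h4 : |K * ξ 1 / ξ 0 - j| ≤ 1 := by
      have : K * ξ 1 / ξ 0 - j = (K * ξ 1 - j * ξ 0) / ξ 0 := by field_simp
      rw [this, abs_div, abs_of_pos h0, div_le_one h0]
      exact h3
    have h5 := abs_sub_round (K * ξ 1 / ξ 0)
    rw [← hm] at h5
    have h6 : |((j - m : ℤ) : ℝ)| < 2 := by
      push_cast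
      calc |(j:ℝ) - m| = |(K * ξ 1 / ξ 0 - m) - (K * ξ 1 / ξ 0 - j)| := by congr 1; ring
        _ ≤ |K * ξ 1 / ξ 0 - m| + |K * ξ 1 / ξ 0 - j| := abs_sub _ _
        _ < 2 := by linarith
    have h7 : |j - m| < 2 := by exact_mod_cast h6
    rw [abs_lt] at h7
    rw [Finset.mem_Icc]
    constructor <;> omega
  calc ∑ j ∈ Finset.Icc (-(K:ℤ)) K, ‖mj K j ξ‖ ^ 2 ≤
      ∑ j ∈ Finset.Icc (-(K:ℤ)) K ∩ Finset.Icc (m - 1) (m + 1), ‖mj K j ξ‖ ^ 2 := by
        apply le_of_eq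
        symm
        apply Finset.sum_subset Finset.inter_subset_left
        intro j h1 h2
        exact hsupp j h1 (fun h => h2 (Finset.mem_inter.2 ⟨h1, h⟩))
    _ ≤ ∑ j ∈ Finset.Icc (m - 1) (m + 1), ‖mj K j ξ‖ ^ 2 :=
        Finset.sum_le_sum_of_subset_of_nonneg Finset.inter_subset_right (fun _ _ _ => by positivity)
    _ ≤ ∑ j ∈ Finset.Icc (m - 1) (m + 1), (1:ℝ) := by
        apply Finset.sum_le_sum
        intro j _
        have := norm_mj (K := K) j ξ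
        have h0 := norm_nonneg (mj K j ξ)
        nlinarith
    _ = 3 := by
        rw [Finset.sum_const, Int.card_Icc]
        have : (m + 1 + 1 - (m - 1)).toNat = 3 := by
          have : m + 1 + 1 - (m - 1) = 3 := by ring
          rw [this]; rfl
        rw [this]; norm_num

theorem continuous_mj (hK : 1 ≤ K) : Continuous (mj K j) := by
  have : mj K j = 𝓕 (kpc K j) := by ext ξ; rw [fourier_kpc hK]
  rw [this]
  exact Vale.Agent.P117.continuous_fourier (integrable_kpc hK j)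

theorem isCompact_Gbig : IsCompact Gbig := by
  apply Metric.isCompact_of_isClosed_isBounded
  · have h1 : IsClosed {ξ : E2 | 1/200 ≤ ξ 0} := isClosed_le continuous_const (by fun_prop)
    have h2 : IsClosed {ξ : E2 | ξ 0 ≤ 200} := isClosed_le (by fun_prop) continuous_const
    have h3 : IsClosed {ξ : E2 | |ξ 1| ≤ 2 * ξ 0} := isClosed_le (by fun_prop) (by fun_prop)
    exact h1.inter (h2.inter h3)
  · apply Metric.isBounded_closedBall (x := (0 : E2)) (r := 600) |>.subset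
    intro ξ hξ
    obtain ⟨h1, h2, h3⟩ := hξ
    rw [Metric.mem_closedBall, dist_zero_right]
    have h4 : ‖ξ‖ ^ 2 = ξ 0 ^ 2 + ξ 1 ^ 2 := Vale.Agent.P117.E2_norm_sq ξ
    have h5 : ξ 1 ^ 2 ≤ 400 ^ 2 := by
      rw [← sq_abs]; have := abs_nonneg (ξ 1); nlinarith
    have h6 : ‖ξ‖ ^ 2 ≤ 600 ^ 2 := by rw [h4]; nlinarith
    exact (pow_le_pow_iff_left₀ (norm_nonneg _) (by norm_num) two_ne_zero).1 h6

/-- a function whose Fourier transform is supported in a compact set has integrable Fourier transform -/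
theorem integrable_fourier_of_FS {f : E2 → ℂ} (hf : Integrable f) {G : Set E2} (hG : IsCompact G)
    (hfs : FS f G) : Integrable (𝓕 f) := by
  have hc := Vale.Agent.P117.continuous_fourier hf
  have h1 : IntegrableOn (𝓕 f) G := hc.continuousOn.integrableOn_compact hG
  exact (integrableOn_iff_integrable_of_support_subset (fun ξ hξ => by
    by_contra h; exact hξ (hfs ξ h))).1 h1

/-- the evolution only depends on the Fourier transform and is additive over the pieces -/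
theorem ev_eq_sum_piece (hK : 1 ≤ K) (hf : Adm volume f) (hfs : FS f (Gcap 0 1)) {h : ℝ → ℝ} (hh : Measurable h)
    (t : ℝ) (x : E2) : ev h t f x = ∑ j ∈ Finset.Icc (-(K:ℤ)) K, ev h t (piece K j f) x := by
  unfold ev
  simp_rw [inv2_eq]
  have hm : Measurable (fun ξ : E2 => cexp (2 * Real.pi * I * (t * qh h ξ : ℝ))) := by
    have hq : Measurable (qh h) := by
      unfold qh
      exact Measurable.mul (by fun_prop) (hh.comp (by fun_prop))
    fun_prop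
  rw [← integral_finset_sum]
  · congr 1
    ext ξ
    rw [← Finset.mul_sum, ← Finset.mul_sum]
    congr 2
    simp_rw [fourier_piece hK _ hf]
    rw [← Finset.sum_mul]
    by_cases hξ : ξ ∈ Gcap 0 1
    · rw [sum_mj hξ, one_mul]
    · rw [hfs ξ hξ, mul_zero]
  · intro j hj
    rw [Finset.mem_Icc] at hj
    have hj' : |j| ≤ K := abs_le.2 ⟨hj.1, hj.2⟩
    have hi := integrable_fourier_of_FS (adm_piece hK j hf).int isCompact_Gbig (FS_piece_big hK j hf hj')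
    refine hi.norm.mono' ?_ ?_
    · have h2 : AEStronglyMeasurable (𝓕 (piece K j f)) volume := hi.aestronglyMeasurable
      have h3 : Measurable (fun ξ : E2 => cexp (((2 * Real.pi * (x 0 * ξ 0 + x 1 * ξ 1) : ℝ) : ℂ) * I)) := by
        fun_prop
      exact h3.aestronglyMeasurable.mul (hm.aestronglyMeasurable.mul h2)
    · filter_upwards with ξ
      have e : (2 * Real.pi * I * (t * qh h ξ : ℝ) : ℂ) = ((2 * Real.pi * (t * qh h ξ) : ℝ) : ℂ) * I := by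
        push_cast; ring
      rw [norm_mul, norm_mul, Complex.norm_exp_ofReal_mul_I, one_mul, e,
        Complex.norm_exp_ofReal_mul_I, one_mul]

end

end Vale.Agent.P106
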