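import Vale.Agent.P106.B.M3

/-! # Rescaling -/

open MeasureTheory Complex Set
open scoped ENNReal NNReal ContDiff FourierTransform SchwartzMap

set_option linter.all false

namespace Vale.Agent.P106

open Vale.Agent.P117 (E2 E3 Adm cv)

theorem rsc_eq {b s : ℝ} (hs : 0 < s) (f : E2 → ℂ) (X : E2) :
    rsc b s f X = f (!₂[1 * X 0 + (-b / s) * X 1, 0 * X 0 + s⁻¹ * X 1]) := by
  unfold rsc
  congr 3
  · ring
  · ring_nf

theorem rsc_det {b s : ℝ} (hs : 0 < s) : (1:ℝ) * s⁻¹ - (-b / s) * 0 ≠ 0 := by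
  rw [mul_zero, sub_zero, one_mul]; positivity

theorem adm_rsc {b s : ℝ} (hs : 0 < s) {f : E2 → ℂ} (hf : Adm volume f) : Adm volume (rsc b s f) := by
  have e : rsc b s f = fun X => f (!₂[1 * X 0 + (-b / s) * X 1, 0 * X 0 + s⁻¹ * X 1]) := by
    ext X; exact rsc_eq hs f X
  obtain ⟨M, hM⟩ := hf.bdd
  rw [e]
  exact ⟨hf.meas.comp (continuous_lin2 _ _ _ _).measurable, integrable_lin2 (rsc_det hs) hf.int, M, fun x => hM _⟩

theorem lintegral_rsc {b s : ℝ} (hs : 0 < s) (f : E2 → ℂ) (p : ℝ) :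
    ∫⁻ X, ‖rsc b s f X‖ₑ ^ p = ENNReal.ofReal s * ∫⁻ x, ‖f x‖ₑ ^ p := by
  simp_rw [rsc_eq hs]
  rw [lintegral_lin2 (rsc_det hs) (fun x => ‖f x‖ₑ ^ p)]
  congr 2
  rw [mul_zero, sub_zero, one_mul, inv_inv, abs_of_pos hs]

theorem fourier_rsc {b s : ℝ} (hs : 0 < s) (f : E2 → ℂ) (η : E2) :
    𝓕 (rsc b s f) η = (s : ℂ) * 𝓕 f (!₂[1 * η 0 + 0 * η 1, b * η 0 + s * η 1]) := by
  rw [four_eq, four_eq]
  have h := integral_lin2 (rsc_det (b := b) hs) (fun y : E2 => cexp (((-2 * Real.pi * (y 0 * η 0 +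
      y 1 * (b * η 0 + s * η 1)) : ℝ) : ℂ) * I) * f y)
  have e : ∀ x : E2, cexp (((-2 * Real.pi * (x 0 * η 0 + x 1 * η 1) : ℝ) : ℂ) * I) * rsc b s f x =
      (fun y : E2 => cexp (((-2 * Real.pi * (y 0 * η 0 +
      y 1 * (b * η 0 + s * η 1)) : ℝ) : ℂ) * I) * f y) (!₂[1 * x 0 + (-b / s) * x 1, 0 * x 0 + s⁻¹ * x 1]) := by
    intro x
    rw [rsc_eq hs]
    have e2 : (-2 * Real.pi * (x 0 * η 0 + x 1 * η 1) : ℝ) = -2 * Real.pi * ((1 * x 0 + (-b / s) * x 1) * η 0 +
      (0 * x 0 + s⁻¹ * x 1) * (b * η 0 + s * η 1)) := by field_simp; ring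
    rw [e2]
    simp
  simp_rw [e]
  rw [h, mul_zero, sub_zero, one_mul, inv_inv, abs_of_pos hs, Complex.real_smul]
  congr 2
  ext y
  simp

theorem FS_rsc {b s : ℝ} (hs : 0 < s) {f : E2 → ℂ} (hf : FS f (Gcap b s)) : FS (rsc b s f) (Gcap 0 1) := by
  intro η hη
  rw [fourier_rsc hs]
  rw [hf, mul_zero]
  intro hc
  apply hη
  obtain ⟨h1, h2, h3⟩ := hc
  have e0 : (!₂[1 * η 0 + 0 * η 1, b * η 0 + s * η 1] : E2) 0 = η 0 := by simp
  have e1 : (!₂[1 * η 0 + 0 * η 1, b * η 0 + s * η 1] : E2) 1 = b * η 0 + s * η 1 := by simp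
  rw [e0] at h1 h2
  rw [e0, e1] at h3
  refine ⟨h1, h2, ?_⟩
  rw [zero_mul, sub_zero, one_mul]
  have e : b * η 0 + s * η 1 - b * η 0 = s * η 1 := by ring
  rw [e, abs_mul, abs_of_pos hs] at h3
  exact le_of_mul_le_mul_left h3 hs

/-- rescaled point -/
noncomputable def rpt (h : ℝ → ℝ) (b s t : ℝ) (x : E2) : E2 :=
  !₂[x 0 + b * x 1 + h b * t, s * (x 1 + deriv h b * t)]

theorem ev_rsc (h : ℝ → ℝ) {b s : ℝ} (hs : 0 < s) {f : E2 → ℂ} (hfs : FS f (Gcap b s))
    (t : ℝ) (x : E2) : ev h t f x = ev (hres h b s) (s ^ 2 * t) (rsc b s f) (rpt h b s t x) := by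
  unfold ev
  rw [inv2_eq, inv2_eq]
  have hd : (1:ℝ) * s - 0 * b ≠ 0 := by rw [zero_mul, sub_zero, one_mul]; exact hs.ne'
  have h1 := integral_lin2 hd (fun ξ : E2 => cexp (((2 * Real.pi * (x 0 * ξ 0 + x 1 * ξ 1) : ℝ) : ℂ) * I) *
    (cexp (2 * Real.pi * I * (t * qh h ξ : ℝ)) * 𝓕 f ξ))
  rw [zero_mul, sub_zero, one_mul, abs_of_pos (by positivity), Complex.real_smul] at h1
  have h2 : ∀ G : ℂ, G = (s:ℂ) * ((s⁻¹ : ℝ) * G) := by
    intro G
    rw [← mul_assoc, ← Complex.ofReal_mul, mul_inv_cancel₀ hs.ne', Complex.ofReal_one, one_mul]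
  rw [h2 (∫ ξ : E2, cexp (((2 * Real.pi * (x 0 * ξ 0 + x 1 * ξ 1) : ℝ) : ℂ) * I) *
    (cexp (2 * Real.pi * I * (t * qh h ξ : ℝ)) * 𝓕 f ξ)), ← h1, ← integral_const_mul]
  congr 1
  ext η
  have hfr := fourier_rsc (b := b) hs f η
  set ξ : E2 := !₂[1 * η 0 + 0 * η 1, b * η 0 + s * η 1] with hξ
  have e0 : ξ 0 = η 0 := by rw [hξ]; simp
  have e1 : ξ 1 = b * η 0 + s * η 1 := by rw [hξ]; simp
  rw [e0, e1]
  have hr0 : (rpt h b s t x) 0 = x 0 + b * x 1 + h b * t := rfl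
  have hr1 : (rpt h b s t x) 1 = s * (x 1 + deriv h b * t) := rfl
  rw [hr0, hr1, hfr]
  by_cases hη : η ∈ Gcap 0 1
  · have h0 : 0 < η 0 := by have := hη.1; linarith
    have hq : x 0 * η 0 + x 1 * (b * η 0 + s * η 1) + t * qh h ξ =
        (x 0 + b * x 1 + h b * t) * η 0 + s * (x 1 + deriv h b * t) * η 1 + s ^ 2 * t * qh (hres h b s) η := by
      unfold qh hres
      rw [e0, e1]
      have : (b * η 0 + s * η 1) / η 0 = b + s * (η 1 / η 0) := by field_simp
      rw [this]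
      have h3 : η 1 = η 0 * (η 1 / η 0) := by field_simp
      set v := η 1 / η 0
      rw [h3]
      field_simp
      ring
    have e3 : cexp (((2 * Real.pi * (x 0 * η 0 + x 1 * (b * η 0 + s * η 1)) : ℝ) : ℂ) * I) *
        cexp (2 * Real.pi * I * (t * qh h ξ : ℝ)) =
        cexp (((2 * Real.pi * ((x 0 + b * x 1 + h b * t) * η 0 + s * (x 1 + deriv h b * t) * η 1) : ℝ) : ℂ) * I) *
        cexp (2 * Real.pi * I * (s ^ 2 * t * qh (hres h b s) η : ℝ)) := by
      rw [← Complex.exp_add, ← Complex.exp_add]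
      congr 1
      have : ((2 * Real.pi * (x 0 * η 0 + x 1 * (b * η 0 + s * η 1)) : ℝ) : ℂ) * I +
          2 * Real.pi * I * (t * qh h ξ : ℝ) =
          2 * Real.pi * I * ((x 0 * η 0 + x 1 * (b * η 0 + s * η 1) + t * qh h ξ : ℝ) : ℂ) := by
        push_cast; ring
      rw [this, hq]
      push_cast
      ring
    calc _ = (s:ℂ) * 𝓕 f ξ * (cexp (((2 * Real.pi * (x 0 * η 0 + x 1 * (b * η 0 + s * η 1)) : ℝ) : ℂ) * I) *
        cexp (2 * Real.pi * I * (t * qh h ξ : ℝ))) := by ring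
      _ = _ := by rw [e3]; ring
  · have := FS_rsc hs hfs η hη
    rw [hfr] at this
    rw [show (s:ℂ) * (cexp (((2 * Real.pi * (x 0 * η 0 + x 1 * (b * η 0 + s * η 1)) : ℝ) : ℂ) * I) *
      (cexp (2 * Real.pi * I * (t * qh h ξ : ℝ)) * 𝓕 f ξ)) =
      (cexp (((2 * Real.pi * (x 0 * η 0 + x 1 * (b * η 0 + s * η 1)) : ℝ) : ℂ) * I) *
      (cexp (2 * Real.pi * I * (t * qh h ξ : ℝ)))) * ((s:ℂ) * 𝓕 f ξ) by ring, this]
    ring

theorem stRS : StRS := by
  intro h b s hs f hf hfs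
  exact ⟨adm_rsc hs hf, FS_rsc hs hfs, fun t x => ev_rsc h hs hfs t x⟩

/-- rescaled normal -/
noncomputable def nres (h : ℝ → ℝ) (n : Fin 3 → ℝ) (b s : ℝ) : Fin 3 → ℝ :=
  ![s ^ 2 * n 0, s * (n 1 - b * n 0), kapn h n b]

theorem nres_zero (h : ℝ → ℝ) (n : Fin 3 → ℝ) (b s : ℝ) : nres h n b s 0 = s ^ 2 * n 0 := rfl
theorem nres_one (h : ℝ → ℝ) (n : Fin 3 → ℝ) (b s : ℝ) : nres h n b s 1 = s * (n 1 - b * n 0) := rfl
theorem nres_two (h : ℝ → ℝ) (n : Fin 3 → ℝ) (b s : ℝ) : nres h n b s 2 = kapn h n b := rfl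

section hc
variable {c C C1 : ℝ} {h : ℝ → ℝ} (hh : HC c C h) (b : ℝ) {s : ℝ} (hs : 0 < s)

include hh in
theorem HC.hd1 (u : ℝ) : HasDerivAt h (deriv h u) u :=
  (hh.smooth.differentiable (by simp)).differentiableAt.hasDerivAt

include hh in
theorem HC.smooth1 : ContDiff ℝ ∞ (deriv h) := by
  have := (contDiff_infty_iff_deriv (𝕜 := ℝ)).1 hh.smooth
  exact this.2

include hh in
theorem HC.smooth2 : ContDiff ℝ ∞ (deriv (deriv h)) :=
  ((contDiff_infty_iff_deriv (𝕜 := ℝ)).1 hh.smooth1).2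

include hh hs in
theorem deriv_hres : deriv (hres h b s) = fun v => (deriv h (b + s * v) - deriv h b) / s := by
  ext v
  have h1 : HasDerivAt (fun v => h (b + s * v)) (deriv h (b + s * v) * s) v := by
    refine (HasDerivAt.comp v (hh.hd1 (b + s * v)) (((hasDerivAt_id v).const_mul s).const_add b)).congr_deriv ?_
    simp
  have h2 : HasDerivAt (hres h b s) ((deriv h (b + s * v) * s - s * deriv h b) / s ^ 2) v := by
    unfold hres
    apply HasDerivAt.div_const
    have h3 : HasDerivAt (fun v : ℝ => s * v * deriv h b) (s * deriv h b) v := by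
      have := ((hasDerivAt_id v).const_mul s).mul_const (deriv h b)
      simpa using this
    exact (h1.sub_const (h b)).sub h3
  rw [h2.deriv]
  field_simp

include hh hs in
theorem deriv2_hres : deriv (deriv (hres h b s)) = fun v => deriv (deriv h) (b + s * v) := by
  rw [deriv_hres hh b hs]
  ext v
  have h1 : HasDerivAt (fun v => deriv h (b + s * v)) (deriv (deriv h) (b + s * v) * s) v := by
    have h0 : HasDerivAt (deriv h) (deriv (deriv h) (b + s * v)) (b + s * v) :=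
      (hh.smooth1.differentiable (by simp)).differentiableAt.hasDerivAt
    refine (HasDerivAt.comp v h0 (((hasDerivAt_id v).const_mul s).const_add b)).congr_deriv ?_
    simp
  have h2 := (h1.sub_const (deriv h b)).div_const s
  rw [h2.deriv]
  field_simp

include hh hs in
theorem deriv3_hres : deriv (deriv (deriv (hres h b s))) = fun v => s * deriv (deriv (deriv h)) (b + s * v) := by
  rw [deriv2_hres hh b hs]
  ext v
  have h0 : HasDerivAt (deriv (deriv h)) (deriv (deriv (deriv h)) (b + s * v)) (b + s * v) :=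
    (hh.smooth2.differentiable (by simp)).differentiableAt.hasDerivAt
  have h2 : HasDerivAt (fun v => deriv (deriv h) (b + s * v)) (deriv (deriv (deriv h)) (b + s * v) * s) v := by
    refine (HasDerivAt.comp v h0 (((hasDerivAt_id v).const_mul s).const_add b)).congr_deriv ?_
    simp
  rw [h2.deriv]
  ring

include hh hs in
theorem HC.hres (hs1 : s ≤ 1) : HC c C (hres h b s) := by
  refine ⟨?_, ?_, ?_, ?_, ?_, ?_⟩
  · unfold Vale.Agent.P106.hres
    have := hh.smooth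
    fun_prop
  · unfold Vale.Agent.P106.hres; simp
  · rw [deriv_hres hh b hs]; simp
  · intro u; rw [deriv2_hres hh b hs]; exact hh.lower _
  · intro u; rw [deriv2_hres hh b hs]; exact hh.upper _
  · intro u
    rw [deriv3_hres hh b hs]
    simp only
    rw [abs_mul, abs_of_pos hs]
    have := hh.third (b + s * u)
    have h0 := abs_nonneg (deriv (deriv (deriv h)) (b + s * u))
    nlinarith

include hh hs in
theorem kapn_res (n : Fin 3 → ℝ) (u : ℝ) : kapn (hres h b s) (nres h n b s) u = kapn h n (b + s * u) := by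
  unfold kapn
  rw [deriv_hres hh b hs, nres_zero, nres_one, nres_two]
  unfold kapn hres
  field_simp
  ring

include hh hs in
theorem Normal.res {n : Fin 3 → ℝ} (hn : Normal C1 h n) (hb : |b| ≤ 1) (hs1 : s ≤ 1/2) :
    Normal C1 (hres h b s) (nres h n b s) := by
  have hC1 : 1 ≤ C1 := (hn.lower 0 (by simp)).trans (hn.upper 0 (by simp))
  have hb2 : |b| ≤ 2 := hb.trans (by norm_num)
  have hu : ∀ u, |u| ≤ 2 → |b + s * u| ≤ 2 := by
    intro u hu
    calc |b + s * u| ≤ |b| + |s * u| := abs_add_le _ _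
      _ ≤ 1 + 1/2 * 2 := by
        rw [abs_mul, abs_of_pos hs]
        gcongr
      _ = 2 := by norm_num
  refine ⟨?_, ?_, ?_⟩
  · intro i
    fin_cases i
    · have h0 := hn.bound 0
      show |s ^ 2 * n 0| ≤ C1
      rw [abs_mul, abs_of_pos (by positivity)]
      have : s ^ 2 ≤ 1 := by nlinarith
      calc s ^ 2 * |n 0| ≤ 1 * C1 := by gcongr
        _ = C1 := one_mul _
    · have h0 := hn.bound 0
      have h1 := hn.bound 1
      show |s * (n 1 - b * n 0)| ≤ C1
      rw [abs_mul, abs_of_pos hs]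
      have : |n 1 - b * n 0| ≤ 2 * C1 := by
        calc |n 1 - b * n 0| ≤ |n 1| + |b * n 0| := abs_sub _ _
          _ ≤ C1 + 1 * C1 := by
            rw [abs_mul]
            gcongr
          _ = _ := by ring
      calc s * |n 1 - b * n 0| ≤ 1/2 * (2 * C1) := by gcongr
        _ = _ := by ring
    · show |kapn h n b| ≤ C1
      rw [abs_of_nonneg (zero_le_one.trans (hn.lower b hb2))]
      exact hn.upper b hb2
  · intro u hu'
    rw [kapn_res hh b hs]
    exact hn.lower _ (hu u hu')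
  · intro u hu'
    rw [kapn_res hh b hs]
    exact hn.upper _ (hu u hu')

end hc

theorem lintegral_mul_left_real {a : ℝ} (ha : 0 < a) (G : ℝ → ℝ≥0∞) :
    ∫⁻ t : ℝ, G (a * t) = ENNReal.ofReal a⁻¹ * ∫⁻ T, G T := by
  have h := Real.map_volume_mul_left ha.ne'
  have hme : MeasurableEmbedding (fun t : ℝ => a * t) := (Homeomorph.mulLeft₀ a ha.ne').measurableEmbedding
  rw [← hme.lintegral_map G, h, lintegral_smul_measure, smul_eq_mul, abs_of_pos (by positivity)]

theorem slabAt_res (h : ℝ → ℝ) (n : Fin 3 → ℝ) (b : ℝ) {s : ℝ} (hs : 0 < s) (c' H t : ℝ) (x : E2) :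
    rpt h b s t x ∈ slabAt (nres h n b s) (s ^ 2 * c') (s ^ 2 * H) (s ^ 2 * t) ↔ x ∈ slabAt n c' H t := by
  unfold slabAt
  have hr0 : (rpt h b s t x) 0 = x 0 + b * x 1 + h b * t := rfl
  have hr1 : (rpt h b s t x) 1 = s * (x 1 + deriv h b * t) := rfl
  simp only [mem_setOf_eq]
  rw [hr0, hr1]
  have e : nres h n b s 0 * (x 0 + b * x 1 + h b * t) + nres h n b s 1 * (s * (x 1 + deriv h b * t)) +
      nres h n b s 2 * (s ^ 2 * t) - s ^ 2 * c' = s ^ 2 * (n 0 * x 0 + n 1 * x 1 + n 2 * t - c') := by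
    rw [nres_zero, nres_one, nres_two]
    unfold kapn
    ring
  rw [e, abs_mul, abs_of_pos (by positivity)]
  constructor
  · intro h; exact le_of_mul_le_mul_left h (by positivity)
  · intro h; gcongr

theorem measurableSet_slabAt (n : Fin 3 → ℝ) (c' H t : ℝ) : MeasurableSet (slabAt n c' H t) := by
  unfold slabAt
  exact (isClosed_le (by fun_prop) continuous_const).measurableSet

/-- rescaling of slab integrals -/
theorem slabInt_res {h : ℝ → ℝ} (n : Fin 3 → ℝ) {b s : ℝ} (hs : 0 < s) {f : E2 → ℂ}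
    (hfs : FS f (Gcap b s)) (c' H R p : ℝ) :
    slabInt h n c' H R p f = ENNReal.ofReal ((s ^ 3)⁻¹) *
      slabInt (hres h b s) (nres h n b s) (s ^ 2 * c') (s ^ 2 * H) (s ^ 2 * R) p (rsc b s f) := by
  unfold slabInt
  set G : ℝ → ℝ≥0∞ := fun T => ∫⁻ X in slabAt (nres h n b s) (s ^ 2 * c') (s ^ 2 * H) T,
    ‖ev (hres h b s) T (rsc b s f) X‖ₑ ^ p with hG
  have hd : (1:ℝ) * s - b * 0 ≠ 0 := by rw [mul_zero, sub_zero, one_mul]; exact hs.ne'
  have inner : ∀ t : ℝ, ∫⁻ x in slabAt n c' H t, ‖ev h t f x‖ₑ ^ p = ENNReal.ofReal s⁻¹ * G (s ^ 2 * t) := by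
    intro t
    set F : E2 → ℝ≥0∞ := fun X => (slabAt (nres h n b s) (s ^ 2 * c') (s ^ 2 * H) (s ^ 2 * t)).indicator
      (fun X => ‖ev (hres h b s) (s ^ 2 * t) (rsc b s f) X‖ₑ ^ p) X with hF
    have e1 : ∫⁻ x in slabAt n c' H t, ‖ev h t f x‖ₑ ^ p = ∫⁻ x, F (rpt h b s t x) := by
      rw [← lintegral_indicator (measurableSet_slabAt n c' H t)]
      refine lintegral_congr fun x => ?_
      simp only [hF, indicator]
      by_cases hx : x ∈ slabAt n c' H t
      · rw [if_pos hx, if_pos ((slabAt_res h n b hs c' H t x).2 hx), ev_rsc h hs hfs]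
      · rw [if_neg hx, if_neg (fun hc => hx ((slabAt_res h n b hs c' H t x).1 hc))]
    set v : E2 := !₂[h b * t, s * (deriv h b * t)] with hv
    have e2 : ∀ x : E2, rpt h b s t x = (!₂[1 * x 0 + b * x 1, 0 * x 0 + s * x 1] : E2) + v := by
      intro x
      rw [hv]
      unfold rpt
      ext i
      fin_cases i
      · simp
      · simp; ring
    rw [e1]
    simp_rw [e2]
    rw [lintegral_lin2 hd (fun y => F (y + v)), lintegral_add_right_eq_self F v, hF,
      lintegral_indicator (measurableSet_slabAt _ _ _ _)]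
    congr 2
    rw [mul_zero, sub_zero, one_mul, abs_of_pos (by positivity)]
  simp_rw [inner]
  rw [lintegral_const_mul' _ _ ENNReal.ofReal_ne_top]
  have e3 : ∫⁻ t in Icc (-R) R, G (s ^ 2 * t) = ENNReal.ofReal ((s ^ 2)⁻¹) * ∫⁻ T in Icc (-(s ^ 2 * R)) (s ^ 2 * R), G T := by
    rw [← lintegral_indicator measurableSet_Icc, ← lintegral_indicator measurableSet_Icc,
      ← lintegral_mul_left_real (by positivity : 0 < s ^ 2)]
    refine lintegral_congr fun t => ?_
    have : s ^ 2 * t ∈ Icc (-(s ^ 2 * R)) (s ^ 2 * R) ↔ t ∈ Icc (-R) R := by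
      have hs2 : 0 < s ^ 2 := by positivity
      rw [mem_Icc, mem_Icc]
      constructor
      · rintro ⟨h1, h2⟩
        constructor
        · rw [← mul_neg] at h1
          exact le_of_mul_le_mul_left h1 hs2
        · exact le_of_mul_le_mul_left h2 hs2
      · rintro ⟨h1, h2⟩
        constructor
        · rw [← mul_neg]; gcongr
        · gcongr
    simp only [indicator]
    by_cases ht : t ∈ Icc (-R) R
    · rw [if_pos ht, if_pos (this.2 ht)]
    · rw [if_neg ht, if_neg (fun hc => ht (this.1 hc))]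
  rw [e3, ← mul_assoc, ← ENNReal.ofReal_mul (by positivity)]
  congr 2
  field_simp

end Vale.Agent.P106
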