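import Vale.Agent.P106.B.RS

/-! # The recursion: the slab theorem from the plane bound and the trilinear bound -/

open MeasureTheory Complex Set
open scoped ENNReal NNReal ContDiff FourierTransform SchwartzMap

set_option linter.all false

namespace Vale.Agent.P106

open Vale.Agent.P117 (E2 E3 Adm cv)

/-- [TS] trilinear part of the slab estimate -/
def StTS : Prop := ∀ c C C1 ε : ℝ, 0 < c → 0 < ε → ∀ K : ℕ, 1 ≤ K → ∃ A : ℝ, 0 ≤ A ∧
  ∀ (h : ℝ → ℝ) (n : Fin 3 → ℝ), HC c C h → Normal C1 h n → ∀ (c' H R : ℝ), 1 ≤ H → H ≤ R →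
  ∀ f : E2 → ℂ, Adm volume f → ∀ i j k : ℤ, |i| ≤ K → |j| ≤ K → |k| ≤ K →
    3 ≤ |j - i| → 3 ≤ |k - i| → 3 ≤ |k - j| →
    ∫⁻ t in Icc (-R) R, ∫⁻ x in slabAt n c' H t,
      ‖ev h t (piece K i f) x‖ₑ * ‖ev h t (piece K j f) x‖ₑ * ‖ev h t (piece K k f) x‖ₑ ≤
        ENNReal.ofReal (A * R ^ ε * (H * R) ^ (1/2:ℝ)) * ∫⁻ x, ‖f x‖ₑ ^ (3:ℝ)

theorem measurable_qh {h : ℝ → ℝ} (hh : Measurable h) : Measurable (qh h) := by
  unfold qh
  exact Measurable.mul (by fun_prop) (hh.comp (by fun_prop))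

theorem measurable_ev {h : ℝ → ℝ} (hh : Measurable h) {f : E2 → ℂ} (hf : Integrable f) :
    Measurable (fun z : ℝ × E2 => ev h z.1 f z.2) := by
  unfold ev
  simp_rw [inv2_eq]
  have hF : Measurable (𝓕 f) := (Vale.Agent.P117.continuous_fourier hf).measurable
  have hq := measurable_qh hh
  have hm : Measurable (fun p : (ℝ × E2) × E2 => cexp (((2 * Real.pi * (p.1.2 0 * p.2 0 + p.1.2 1 * p.2 1) : ℝ) : ℂ) * I) *
      (cexp (2 * Real.pi * I * (p.1.1 * qh h p.2 : ℝ)) * 𝓕 f p.2)) := by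
    have h1 : Measurable (fun p : (ℝ × E2) × E2 => qh h p.2) := hq.comp measurable_snd
    have h2 : Measurable (fun p : (ℝ × E2) × E2 => 𝓕 f p.2) := hF.comp measurable_snd
    fun_prop
  exact (hm.stronglyMeasurable.integral_prod_right').measurable

/-- the slab as a subset of space-time -/
def slabST (n : Fin 3 → ℝ) (c' H R : ℝ) : Set (ℝ × E2) := {z | z.1 ∈ Icc (-R) R ∧ z.2 ∈ slabAt n c' H z.1}

theorem measurableSet_slabST (n : Fin 3 → ℝ) (c' H R : ℝ) : MeasurableSet (slabST n c' H R) := by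
  unfold slabST slabAt
  apply MeasurableSet.inter
  · exact measurableSet_Icc.preimage measurable_fst
  · exact (isClosed_le (f := fun z : ℝ × E2 => |n 0 * z.2 0 + n 1 * z.2 1 + n 2 * z.1 - c'|)
      (by fun_prop) continuous_const).measurableSet

theorem lintegral_slabST (n : Fin 3 → ℝ) (c' H R : ℝ) {G : ℝ × E2 → ℝ≥0∞} (hG : Measurable G) :
    ∫⁻ t in Icc (-R) R, ∫⁻ x in slabAt n c' H t, G (t, x) = ∫⁻ z in slabST n c' H R, G z := by
  rw [← lintegral_indicator (measurableSet_slabST n c' H R), Measure.volume_eq_prod,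
    lintegral_prod _ ((hG.indicator (measurableSet_slabST n c' H R)).aemeasurable),
    ← lintegral_indicator measurableSet_Icc]
  refine lintegral_congr fun t => ?_
  by_cases ht : t ∈ Icc (-R) R
  · rw [indicator_of_mem ht, ← lintegral_indicator (measurableSet_slabAt n c' H t)]
    refine lintegral_congr fun x => ?_
    by_cases hx : x ∈ slabAt n c' H t
    · rw [indicator_of_mem hx, indicator_of_mem (show (t, x) ∈ slabST n c' H R from ⟨ht, hx⟩)]
    · rw [indicator_of_notMem hx, indicator_of_notMem (fun h => hx h.2)]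
  · rw [indicator_of_notMem ht]
    symm
    rw [lintegral_eq_zero_iff']
    · filter_upwards with x
      rw [indicator_of_notMem (fun h => ht h.1)]
      rfl
    · exact ((hG.indicator (measurableSet_slabST n c' H R)).comp measurable_prodMk_left).aemeasurable

theorem slabInt_eq {h : ℝ → ℝ} (hh : Measurable h) (n : Fin 3 → ℝ) (c' H R p : ℝ) {f : E2 → ℂ}
    (hf : Integrable f) : slabInt h n c' H R p f = ∫⁻ z in slabST n c' H R, ‖ev h z.1 f z.2‖ₑ ^ p := by
  unfold slabInt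
  exact lintegral_slabST n c' H R (G := fun z => ‖ev h z.1 f z.2‖ₑ ^ p)
    ((measurable_ev hh hf).enorm.pow_const p)

/-- broad–narrow decomposition of slab integrals -/
theorem slabInt_bn {h : ℝ → ℝ} (hh : Measurable h) (n : Fin 3 → ℝ) (c' H R : ℝ) {K : ℕ} (hK : 1 ≤ K)
    {f : E2 → ℂ} (hf : Adm volume f) (hfs : FS f (Gcap 0 1)) {T : ℝ≥0∞}
    (hT : ∀ i j k : ℤ, |i| ≤ K → |j| ≤ K → |k| ≤ K → 3 ≤ |j - i| → 3 ≤ |k - i| → 3 ≤ |k - j| →
      ∫⁻ t in Icc (-R) R, ∫⁻ x in slabAt n c' H t,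
        ‖ev h t (piece K i f) x‖ₑ * ‖ev h t (piece K j f) x‖ₑ * ‖ev h t (piece K k f) x‖ₑ ≤ T) :
    slabInt h n c' H R 3 f ≤ 8000 * ∑ j ∈ Finset.Icc (-(K:ℤ)) K, slabInt h n c' H R 3 (piece K j f) +
      8 * ((2 * K + 1 : ℕ) : ℝ≥0∞) ^ 3 * (((2 * K + 1 : ℕ) : ℝ≥0∞) ^ 3 * T) := by
  set J : Finset ℤ := Finset.Icc (-(K:ℤ)) K with hJ
  have hcard : J.card = 2 * K + 1 := by
    rw [hJ, Int.card_Icc]; omega
  have hmem : ∀ j ∈ J, |j| ≤ K := by
    intro j hj
    rw [hJ, Finset.mem_Icc] at hj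
    exact abs_le.2 ⟨hj.1, hj.2⟩
  have hp : ∀ j, Adm volume (piece K j f) := fun j => adm_piece hK j hf
  have hme : ∀ j, Measurable (fun z : ℝ × E2 => ‖ev h z.1 (piece K j f) z.2‖ₑ) := fun j =>
    (measurable_ev hh (hp j).int).enorm
  have e3 : ∀ x : ℝ≥0∞, x ^ (3:ℝ) = x ^ 3 := fun x => by norm_num
  rw [slabInt_eq hh n c' H R 3 hf.int]
  have e4 : ∀ j, slabInt h n c' H R 3 (piece K j f) =
      ∫⁻ z in slabST n c' H R, ‖ev h z.1 (piece K j f) z.2‖ₑ ^ 3 := by
    intro j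
    rw [slabInt_eq hh n c' H R 3 (hp j).int]
    simp only [e3]
  simp only [e3, e4]
  calc ∫⁻ z in slabST n c' H R, ‖ev h z.1 f z.2‖ₑ ^ 3 ≤
      ∫⁻ z in slabST n c' H R, (8000 * ∑ j ∈ J, ‖ev h z.1 (piece K j f) z.2‖ₑ ^ 3 +
        8 * ((2 * K + 1 : ℕ) : ℝ≥0∞) ^ 3 * ∑ j ∈ J, ∑ k ∈ J with 3 ≤ |k - j|,
          ∑ l ∈ J with 3 ≤ |l - j| ∧ 3 ≤ |l - k|, ‖ev h z.1 (piece K j f) z.2‖ₑ *
            ‖ev h z.1 (piece K k f) z.2‖ₑ * ‖ev h z.1 (piece K l f) z.2‖ₑ) := by
        refine lintegral_mono fun z => ?_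
        rw [ev_eq_sum_piece hK hf hfs hh]
        exact Tri.broad_narrow J (2 * K + 1) hcard.le (fun j => ev h z.1 (piece K j f) z.2)
    _ = 8000 * ∑ j ∈ J, (∫⁻ z in slabST n c' H R, ‖ev h z.1 (piece K j f) z.2‖ₑ ^ 3) +
        8 * ((2 * K + 1 : ℕ) : ℝ≥0∞) ^ 3 * ∑ j ∈ J, ∑ k ∈ J with 3 ≤ |k - j|,
          ∑ l ∈ J with 3 ≤ |l - j| ∧ 3 ≤ |l - k|, ∫⁻ z in slabST n c' H R, ‖ev h z.1 (piece K j f) z.2‖ₑ *
            ‖ev h z.1 (piece K k f) z.2‖ₑ * ‖ev h z.1 (piece K l f) z.2‖ₑ := by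
        have m1 : ∀ j, Measurable (fun z : ℝ × E2 => ‖ev h z.1 (piece K j f) z.2‖ₑ ^ 3) := fun j =>
          (hme j).pow_const 3
        have m3 : ∀ j k l, Measurable (fun z : ℝ × E2 => ‖ev h z.1 (piece K j f) z.2‖ₑ *
            ‖ev h z.1 (piece K k f) z.2‖ₑ * ‖ev h z.1 (piece K l f) z.2‖ₑ) := fun j k l =>
          ((hme j).mul (hme k)).mul (hme l)
        have m1s : Measurable (fun z : ℝ × E2 => 8000 * ∑ j ∈ J, ‖ev h z.1 (piece K j f) z.2‖ₑ ^ 3) :=
          (Finset.measurable_sum _ fun j _ => m1 j).const_mul _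
        have hA : ∫⁻ z in slabST n c' H R, ∑ j ∈ J, ∑ k ∈ J with 3 ≤ |k - j|,
            ∑ l ∈ J with 3 ≤ |l - j| ∧ 3 ≤ |l - k|, ‖ev h z.1 (piece K j f) z.2‖ₑ *
            ‖ev h z.1 (piece K k f) z.2‖ₑ * ‖ev h z.1 (piece K l f) z.2‖ₑ = ∑ j ∈ J, ∑ k ∈ J with 3 ≤ |k - j|,
            ∑ l ∈ J with 3 ≤ |l - j| ∧ 3 ≤ |l - k|, ∫⁻ z in slabST n c' H R, ‖ev h z.1 (piece K j f) z.2‖ₑ *
            ‖ev h z.1 (piece K k f) z.2‖ₑ * ‖ev h z.1 (piece K l f) z.2‖ₑ := by
          rw [lintegral_finset_sum _ (fun j _ => Finset.measurable_sum _ fun k _ =>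
            Finset.measurable_sum _ fun l _ => m3 j k l)]
          refine Finset.sum_congr rfl fun j _ => ?_
          rw [lintegral_finset_sum _ (fun k _ => Finset.measurable_sum _ fun l _ => m3 j k l)]
          refine Finset.sum_congr rfl fun k _ => ?_
          rw [lintegral_finset_sum _ (fun l _ => m3 j k l)]
        rw [lintegral_add_left m1s, lintegral_const_mul' _ _ (by norm_num),
          lintegral_const_mul' _ _ (by
            apply ENNReal.mul_ne_top (by norm_num)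
            exact ENNReal.pow_ne_top (ENNReal.natCast_ne_top _)),
          lintegral_finset_sum _ (fun j _ => m1 j), hA]
    _ ≤ _ := by
        refine add_le_add le_rfl (mul_le_mul' le_rfl ?_)
        calc ∑ j ∈ J, ∑ k ∈ J with 3 ≤ |k - j|,
          ∑ l ∈ J with 3 ≤ |l - j| ∧ 3 ≤ |l - k|, ∫⁻ z in slabST n c' H R, ‖ev h z.1 (piece K j f) z.2‖ₑ *
            ‖ev h z.1 (piece K k f) z.2‖ₑ * ‖ev h z.1 (piece K l f) z.2‖ₑ ≤
            ∑ j ∈ J, ∑ k ∈ J with 3 ≤ |k - j|, ∑ l ∈ J with 3 ≤ |l - j| ∧ 3 ≤ |l - k|, T := by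
              apply Finset.sum_le_sum
              intro j hj
              apply Finset.sum_le_sum
              intro k hk
              apply Finset.sum_le_sum
              intro l hl
              rw [Finset.mem_filter] at hk hl
              have := hT j k l (hmem j hj) (hmem k hk.1) (hmem l hl.1) hk.2 hl.2.1 hl.2.2
              exact (lintegral_slabST n c' H R (G := fun z => ‖ev h z.1 (piece K j f) z.2‖ₑ *
                ‖ev h z.1 (piece K k f) z.2‖ₑ * ‖ev h z.1 (piece K l f) z.2‖ₑ)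
                (((hme j).mul (hme k)).mul (hme l))).symm.le.trans this
          _ ≤ ∑ j ∈ J, ∑ k ∈ J, ∑ l ∈ J, T := by
              apply Finset.sum_le_sum
              intro j hj
              calc _ ≤ ∑ k ∈ J with 3 ≤ |k - j|, ∑ l ∈ J, T := by
                    apply Finset.sum_le_sum
                    intro k hk
                    exact Finset.sum_le_sum_of_subset (Finset.filter_subset _ _)
                _ ≤ _ := Finset.sum_le_sum_of_subset (Finset.filter_subset _ _)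
          _ = _ := by
              simp only [Finset.sum_const, nsmul_eq_mul, hcard]
              ring

/-- [REC] the slab theorem -/
theorem stSL (hPL : StPL) (hTS : StTS) : StSL := by
  intro c C C1 ε hc hε
  obtain ⟨AP, hAP, hPL'⟩ := hPL c C C1 hc
  set D : ℝ := 72 * B0 with hD
  have hD0 : 0 ≤ D := mul_nonneg (by norm_num) B0_nonneg
  -- choice of K
  obtain ⟨K, hK2, hKε⟩ : ∃ K : ℕ, 2 ≤ K ∧ 8000 * D * (K:ℝ) ^ (-(2 * ε)) ≤ 1/2 := by
    obtain ⟨K, hK⟩ := exists_nat_ge ((16000 * D + 1) ^ (1 / (2 * ε)))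
    refine ⟨max K 2, le_max_right _ _, ?_⟩
    set K' : ℕ := max K 2 with hK'
    have h1 : (16000 * D + 1) ^ (1 / (2 * ε)) ≤ (K':ℝ) := hK.trans (by exact_mod_cast le_max_left _ _)
    have hK'0 : (0:ℝ) < K' := by
      have : 2 ≤ K' := le_max_right _ _
      have : (2:ℝ) ≤ K' := by exact_mod_cast this
      linarith
    have h2 : 16000 * D + 1 ≤ (K':ℝ) ^ (2 * ε) := by
      have := Real.rpow_le_rpow (by positivity) h1 (by positivity : 0 ≤ 2 * ε)
      rwa [← Real.rpow_mul (by positivity), one_div, inv_mul_cancel₀ (by positivity), Real.rpow_one] at this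
    rw [Real.rpow_neg hK'0.le, ← div_eq_mul_inv, div_le_iff₀ (by positivity)]
    linarith
  have hK1 : 1 ≤ K := by omega
  have hK0 : (0:ℝ) < K := by exact_mod_cast (by omega : 0 < K)
  have hK1' : (1:ℝ) < K := by exact_mod_cast (by omega : 1 < K)
  obtain ⟨AT, hAT, hTS'⟩ := hTS c C C1 ε hc hε K hK1
  set M : ℝ := 8 * ((2 * K + 1 : ℕ) : ℝ) ^ 3 * (((2 * K + 1 : ℕ) : ℝ) ^ 3 * AT) with hM
  have hM0 : 0 ≤ M := by rw [hM]; positivity
  set A : ℝ := max (K * AP) (2 * M) with hA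
  have hA0 : 0 ≤ A := le_max_of_le_right (by positivity)
  refine ⟨A, hA0, ?_⟩
  -- base case
  have base : ∀ (h : ℝ → ℝ) (n : Fin 3 → ℝ), HC c C h → Normal C1 h n → ∀ (c' H R : ℝ), 1 ≤ H → H ≤ R →
      H ≤ K ^ 2 → ∀ f : E2 → ℂ, Adm volume f → FS f (Gcap 0 1) →
      slabInt h n c' H R 3 f ≤ ENNReal.ofReal (A * R ^ ε * (H * R) ^ (1/2:ℝ)) * ∫⁻ x, ‖f x‖ₑ ^ (3:ℝ) := by
    intro h n hh hn c' H R hH hR hHK f hf hfs
    refine (hPL' h n hh hn c' H R (by linarith) (by linarith) f hf hfs).trans ?_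
    refine mul_le_mul' (ENNReal.ofReal_le_ofReal ?_) le_rfl
    have hH0 : 0 ≤ H := by linarith
    have hR0 : 0 ≤ R := by linarith
    have h1 : H = H ^ (1/2:ℝ) * H ^ (1/2:ℝ) := by
      rw [← Real.rpow_add (by linarith)]; norm_num
    have h2 : H ^ (1/2:ℝ) ≤ K := by
      calc H ^ (1/2:ℝ) ≤ ((K:ℝ) ^ 2) ^ (1/2:ℝ) := Real.rpow_le_rpow hH0 hHK (by norm_num)
        _ = K := by rw [← Real.rpow_natCast, ← Real.rpow_mul hK0.le]; norm_num
    have h3 : 1 ≤ R ^ ε := Real.one_le_rpow (by linarith) hε.le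
    rw [Real.mul_rpow hH0 hR0]
    calc AP * (H * R ^ (1/2:ℝ)) = (H ^ (1/2:ℝ) * AP) * (H ^ (1/2:ℝ) * R ^ (1/2:ℝ)) := by
          conv_lhs => rw [h1]
          ring
      _ ≤ (K * AP) * (H ^ (1/2:ℝ) * R ^ (1/2:ℝ)) := by gcongr
      _ ≤ A * (H ^ (1/2:ℝ) * R ^ (1/2:ℝ)) := by gcongr; exact le_max_left _ _
      _ = A * 1 * (H ^ (1/2:ℝ) * R ^ (1/2:ℝ)) := by ring
      _ ≤ A * R ^ ε * (H ^ (1/2:ℝ) * R ^ (1/2:ℝ)) := by gcongr
  -- induction
  have main : ∀ (m : ℕ) (h : ℝ → ℝ) (n : Fin 3 → ℝ), HC c C h → Normal C1 h n → ∀ (c' H R : ℝ), 1 ≤ H →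
      H ≤ R → H ≤ ((K:ℝ) ^ 2) ^ (m + 1) → ∀ f : E2 → ℂ, Adm volume f → FS f (Gcap 0 1) →
      slabInt h n c' H R 3 f ≤ ENNReal.ofReal (A * R ^ ε * (H * R) ^ (1/2:ℝ)) * ∫⁻ x, ‖f x‖ₑ ^ (3:ℝ) := by
    intro m
    induction m with
    | zero =>
      intro h n hh hn c' H R hH hR hHK f hf hfs
      exact base h n hh hn c' H R hH hR (by simpa using hHK) f hf hfs
    | succ m ih =>
      intro h n hh hn c' H R hH hR hHK f hf hfs
      by_cases hHK2 : H ≤ (K:ℝ) ^ 2
      · exact base h n hh hn c' H R hH hR hHK2 f hf hfs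
      push Not at hHK2
      have hhm : Measurable h := hh.smooth.continuous.measurable
      have hH0 : 0 < H := by linarith
      have hR0 : 0 < R := by linarith
      set s : ℝ := 1 / K with hs
      have hs0 : 0 < s := by rw [hs]; positivity
      have hs1 : s ≤ 1/2 := by
        rw [hs]
        have : (2:ℝ) ≤ K := by exact_mod_cast hK2
        exact one_div_le_one_div_of_le (by norm_num) this
      set X := R ^ ε * (H * R) ^ (1/2:ℝ) with hX
      have hX0 : 0 ≤ X := by rw [hX]; positivity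
      have hbn := slabInt_bn hhm n c' H R hK1 hf hfs
        (T := ENNReal.ofReal (AT * R ^ ε * (H * R) ^ (1/2:ℝ)) * ∫⁻ x, ‖f x‖ₑ ^ (3:ℝ))
        (fun i j k hi hj hk h1 h2 h3 => hTS' h n hh hn c' H R hH hR f hf i j k hi hj hk h1 h2 h3)
      -- narrow part
      have hnar : ∀ j ∈ Finset.Icc (-(K:ℤ)) K, slabInt h n c' H R 3 (piece K j f) ≤
          ENNReal.ofReal (A * (K:ℝ) ^ (-(2 * ε)) * X) * ∫⁻ x, ‖piece K j f x‖ₑ ^ (3:ℝ) := by
        intro j hj
        rw [Finset.mem_Icc] at hj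
        have hb : |(j:ℝ) / K| ≤ 1 := by
          rw [abs_div, abs_of_pos hK0, div_le_one hK0]
          have : |j| ≤ K := abs_le.2 ⟨hj.1, hj.2⟩
          exact_mod_cast this
        have hcap := FS_piece_cap hK1 j hf hfs
        rw [← hs] at hcap
        rw [slabInt_res n hs0 hcap]
        have hH' : 1 ≤ s ^ 2 * H := by
          rw [hs, div_pow, one_pow, div_mul_eq_mul_div, one_mul, one_le_div (by positivity)]
          exact hHK2.le
        have := ih (hres h (j / K) s) (nres h n (j / K) s) (hh.hres _ hs0 (by linarith))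
          (Normal.res hh _ hs0 hn hb hs1) (s ^ 2 * c') (s ^ 2 * H) (s ^ 2 * R) hH' (by gcongr) (by
            have e : s ^ 2 * H ≤ s ^ 2 * ((K:ℝ) ^ 2) ^ (m + 1 + 1) := by gcongr
            refine e.trans (le_of_eq ?_)
            rw [hs, pow_succ ((K:ℝ) ^ 2) (m + 1)]
            field_simp)
          (rsc (j / K) s (piece K j f)) (adm_rsc hs0 (adm_piece hK1 j hf)) (FS_rsc hs0 hcap)
        calc _ ≤ ENNReal.ofReal ((s ^ 3)⁻¹) * (ENNReal.ofReal (A * (s ^ 2 * R) ^ ε *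
            ((s ^ 2 * H) * (s ^ 2 * R)) ^ (1/2:ℝ)) * ∫⁻ x, ‖rsc (j / K) s (piece K j f) x‖ₑ ^ (3:ℝ)) := by
              gcongr
          _ = ENNReal.ofReal ((s ^ 3)⁻¹ * (A * (s ^ 2 * R) ^ ε *
            ((s ^ 2 * H) * (s ^ 2 * R)) ^ (1/2:ℝ)) * s) * ∫⁻ x, ‖piece K j f x‖ₑ ^ (3:ℝ) := by
              rw [lintegral_rsc hs0, ← mul_assoc, ← mul_assoc, ← ENNReal.ofReal_mul (by positivity),
                ← ENNReal.ofReal_mul (by positivity)]
          _ = _ := by
              congr 2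
              have e1 : (s ^ 2 * R) ^ ε = (K:ℝ) ^ (-(2 * ε)) * R ^ ε := by
                rw [Real.mul_rpow (by positivity) hR0.le]
                congr 1
                rw [hs, one_div, inv_pow, ← Real.rpow_natCast, ← Real.rpow_neg hK0.le,
                  ← Real.rpow_mul hK0.le]
                congr 1
                push_cast; ring
              have e2 : ((s ^ 2 * H) * (s ^ 2 * R)) ^ (1/2:ℝ) = s ^ 2 * (H * R) ^ (1/2:ℝ) := by
                have : (s ^ 2 * H) * (s ^ 2 * R) = (s ^ 2) ^ 2 * (H * R) := by ring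
                rw [this, Real.mul_rpow (by positivity) (by positivity)]
                congr 1
                rw [← Real.rpow_natCast, ← Real.rpow_mul (by positivity)]
                norm_num
              rw [e1, e2, hX]
              field_simp
      have hM3 := piece_L3 hK1 hf
      have hM3' : ∑ j ∈ Finset.Icc (-(K:ℤ)) K, ∫⁻ x, ‖piece K j f x‖ₑ ^ (3:ℝ) ≤
          ENNReal.ofReal D * ∫⁻ x, ‖f x‖ₑ ^ (3:ℝ) := by
        have e3 : ∀ x : ℝ≥0∞, x ^ (3:ℝ) = x ^ 3 := fun x => by norm_num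
        simp only [e3]
        exact hM3
      refine hbn.trans ?_
      set F3 := ∫⁻ x, ‖f x‖ₑ ^ (3:ℝ) with hF3
      have p1 : 8000 * ∑ j ∈ Finset.Icc (-(K:ℤ)) K, slabInt h n c' H R 3 (piece K j f) ≤
          ENNReal.ofReal (A / 2 * X) * F3 := by
        calc _ ≤ 8000 * ∑ j ∈ Finset.Icc (-(K:ℤ)) K, ENNReal.ofReal (A * (K:ℝ) ^ (-(2 * ε)) * X) *
              ∫⁻ x, ‖piece K j f x‖ₑ ^ (3:ℝ) := by
              gcongr with j hj
              exact hnar j hj
          _ = 8000 * (ENNReal.ofReal (A * (K:ℝ) ^ (-(2 * ε)) * X) *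
              ∑ j ∈ Finset.Icc (-(K:ℤ)) K, ∫⁻ x, ‖piece K j f x‖ₑ ^ (3:ℝ)) := by rw [← Finset.mul_sum]
          _ ≤ 8000 * (ENNReal.ofReal (A * (K:ℝ) ^ (-(2 * ε)) * X) * (ENNReal.ofReal D * F3)) := by gcongr
          _ = ENNReal.ofReal (8000 * (A * (K:ℝ) ^ (-(2 * ε)) * X) * D) * F3 := by
              rw [ENNReal.ofReal_mul (q := D) (by positivity), ENNReal.ofReal_mul (p := 8000) (by norm_num),
                show ENNReal.ofReal 8000 = (8000 : ℝ≥0∞) by norm_num]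
              ring
          _ ≤ _ := by
              refine mul_le_mul' (ENNReal.ofReal_le_ofReal ?_) le_rfl
              calc 8000 * (A * (K:ℝ) ^ (-(2 * ε)) * X) * D = A * X * (8000 * D * (K:ℝ) ^ (-(2 * ε))) := by ring
                _ ≤ A * X * (1/2) := by gcongr
                _ = _ := by ring
      have p2 : 8 * ((2 * K + 1 : ℕ) : ℝ≥0∞) ^ 3 * (((2 * K + 1 : ℕ) : ℝ≥0∞) ^ 3 *
          (ENNReal.ofReal (AT * R ^ ε * (H * R) ^ (1/2:ℝ)) * F3)) ≤ ENNReal.ofReal (A / 2 * X) * F3 := by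
        calc _ = ENNReal.ofReal (M * X) * F3 := by
              have e1 : ENNReal.ofReal (AT * R ^ ε * (H * R) ^ (1/2:ℝ)) = ENNReal.ofReal AT * ENNReal.ofReal X := by
                rw [← ENNReal.ofReal_mul hAT, hX]; congr 1; ring
              have e2 : ENNReal.ofReal (M * X) = ENNReal.ofReal M * ENNReal.ofReal X :=
                ENNReal.ofReal_mul hM0
              have e3 : ENNReal.ofReal M = 8 * ((2 * K + 1 : ℕ) : ℝ≥0∞) ^ 3 *
                  (((2 * K + 1 : ℕ) : ℝ≥0∞) ^ 3 * ENNReal.ofReal AT) := by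
                rw [hM, ENNReal.ofReal_mul (by positivity), ENNReal.ofReal_mul (by norm_num),
                  ENNReal.ofReal_mul (by positivity), ENNReal.ofReal_pow (by positivity),
                  ENNReal.ofReal_natCast, show ENNReal.ofReal 8 = (8 : ℝ≥0∞) by norm_num]
              rw [e1, e2, e3]
              ring
          _ ≤ _ := by
              refine mul_le_mul' (ENNReal.ofReal_le_ofReal ?_) le_rfl
              have : 2 * M ≤ A := le_max_right _ _
              gcongr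
              linarith
      calc _ ≤ ENNReal.ofReal (A / 2 * X) * F3 + ENNReal.ofReal (A / 2 * X) * F3 := add_le_add p1 p2
        _ = _ := by
          rw [← add_mul, ← ENNReal.ofReal_add (by positivity) (by positivity)]
          congr 2
          rw [hX]; ring
  intro h n hh hn c' H R hH hR f hf hfs
  obtain ⟨m, hm⟩ := pow_unbounded_of_one_lt H (show (1:ℝ) < (K:ℝ) ^ 2 by nlinarith)
  refine main m h n hh hn c' H R hH hR (hm.le.trans ?_) f hf hfs
  exact pow_le_pow_right₀ (by nlinarith) (by omega)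

end Vale.Agent.P106
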