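import Vale.Agent.P106.B.Arc
import Vale.Agent.P106.Tri.Main

/-! # Smooth frequency projections for the trilinear slab estimate -/

open MeasureTheory Complex Set
open scoped ENNReal NNReal ContDiff FourierTransform SchwartzMap

set_option linter.all false

namespace Vale.Agent.P106

open Vale.Agent.P117 (E2 E3 Adm cv integrable_cv cv_inv_eq)

/-- admissible multipliers -/
structure Mul (B : ℝ) (m : E2 → ℂ) : Prop where
  smooth : ContDiff ℝ ∞ m
  cs : HasCompactSupport m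
  le_one : ∀ ξ, ‖m ξ‖ ≤ 1
  supp : ∀ ξ, m ξ ≠ 0 → ξ ∈ Gbig
  ker : ∫⁻ x, ‖𝓕⁻ m x‖ₑ ≤ ENNReal.ofReal B

/-- smooth projection -/
noncomputable def Pm (m f : E2 → ℂ) : E2 → ℂ := cv (𝓕⁻ m) f

section
variable {B : ℝ} {m : E2 → ℂ} (hm : Mul B m) {f : E2 → ℂ} (hf : Adm volume f)

include hm in
theorem Mul.ker_schwartz : ∃ k : 𝓢(E2, ℂ), (k : E2 → ℂ) = 𝓕⁻ m ∧ 𝓕 (k : E2 → ℂ) = m := by
  refine ⟨𝓕⁻ (hm.cs.toSchwartzMap hm.smooth), ?_, ?_⟩
  · rw [SchwartzMap.fourierInv_coe]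
    rfl
  · have : 𝓕 (𝓕⁻ (hm.cs.toSchwartzMap hm.smooth) : 𝓢(E2, ℂ)) = hm.cs.toSchwartzMap hm.smooth := by simp
    rw [← SchwartzMap.fourier_coe, this]
    rfl

include hm hf in
theorem adm_Pm : Adm volume (Pm m f) := by
  obtain ⟨k, hk, hk2⟩ := hm.ker_schwartz
  unfold Pm
  rw [← hk]
  obtain ⟨C, hC⟩ := k.decay 0 0
  have hb : ∀ x, ‖k x‖ ≤ C := by
    intro x
    have := hC.2 x
    simpa using this
  exact ⟨(Vale.Agent.P117.continuous_cv k.continuous hb hf.int).measurable, integrable_cv k.integrable hf.int,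
    _, Vale.Agent.P117.norm_cv_le hb hf.int⟩

include hm hf in
theorem continuous_Pm : Continuous (Pm m f) := by
  obtain ⟨k, hk, hk2⟩ := hm.ker_schwartz
  unfold Pm
  rw [← hk]
  obtain ⟨C, hC⟩ := k.decay 0 0
  have hb : ∀ x, ‖k x‖ ≤ C := by
    intro x
    have := hC.2 x
    simpa using this
  exact Vale.Agent.P117.continuous_cv k.continuous hb hf.int

include hm hf in
theorem fourier_Pm (ξ : E2) : 𝓕 (Pm m f) ξ = m ξ * 𝓕 f ξ := by
  obtain ⟨k, hk, hk2⟩ := hm.ker_schwartz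
  unfold Pm
  rw [← hk, Vale.Agent.P117.fourier_cv k.integrable hf.int, hk2]

include hm hf in
theorem FS_Pm : FS (Pm m f) Gbig := by
  intro ξ hξ
  rw [fourier_Pm hm hf]
  by_contra hne
  exact hξ (hm.supp ξ (left_ne_zero_of_mul hne))

include hm hf in
theorem norm_Pm_le (hB : 0 ≤ B) {A : ℝ} (hA : ∀ x, ‖f x‖ ≤ A) (x : E2) : ‖Pm m f x‖ ≤ B * A := by
  have hA0 : 0 ≤ A := (norm_nonneg _).trans (hA 0)
  have h2 : ‖Pm m f x‖ₑ ≤ ENNReal.ofReal (B * A) := by
    refine (Vale.Agent.P117.enorm_cv_le (𝓕⁻ m) f x).trans ?_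
    calc ∫⁻ y, ‖𝓕⁻ m (x - y)‖ₑ * ‖f y‖ₑ ≤ ∫⁻ y, ‖𝓕⁻ m (x - y)‖ₑ * ENNReal.ofReal A := by
          gcongr with y
          rw [← ofReal_norm]; exact ENNReal.ofReal_le_ofReal (hA y)
      _ = (∫⁻ y, ‖𝓕⁻ m (x - y)‖ₑ) * ENNReal.ofReal A := lintegral_mul_const' _ _ ENNReal.ofReal_ne_top
      _ ≤ _ := by
          rw [lintegral_sub_left_eq_self (fun y => ‖𝓕⁻ m y‖ₑ), ENNReal.ofReal_mul hB]
          exact mul_le_mul' hm.ker le_rfl
  rw [← ofReal_norm] at h2
  exact (ENNReal.ofReal_le_ofReal_iff (mul_nonneg hB hA0)).1 h2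

include hm hf in
theorem Pm_L2 : ∫⁻ x, ‖Pm m f x‖ₑ ^ 2 ≤ ∫⁻ x, ‖f x‖ₑ ^ 2 := by
  have hi := integrable_fourier_of_FS (adm_Pm hm hf).int isCompact_Gbig (FS_Pm hm hf)
  refine (plancherel_le (adm_Pm hm hf).int (continuous_Pm hm hf) hi).trans ?_
  refine (lintegral_mono fun ξ => ?_).trans (Vale.Agent.P117.lintegral_sq_fourier_le hf.int hf.meas)
  rw [fourier_Pm hm hf, enorm_mul, mul_pow]
  have : ‖m ξ‖ₑ ≤ 1 := by
    rw [← ofReal_norm, ← ENNReal.ofReal_one]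
    exact ENNReal.ofReal_le_ofReal (hm.le_one ξ)
  calc ‖m ξ‖ₑ ^ 2 * ‖𝓕 f ξ‖ₑ ^ 2 ≤ 1 ^ 2 * ‖𝓕 f ξ‖ₑ ^ 2 := by gcongr
    _ = _ := by rw [one_pow, one_mul]

include hm in
theorem Pm_add {g : E2 → ℂ} (hf : Adm volume f) (hg : Adm volume g) :
    Pm m (fun x => f x + g x) = fun x => Pm m f x + Pm m g x := by
  obtain ⟨k, hk, hk2⟩ := hm.ker_schwartz
  unfold Pm
  rw [← hk]
  obtain ⟨C, hC⟩ := k.decay 0 0
  have hb : ∀ x, ‖k x‖ ≤ C := by
    intro x
    have := hC.2 x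
    simpa using this
  have hi : ∀ {f : E2 → ℂ}, Adm volume f → ∀ x, Integrable (fun y => k (x - y) * f y) := by
    intro f hf x
    apply hf.int.bdd_mul (c := C)
    · exact (k.continuous.comp (by fun_prop)).aestronglyMeasurable
    · filter_upwards with y
      exact hb _
  ext x
  unfold cv
  rw [← integral_add (hi hf x) (hi hg x)]
  congr 1
  ext y
  ring

end

/-- additivity of the evolution -/
theorem ev_add {h : ℝ → ℝ} (hh : Measurable h) (t : ℝ) {f g : E2 → ℂ} (hf : Adm volume f) (hg : Adm volume g)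
    (hfs : FS f Gbig) (hgs : FS g Gbig) (x : E2) :
    ev h t (fun x => f x + g x) x = ev h t f x + ev h t g x := by
  unfold ev
  have hF : ∀ ξ, 𝓕 (fun x => f x + g x) ξ = 𝓕 f ξ + 𝓕 g ξ := by
    intro ξ
    rw [four_eq, four_eq, four_eq, ← integral_add]
    · congr 1
      ext x
      ring
    · refine hf.int.norm.mono' ?_ ?_
      · have : Continuous (fun x : E2 => cexp (((-2 * Real.pi * (x 0 * ξ 0 + x 1 * ξ 1) : ℝ) : ℂ) * I)) := by fun_prop
        exact this.aestronglyMeasurable.mul hf.int.aestronglyMeasurable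
      · filter_upwards with x
        rw [norm_mul, Complex.norm_exp_ofReal_mul_I, one_mul]
    · refine hg.int.norm.mono' ?_ ?_
      · have : Continuous (fun x : E2 => cexp (((-2 * Real.pi * (x 0 * ξ 0 + x 1 * ξ 1) : ℝ) : ℂ) * I)) := by fun_prop
        exact this.aestronglyMeasurable.mul hg.int.aestronglyMeasurable
      · filter_upwards with x
        rw [norm_mul, Complex.norm_exp_ofReal_mul_I, one_mul]
  have hq := measurable_qh hh
  have hI : ∀ {f : E2 → ℂ}, Adm volume f → FS f Gbig → Integrable (fun ξ : E2 =>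
      cexp (((2 * Real.pi * (x 0 * ξ 0 + x 1 * ξ 1) : ℝ) : ℂ) * I) *
      (cexp (2 * Real.pi * I * (t * qh h ξ : ℝ)) * 𝓕 f ξ)) := by
    intro f hf hfs
    have hi := integrable_fourier_of_FS hf.int isCompact_Gbig hfs
    refine hi.norm.mono' ?_ ?_
    · have h2 : AEStronglyMeasurable (𝓕 f) volume := hi.aestronglyMeasurable
      have h3 : Measurable (fun ξ : E2 => cexp (((2 * Real.pi * (x 0 * ξ 0 + x 1 * ξ 1) : ℝ) : ℂ) * I)) := by
        fun_prop
      have h4 : Measurable (fun ξ : E2 => cexp (2 * Real.pi * I * (t * qh h ξ : ℝ))) := by fun_prop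
      exact h3.aestronglyMeasurable.mul (h4.aestronglyMeasurable.mul h2)
    · filter_upwards with ξ
      have e : (2 * Real.pi * I * (t * qh h ξ : ℝ) : ℂ) = ((2 * Real.pi * (t * qh h ξ) : ℝ) : ℂ) * I := by
        push_cast; ring
      rw [norm_mul, norm_mul, Complex.norm_exp_ofReal_mul_I, one_mul, e,
        Complex.norm_exp_ofReal_mul_I, one_mul]
  rw [inv2_eq, inv2_eq, inv2_eq, ← integral_add (hI hf hfs) (hI hg hgs)]
  congr 1
  ext ξ
  rw [hF]
  ring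

end Vale.Agent.P106
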