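import Vale.Agent.P106.B.TSa
import Vale.Agent.P106.B.Strip
import Vale.Agent.P106.C.LI
import Vale.Agent.P106.C.Flux

/-! # Weighted local energies on the slab: `L²`, `L^∞` and `L³` bounds -/

open MeasureTheory Complex Set
open scoped ENNReal NNReal ContDiff FourierTransform SchwartzMap

set_option linter.all false

namespace Vale.Agent.P106

open Vale.Agent.P117 (E2 E3 Adm cv integrable_cv cv_inv_eq)
open Tri (lint3 lintegral_smul3)

/-- [LI] for the larger region -/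
def StLIb : Prop := ∀ c C : ℝ, 0 < c → ∃ K : ℝ, 0 ≤ K ∧ ∀ (h : ℝ → ℝ), HC c C h →
  ∀ (H R t A : ℝ), 1 ≤ H → H ≤ R → |t| ≤ 2 * R →
    ∀ (f : E2 → ℂ) (y : E2), Adm volume f → FS f Gbig → (∀ x, ‖f x‖ ≤ A) →
    ∫⁻ x, ‖ev h t f x‖ₑ ^ (2:ℝ) * wE H (x - y) ≤ ENNReal.ofReal (K * (H * R * A ^ 2))

/-- horizontal part -/
noncomputable def xy (z : E3) : E2 := mk2 (z 0) (z 1)

/-- space-time point -/
noncomputable def st3 (t : ℝ) (x : E2) : E3 := !₂[x 0, x 1, t]

theorem xy_st3 (t : ℝ) (x : E2) : xy (st3 t x) = x := by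
  ext i
  fin_cases i <;> rfl

theorem st3_two (t : ℝ) (x : E2) : (st3 t x) 2 = t := rfl
theorem st3_zero (t : ℝ) (x : E2) : (st3 t x) 0 = x 0 := rfl
theorem st3_one (t : ℝ) (x : E2) : (st3 t x) 1 = x 1 := rfl

theorem measurable_xy : Measurable xy := by
  unfold xy
  exact measurable_mk2.comp (f := fun z : E3 => ((z 0, z 1) : ℝ × ℝ)) (by fun_prop)

theorem measurable_st3 : Measurable (fun p : ℝ × E2 => st3 p.1 p.2) := by
  unfold st3
  apply (WithLp.measurable_toLp 2 (Fin 3 → ℝ)).comp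
  apply measurable_pi_lambda
  intro i
  fin_cases i
  · have : Measurable (fun p : ℝ × E2 => p.2 0) := by fun_prop
    exact this
  · have : Measurable (fun p : ℝ × E2 => p.2 1) := by fun_prop
    exact this
  · exact measurable_fst

theorem lint_E3 {F : E3 → ℝ≥0∞} (hF : Measurable F) :
    ∫⁻ z, F z = ∫⁻ t : ℝ, ∫⁻ x : E2, F (st3 t x) := by
  have m1 : Measurable (fun z : (ℝ × ℝ) × ℝ => F (st3 z.2 (mk2 z.1.1 z.1.2))) := by
    apply hF.comp
    exact measurable_st3.comp (f := fun z : (ℝ × ℝ) × ℝ => ((z.2, mk2 z.1.1 z.1.2) : ℝ × E2))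
      (measurable_snd.prodMk (measurable_mk2.comp measurable_fst))
  have h1 : ∫⁻ z, F z = ∫⁻ z : (ℝ × ℝ) × ℝ, F (st3 z.2 (mk2 z.1.1 z.1.2)) := by
    rw [← Vale.Agent.P117.lintegral_E3 (fun z => F (st3 z.2 (mk2 z.1.1 z.1.2)))]
    refine lintegral_congr fun x => ?_
    congr 1
    ext i
    fin_cases i <;> rfl
  rw [h1, Measure.volume_eq_prod, lintegral_prod_symm _ m1.aemeasurable]
  refine lintegral_congr fun t => ?_
  rw [← Vale.Agent.P117.lintegral_E2 (fun z => F (st3 t (mk2 z.1 z.2)))]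
  refine lintegral_congr fun x => ?_
  congr 1

/-- weight -/
noncomputable def wt (H : ℝ) (u : E3) : ℝ≥0∞ := ENNReal.ofReal (((1 + ‖u‖ / H) ^ 8)⁻¹)

theorem measurable_wt (H : ℝ) : Measurable (wt H) := by unfold wt; fun_prop

theorem lintegral_wt : ∃ c : ℝ, 0 ≤ c ∧ ∀ H : ℝ, 0 < H → ∫⁻ u, wt H u ≤ ENNReal.ofReal (c * H ^ 3) := by
  have hint : Integrable (fun x : E3 => (1 + ‖x‖) ^ (-(8:ℝ))) := by
    apply integrable_one_add_norm
    rw [finrank_euclideanSpace_fin]; norm_num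
  refine ⟨∫ x : E3, (1 + ‖x‖) ^ (-(8:ℝ)), integral_nonneg fun x => by positivity, ?_⟩
  intro H hH
  have h1 : ∫⁻ x : E3, wt 1 x = ENNReal.ofReal (∫ x : E3, (1 + ‖x‖) ^ (-(8:ℝ))) := by
    rw [ofReal_integral_eq_lintegral_ofReal hint (Filter.Eventually.of_forall fun x => by positivity)]
    refine lintegral_congr fun x => ?_
    unfold wt
    congr 1
    rw [div_one, Real.rpow_neg (by positivity)]
    congr 1
    exact_mod_cast (Real.rpow_natCast (1 + ‖x‖) 8).symm
  have h2 := lintegral_smul3 (R := H⁻¹) (by positivity) (measurable_wt 1)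
  have e : ∀ u : E3, wt H u = wt 1 (H⁻¹ • u) := by
    intro u
    unfold wt
    rw [norm_smul, norm_inv, Real.norm_of_nonneg hH.le, div_one, inv_mul_eq_div]
  simp_rw [e]
  rw [h2, h1, ← ENNReal.ofReal_mul (by positivity)]
  apply ENNReal.ofReal_le_ofReal
  apply le_of_eq
  field_simp

/-- the wave in space-time -/
noncomputable def Vw (h : ℝ → ℝ) (m f : E2 → ℂ) (z : E3) : ℂ := ev h (z 2) (Pm m f) (xy z)

/-- weighted local energy -/
noncomputable def En (h : ℝ → ℝ) (m : E2 → ℂ) (H : ℝ) (f : E2 → ℂ) (y : E3) : ℝ≥0∞ :=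
  ∫⁻ z, ‖Vw h m f z‖ₑ ^ 2 * wt H (z - y)

/-- thickened slab -/
def Sl (n : Fin 3 → ℝ) (c' H R : ℝ) : Set E3 :=
  {z | |z 2| ≤ R ∧ |n 0 * z 0 + n 1 * z 1 + n 2 * z 2 - c'| ≤ H}

theorem measurableSet_Sl (n : Fin 3 → ℝ) (c' H R : ℝ) : MeasurableSet (Sl n c' H R) := by
  unfold Sl
  have c1 : Continuous (fun z : E3 => |z 2|) := by fun_prop
  have c2 : Continuous (fun z : E3 => |n 0 * z 0 + n 1 * z 1 + n 2 * z 2 - c'|) := by fun_prop
  exact ((isClosed_le c1 continuous_const).inter (isClosed_le c2 continuous_const)).measurableSet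

section
variable {B : ℝ} {m : E2 → ℂ} (hm : Mul B m) {c C : ℝ} {h : ℝ → ℝ} (hh : HC c C h)

include hm hh in
theorem measurable_Vw {f : E2 → ℂ} (hf : Adm volume f) : Measurable (Vw h m f) := by
  have h1 : Measurable (fun z : ℝ × E2 => ev h z.1 (Pm m f) z.2) :=
    measurable_ev hh.smooth.continuous.measurable (adm_Pm hm hf).int
  have h2 : Measurable (fun z : E3 => ((z 2, xy z) : ℝ × E2)) := by
    have : Measurable (fun z : E3 => z 2) := by fun_prop
    exact this.prodMk measurable_xy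
  exact Measurable.comp (g := fun z : ℝ × E2 => ev h z.1 (Pm m f) z.2)
    (f := fun z : E3 => ((z 2, xy z) : ℝ × E2)) h1 h2

include hm hh in
theorem measurable_En {f : E2 → ℂ} (hf : Adm volume f) (H : ℝ) : Measurable (En h m H f) := by
  unfold En
  have hV := measurable_Vw hm hh hf
  have : Measurable (fun p : E3 × E3 => ‖Vw h m f p.2‖ₑ ^ 2 * wt H (p.2 - p.1)) := by
    refine Measurable.mul ((hV.comp measurable_snd).enorm.pow_const 2) ?_
    exact (measurable_wt H).comp (measurable_snd.sub measurable_fst)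
  exact this.lintegral_prod_right'

include hm hh in
/-- flux through a slab in space-time form -/
theorem flux_Sl {C1 : ℝ} {n : Fin 3 → ℝ} (hn : Normal C1 h n) (c' : ℝ) {H : ℝ} (hH : 0 < H) (R : ℝ)
    {f : E2 → ℂ} (hf : Adm volume f) :
    ∫⁻ z in Sl n c' H R, ‖Vw h m f z‖ₑ ^ 2 ≤ ENNReal.ofReal (2 * C1 * H) * ∫⁻ x, ‖f x‖ₑ ^ 2 := by
  have hV := measurable_Vw hm hh hf
  have e1 : ∫⁻ z in Sl n c' H R, ‖Vw h m f z‖ₑ ^ 2 = slabInt h n c' H R 2 (Pm m f) := by
    rw [← lintegral_indicator (measurableSet_Sl n c' H R),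
      lint_E3 ((hV.enorm.pow_const 2).indicator (measurableSet_Sl n c' H R))]
    unfold slabInt
    rw [← lintegral_indicator measurableSet_Icc]
    refine lintegral_congr fun t => ?_
    by_cases ht : t ∈ Icc (-R) R
    · rw [indicator_of_mem ht, ← lintegral_indicator (measurableSet_slabAt n c' H t)]
      refine lintegral_congr fun x => ?_
      by_cases hx : x ∈ slabAt n c' H t
      · rw [indicator_of_mem hx, indicator_of_mem (show st3 t x ∈ Sl n c' H R from ⟨abs_le.2 ht, hx⟩)]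
        unfold Vw
        rw [xy_st3, st3_two]
        norm_num
      · rw [indicator_of_notMem hx, indicator_of_notMem (fun hc => hx hc.2)]
    · rw [indicator_of_notMem ht]
      symm
      rw [← lintegral_zero (μ := (volume : Measure E2))]
      refine lintegral_congr fun x => ?_
      rw [indicator_of_notMem (fun hc => ht (abs_le.1 hc.1))]
  rw [e1]
  have h1 := Vale.Agent.P106.C.flux hh hn c' hH R (adm_Pm hm hf) (FS_Pm hm hf)
  refine h1.trans ?_
  refine mul_le_mul' le_rfl ?_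
  have e2 : ∀ x : ℝ≥0∞, x ^ (2:ℝ) = x ^ 2 := fun x => by norm_num
  simp only [e2]
  exact Pm_L2 hm hf

include hm hh in
/-- `L²` bound of the weighted local energies -/
theorem En_L2 {cw : ℝ} (hcw : 0 ≤ cw) (hw : ∀ H : ℝ, 0 < H → ∫⁻ u, wt H u ≤ ENNReal.ofReal (cw * H ^ 3))
    {C1 : ℝ} {n : Fin 3 → ℝ} (hn : Normal C1 h n) (c' : ℝ) {H H' : ℝ} (hH : 0 < H) (hH' : 0 < H') (R : ℝ)
    {f : E2 → ℂ} (hf : Adm volume f) :
    ∫⁻ y in Sl n c' H' R, En h m H f y ≤ ENNReal.ofReal (cw * H ^ 3 * (2 * C1 * H')) * ∫⁻ x, ‖f x‖ₑ ^ 2 := by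
  have hV := measurable_Vw hm hh hf
  have mS := measurableSet_Sl n c' H' R
  have e1 : ∀ y, En h m H f y = ∫⁻ u, ‖Vw h m f (y + u)‖ₑ ^ 2 * wt H u := by
    intro y
    unfold En
    rw [← lintegral_add_left_eq_self (fun z => ‖Vw h m f z‖ₑ ^ 2 * wt H (z - y)) y]
    refine lintegral_congr fun u => ?_
    rw [add_sub_cancel_left]
  have hnn : 0 ≤ 2 * C1 * H' := by
    have : 1 ≤ C1 := (hn.lower 0 (by simp)).trans (hn.upper 0 (by simp))
    positivity
  calc ∫⁻ y in Sl n c' H' R, En h m H f y = ∫⁻ y in Sl n c' H' R, ∫⁻ u, ‖Vw h m f (y + u)‖ₑ ^ 2 * wt H u := by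
        simp_rw [e1]
    _ = ∫⁻ u, ∫⁻ y in Sl n c' H' R, ‖Vw h m f (y + u)‖ₑ ^ 2 * wt H u := by
        rw [lintegral_lintegral_swap]
        have : Measurable (fun p : E3 × E3 => ‖Vw h m f (p.1 + p.2)‖ₑ ^ 2 * wt H p.2) := by
          refine Measurable.mul ((hV.comp (measurable_fst.add measurable_snd)).enorm.pow_const 2) ?_
          exact (measurable_wt H).comp measurable_snd
        exact this.aemeasurable
    _ ≤ ∫⁻ u, (ENNReal.ofReal (2 * C1 * H') * ∫⁻ x, ‖f x‖ₑ ^ 2) * wt H u := by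
        refine lintegral_mono fun u => ?_
        have mu : Measurable (fun y => ‖Vw h m f (y + u)‖ₑ ^ 2) :=
          (hV.comp (measurable_id.add_const u)).enorm.pow_const 2
        rw [lintegral_mul_const _ mu]
        refine mul_le_mul' ?_ le_rfl
        have e2 : ∫⁻ y in Sl n c' H' R, ‖Vw h m f (y + u)‖ₑ ^ 2 ≤
            ∫⁻ z in Sl n (c' + (n 0 * u 0 + n 1 * u 1 + n 2 * u 2)) H' (R + |u 2|), ‖Vw h m f z‖ₑ ^ 2 := by
          rw [← lintegral_indicator mS, ← lintegral_indicator (measurableSet_Sl _ _ _ _),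
            ← lintegral_add_right_eq_self (fun z => (Sl n (c' + (n 0 * u 0 + n 1 * u 1 + n 2 * u 2)) H'
              (R + |u 2|)).indicator (fun z => ‖Vw h m f z‖ₑ ^ 2) z) u]
          refine lintegral_mono fun y => ?_
          by_cases hy : y ∈ Sl n c' H' R
          · have hyu : y + u ∈ Sl n (c' + (n 0 * u 0 + n 1 * u 1 + n 2 * u 2)) H' (R + |u 2|) := by
              refine ⟨?_, ?_⟩
              · have : (y + u) 2 = y 2 + u 2 := rfl
                rw [this]
                exact (abs_add_le _ _).trans (by linarith [hy.1])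
              · have e0 : (y + u) 0 = y 0 + u 0 := rfl
                have e1 : (y + u) 1 = y 1 + u 1 := rfl
                have e2 : (y + u) 2 = y 2 + u 2 := rfl
                rw [e0, e1, e2]
                have : n 0 * (y 0 + u 0) + n 1 * (y 1 + u 1) + n 2 * (y 2 + u 2) -
                  (c' + (n 0 * u 0 + n 1 * u 1 + n 2 * u 2)) = n 0 * y 0 + n 1 * y 1 + n 2 * y 2 - c' := by ring
                rw [this]
                exact hy.2
            rw [indicator_of_mem hy, indicator_of_mem hyu]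
          · rw [indicator_of_notMem hy]; exact zero_le
        exact e2.trans (flux_Sl hm hh hn _ hH' _ hf)
    _ = (ENNReal.ofReal (2 * C1 * H') * ∫⁻ x, ‖f x‖ₑ ^ 2) * ∫⁻ u, wt H u := by
        rw [lintegral_const_mul _ (measurable_wt H)]
    _ ≤ (ENNReal.ofReal (2 * C1 * H') * ∫⁻ x, ‖f x‖ₑ ^ 2) * ENNReal.ofReal (cw * H ^ 3) := by
        gcongr
        exact hw H hH
    _ = _ := by
        rw [mul_comm, ← mul_assoc, ← ENNReal.ofReal_mul (by positivity)]

end

theorem wt_le {H : ℝ} (hH : 0 < H) (t : ℝ) (x : E2) (y : E3) : wt H (st3 t x - y) ≤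
    ENNReal.ofReal (((1 + |t - y 2| / H) ^ 4)⁻¹) * wE H (x - xy y) := by
  unfold wt wE
  rw [← ENNReal.ofReal_mul (by positivity)]
  apply ENNReal.ofReal_le_ofReal
  rw [inv_pow, ← mul_inv]
  apply inv_anti₀ (by positivity)
  have h1 : |t - y 2| ≤ ‖st3 t x - y‖ := Tri.abs_coord_le (st3 t x - y) 2
  have h2 : ‖x - xy y‖ ≤ ‖st3 t x - y‖ := by
    have e1 : ‖x - xy y‖ ^ 2 = (x 0 - y 0) ^ 2 + (x 1 - y 1) ^ 2 := Vale.Agent.P117.E2_norm_sq (x - xy y)
    have e2 : ‖st3 t x - y‖ ^ 2 = (x 0 - y 0) ^ 2 + (x 1 - y 1) ^ 2 + (t - y 2) ^ 2 := by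
      rw [EuclideanSpace.norm_sq_eq, Fin.sum_univ_three]
      simp only [Real.norm_eq_abs, sq_abs]
      rfl
    apply le_of_sq_le_sq _ (norm_nonneg _)
    rw [e1, e2]
    nlinarith [sq_nonneg (t - y 2)]
  set r := ‖st3 t x - y‖ / H with hr
  have hr0 : 0 ≤ r := by rw [hr]; positivity
  have h3 : |t - y 2| / H ≤ r := by rw [hr]; gcongr
  have h4 : 1 + ‖x - xy y‖ ^ 2 / H ^ 2 ≤ (1 + r) ^ 2 := by
    have : ‖x - xy y‖ / H ≤ r := by rw [hr]; gcongr
    have h5 : (‖x - xy y‖ / H) ^ 2 ≤ r ^ 2 := by gcongr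
    rw [div_pow] at h5
    nlinarith
  calc (1 + |t - y 2| / H) ^ 4 * (1 + ‖x - xy y‖ ^ 2 / H ^ 2) ^ 2 ≤ (1 + r) ^ 4 * ((1 + r) ^ 2) ^ 2 := by
        gcongr
    _ = (1 + r) ^ 8 := by ring

theorem lintegral_time {H R : ℝ} (hH : 0 < H) (hHR : H ≤ R) (s : ℝ) :
    ∫⁻ t : ℝ, ENNReal.ofReal (((1 + |t - s| / H) ^ 4)⁻¹ * (3 * R + |t - s|)) ≤
      ENNReal.ofReal (4 * Real.pi * R * H) := by
  have hR : 0 < R := by linarith
  have e1 : ∀ t : ℝ, ENNReal.ofReal (((1 + |t - s| / H) ^ 4)⁻¹ * (3 * R + |t - s|)) ≤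
      ENNReal.ofReal (4 * R * H) * ENNReal.ofReal (H⁻¹ * (1 + ((t - s) / H) ^ 2)⁻¹) := by
    intro t
    rw [← ENNReal.ofReal_mul (by positivity)]
    apply ENNReal.ofReal_le_ofReal
    set v := |t - s| / H with hv
    have hv0 : 0 ≤ v := by rw [hv]; positivity
    have h1 : |t - s| = v * H := by rw [hv]; field_simp
    have h2 : ((t - s) / H) ^ 2 = v ^ 2 := by rw [hv, div_pow, div_pow, sq_abs]
    rw [h1, h2]
    have h3 : 3 * R + v * H ≤ 4 * R * (1 + v) := by nlinarith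
    have h4 : (1 + v ^ 2) * (1 + v) ≤ (1 + v) ^ 4 := by nlinarith [pow_nonneg hv0 2, pow_nonneg hv0 3, pow_nonneg hv0 4]
    calc ((1 + v) ^ 4)⁻¹ * (3 * R + v * H) ≤ ((1 + v ^ 2) * (1 + v))⁻¹ * (4 * R * (1 + v)) := by
          gcongr
      _ = _ := by field_simp
  calc _ ≤ ∫⁻ t : ℝ, ENNReal.ofReal (4 * R * H) * ENNReal.ofReal (H⁻¹ * (1 + ((t - s) / H) ^ 2)⁻¹) :=
        lintegral_mono e1
    _ = ENNReal.ofReal (4 * R * H) * ENNReal.ofReal Real.pi := by
        rw [lintegral_const_mul' _ _ ENNReal.ofReal_ne_top,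
          lintegral_sub_right_eq_self (fun t => ENNReal.ofReal (H⁻¹ * (1 + (t / H) ^ 2)⁻¹)) s,
          Vale.Agent.P117.lintegral_w hH]
    _ = _ := by
        rw [← ENNReal.ofReal_mul (by positivity)]
        congr 1; ring

section
variable {B : ℝ} {m : E2 → ℂ} (hm : Mul B m) {c C : ℝ} {h : ℝ → ℝ} (hh : HC c C h)

include hm hh in
/-- sup bound of the weighted local energies -/
theorem En_sup (hB : 0 ≤ B) {K : ℝ} (hK : 0 ≤ K)
    (hLI : ∀ (H R t A : ℝ), 1 ≤ H → H ≤ R → |t| ≤ 2 * R → ∀ (f : E2 → ℂ) (y : E2), Adm volume f →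
      FS f Gbig → (∀ x, ‖f x‖ ≤ A) →
      ∫⁻ x, ‖ev h t f x‖ₑ ^ 2 * wE H (x - y) ≤ ENNReal.ofReal (K * (H * R * A ^ 2)))
    {H R : ℝ} (hH : 1 ≤ H) (hHR : H ≤ R) {f : E2 → ℂ} (hf : Adm volume f) {A : ℝ} (hA : ∀ x, ‖f x‖ ≤ A)
    (y : E3) (hy : |y 2| ≤ 2 * R) :
    En h m H f y ≤ ENNReal.ofReal (4 * Real.pi * K * B ^ 2 * (H ^ 2 * R * A ^ 2)) := by
  have hV := measurable_Vw hm hh hf
  have hR : 0 < R := by linarith
  have hA0 : 0 ≤ A := (norm_nonneg _).trans (hA 0)
  have hmeas : Measurable (fun z => ‖Vw h m f z‖ₑ ^ 2 * wt H (z - y)) :=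
    (hV.enorm.pow_const 2).mul ((measurable_wt H).comp (measurable_id.sub_const y))
  unfold En
  rw [lint_E3 hmeas]
  calc ∫⁻ t : ℝ, ∫⁻ x : E2, ‖Vw h m f (st3 t x)‖ₑ ^ 2 * wt H (st3 t x - y) ≤
      ∫⁻ t : ℝ, ENNReal.ofReal (K * H * (B * A) ^ 2) * ENNReal.ofReal (((1 + |t - y 2| / H) ^ 4)⁻¹ * (3 * R + |t - y 2|)) := by
        refine lintegral_mono fun t => ?_
        have hR' : H ≤ 3 * R + |t - y 2| := by have := abs_nonneg (t - y 2); linarith
        have ht : |t| ≤ 2 * (3 * R + |t - y 2|) := by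
          have h1 : |t| ≤ |t - y 2| + |y 2| := by
            have := abs_add_le (t - y 2) (y 2)
            simpa using this
          have := abs_nonneg (t - y 2)
          linarith
        have h1 := hLI H (3 * R + |t - y 2|) t (B * A) hH hR' ht (Pm m f) (xy y) (adm_Pm hm hf)
          (FS_Pm hm hf) (norm_Pm_le hm hf hB hA)
        calc ∫⁻ x : E2, ‖Vw h m f (st3 t x)‖ₑ ^ 2 * wt H (st3 t x - y) ≤
            ∫⁻ x : E2, ENNReal.ofReal (((1 + |t - y 2| / H) ^ 4)⁻¹) * (‖ev h t (Pm m f) x‖ₑ ^ 2 * wE H (x - xy y)) := by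
              refine lintegral_mono fun x => ?_
              have h2 := wt_le (by linarith : 0 < H) t x y
              have e : Vw h m f (st3 t x) = ev h t (Pm m f) x := by
                unfold Vw
                rw [xy_st3, st3_two]
              rw [e]
              calc _ ≤ ‖ev h t (Pm m f) x‖ₑ ^ 2 * (ENNReal.ofReal (((1 + |t - y 2| / H) ^ 4)⁻¹) * wE H (x - xy y)) := by
                    gcongr
                _ = _ := by ring
          _ = ENNReal.ofReal (((1 + |t - y 2| / H) ^ 4)⁻¹) * ∫⁻ x : E2, ‖ev h t (Pm m f) x‖ₑ ^ 2 * wE H (x - xy y) :=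
              lintegral_const_mul' _ _ ENNReal.ofReal_ne_top
          _ ≤ ENNReal.ofReal (((1 + |t - y 2| / H) ^ 4)⁻¹) * ENNReal.ofReal (K * (H * (3 * R + |t - y 2|) * (B * A) ^ 2)) := by
              gcongr
          _ = _ := by
              rw [← ENNReal.ofReal_mul (by positivity), ← ENNReal.ofReal_mul (by positivity)]
              congr 1; ring
    _ = ENNReal.ofReal (K * H * (B * A) ^ 2) * ∫⁻ t : ℝ, ENNReal.ofReal (((1 + |t - y 2| / H) ^ 4)⁻¹ * (3 * R + |t - y 2|)) :=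
        lintegral_const_mul' _ _ ENNReal.ofReal_ne_top
    _ ≤ ENNReal.ofReal (K * H * (B * A) ^ 2) * ENNReal.ofReal (4 * Real.pi * R * H) := by
        gcongr
        exact lintegral_time (by linarith) hHR _
    _ = _ := by
        rw [← ENNReal.ofReal_mul (by positivity)]
        congr 1; ring

include hm hh in
/-- `L³` bound of the weighted local energies -/
theorem En_L3 (hB : 0 ≤ B) {K : ℝ} (hK : 0 ≤ K)
    (hLI : ∀ (H R t A : ℝ), 1 ≤ H → H ≤ R → |t| ≤ 2 * R → ∀ (f : E2 → ℂ) (y : E2), Adm volume f →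
      FS f Gbig → (∀ x, ‖f x‖ ≤ A) →
      ∫⁻ x, ‖ev h t f x‖ₑ ^ 2 * wE H (x - y) ≤ ENNReal.ofReal (K * (H * R * A ^ 2)))
    {cw : ℝ} (hcw : 0 ≤ cw) (hw : ∀ H : ℝ, 0 < H → ∫⁻ u, wt H u ≤ ENNReal.ofReal (cw * H ^ 3))
    {C1 : ℝ} {n : Fin 3 → ℝ} (hn : Normal C1 h n) (c' : ℝ) {H R : ℝ} (hH : 1 ≤ H) (hHR : H ≤ R)
    {D : ℝ} (hD : 0 < D) {f : E2 → ℂ} (hf : Adm volume f) :
    ∫⁻ y in Sl n c' (D * H) (2 * R), En h m H f y ^ (3/2 : ℝ) ≤
      ENNReal.ofReal (24 * (cw * H ^ 3 * (2 * C1 * (D * H))) * ((4 * Real.pi * K * B ^ 2 * (H ^ 2 * R)) ^ (1/2 : ℝ))) *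
        ∫⁻ x, ‖f x‖ₑ ^ 3 := by
  have hH0 : 0 < H := by linarith
  have hR0 : 0 < R := by linarith
  have hC1 : 1 ≤ C1 := (hn.lower 0 (by simp)).trans (hn.upper 0 (by simp))
  have hpi := Real.pi_pos
  have mS := measurableSet_Sl n c' (D * H) (2 * R)
  set S := Sl n c' (D * H) (2 * R) with hS
  have hhm := hh.smooth.continuous.measurable
  have half : ∀ x : ℝ≥0∞, (x ^ (1/2 : ℝ)) ^ 2 = x := Tri.sq_half
  have hT := Tri.sublinear_interp (volume : Measure E2) ((volume : Measure E3).restrict S)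
    (fun f y => S.indicator (fun y => En h m H f y ^ (1/2 : ℝ)) y)
    (A := cw * H ^ 3 * (2 * C1 * (D * H))) (B := (4 * Real.pi * K * B ^ 2 * (H ^ 2 * R)) ^ (1/2 : ℝ))
    (by positivity) (by positivity)
    (by
      intro f hf
      exact ((measurable_En hm hh hf H).pow_const _).indicator mS)
    (by
      intro f g hf hg y
      by_cases hy : y ∈ S
      · rw [indicator_of_mem hy, indicator_of_mem hy, indicator_of_mem hy]
        have hVf := measurable_Vw hm hh hf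
        have hVg := measurable_Vw hm hh hg
        have mw : Measurable (fun z => wt H (z - y) ^ (1/2 : ℝ)) :=
          ((measurable_wt H).comp (measurable_id.sub_const y)).pow_const _
        have mk := ENNReal.lintegral_Lp_add_le (μ := (volume : Measure E3)) (p := 2)
          (f := fun z => ‖Vw h m f z‖ₑ * wt H (z - y) ^ (1/2 : ℝ))
          (g := fun z => ‖Vw h m g z‖ₑ * wt H (z - y) ^ (1/2 : ℝ))
          (hVf.enorm.mul mw).aemeasurable (hVg.enorm.mul mw).aemeasurable (by norm_num)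
        have e : ∀ (a b : ℝ≥0∞), (a * b ^ (1/2 : ℝ)) ^ (2:ℝ) = a ^ 2 * b := by
          intro a b
          rw [ENNReal.mul_rpow_of_nonneg _ _ (by norm_num), ← ENNReal.rpow_mul]
          norm_num
        simp only [Pi.add_apply, e, ← add_mul] at mk
        refine le_trans ?_ mk
        unfold En
        apply ENNReal.rpow_le_rpow _ (by norm_num)
        refine lintegral_mono fun z => ?_
        refine mul_le_mul' ?_ le_rfl
        have e2 : Vw h m (fun x => f x + g x) z = Vw h m f z + Vw h m g z := by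
          unfold Vw
          rw [Pm_add hm hf hg]
          exact ev_add hhm _ (adm_Pm hm hf) (adm_Pm hm hg) (FS_Pm hm hf) (FS_Pm hm hg) _
        rw [e2]
        gcongr
        exact enorm_add_le _ _
      · rw [indicator_of_notMem hy]; exact zero_le)
    (by
      intro f hf
      have e : ∀ y ∈ S, (S.indicator (fun y => En h m H f y ^ (1/2 : ℝ)) y) ^ 2 = En h m H f y := by
        intro y hy
        rw [indicator_of_mem hy, half]
      rw [setLIntegral_congr_fun mS e]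
      exact En_L2 hm hh hcw hw hn c' hH0 (by positivity) _ hf)
    (by
      intro f hf M hM y
      have hM0 : 0 ≤ M := (norm_nonneg _).trans (hM 0)
      by_cases hy : y ∈ S
      · rw [indicator_of_mem hy]
        have h1 := En_sup hm hh hB hK hLI hH hHR hf hM y hy.1
        calc En h m H f y ^ (1/2 : ℝ) ≤ (ENNReal.ofReal (4 * Real.pi * K * B ^ 2 * (H ^ 2 * R * M ^ 2))) ^ (1/2 : ℝ) := by
              gcongr
          _ = _ := by
              rw [ENNReal.ofReal_rpow_of_nonneg (by positivity) (by norm_num)]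
              congr 1
              have : 4 * Real.pi * K * B ^ 2 * (H ^ 2 * R * M ^ 2) = (4 * Real.pi * K * B ^ 2 * (H ^ 2 * R)) * M ^ 2 := by ring
              rw [this, Real.mul_rpow (by positivity) (by positivity)]
              congr 1
              rw [← Real.rpow_natCast, ← Real.rpow_mul hM0]
              norm_num
      · rw [indicator_of_notMem hy]; exact zero_le)
    hf
  have e : ∀ y ∈ S, (S.indicator (fun y => En h m H f y ^ (1/2 : ℝ)) y) ^ 3 = En h m H f y ^ (3/2 : ℝ) := by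
    intro y hy
    rw [indicator_of_mem hy, ← ENNReal.rpow_natCast, ← ENNReal.rpow_mul]
    norm_num
  rw [setLIntegral_congr_fun mS e] at hT
  exact hT

end

end Vale.Agent.P106
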