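import Vale.Agent.P106.B.TSb

/-! # The trilinear slab estimate: core -/

open MeasureTheory Complex Set
open scoped ENNReal NNReal ContDiff FourierTransform SchwartzMap

set_option linter.all false

namespace Vale.Agent.P106

open Vale.Agent.P117 (E2 E3 Adm cv integrable_cv cv_inv_eq)
open Tri (Vf LinAt nv dt ec)

theorem slab_E3 (n : Fin 3 → ℝ) (c' H R : ℝ) {G : E3 → ℝ≥0∞} (hG : Measurable G) :
    ∫⁻ z in Sl n c' H R, G z = ∫⁻ t in Icc (-R) R, ∫⁻ x in slabAt n c' H t, G (st3 t x) := by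
  rw [← lintegral_indicator (measurableSet_Sl n c' H R),
    lint_E3 (hG.indicator (measurableSet_Sl n c' H R)), ← lintegral_indicator measurableSet_Icc]
  refine lintegral_congr fun t => ?_
  by_cases ht : t ∈ Icc (-R) R
  · rw [indicator_of_mem ht, ← lintegral_indicator (measurableSet_slabAt n c' H t)]
    refine lintegral_congr fun x => ?_
    by_cases hx : x ∈ slabAt n c' H t
    · rw [indicator_of_mem hx, indicator_of_mem (show st3 t x ∈ Sl n c' H R from ⟨abs_le.2 ht, hx⟩)]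
    · rw [indicator_of_notMem hx, indicator_of_notMem (fun hc => hx hc.2)]
  · rw [indicator_of_notMem ht, ← lintegral_zero (μ := (volume : Measure E2))]
    refine lintegral_congr fun x => ?_
    rw [indicator_of_notMem (fun hc => ht (abs_le.1 hc.1))]

/-- averaging over balls -/
theorem slab_average {C1 : ℝ} {n : Fin 3 → ℝ} (hn : ∀ i, |n i| ≤ C1) (c' : ℝ) {H R : ℝ} (hH : 0 < H)
    (hHR : H ≤ R) {G : E3 → ℝ≥0∞} (hG : Measurable G) :
    (ENNReal.ofReal (H ^ 3) * volume (Metric.closedBall (0 : E3) 1)) * ∫⁻ z in Sl n c' H R, G z ≤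
      ∫⁻ y in Sl n c' ((1 + 3 * C1) * H) (2 * R), ∫⁻ z in Metric.closedBall y H, G z := by
  have mS := measurableSet_Sl n c' H R
  set S := Sl n c' H R with hS
  set S' := Sl n c' ((1 + 3 * C1) * H) (2 * R) with hS'
  have mS' : MeasurableSet S' := measurableSet_Sl _ _ _ _
  have hvol : ∀ z : E3, volume (Metric.closedBall z H) = ENNReal.ofReal (H ^ 3) * volume (Metric.closedBall (0 : E3) 1) := by
    intro z
    rw [Measure.addHaar_closedBall' volume z hH.le, finrank_euclideanSpace_fin]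
  have mB : MeasurableSet {p : E3 × E3 | p.1 ∈ Metric.closedBall p.2 H} := by
    have : {p : E3 × E3 | p.1 ∈ Metric.closedBall p.2 H} = {p : E3 × E3 | dist p.1 p.2 ≤ H} := by
      ext p; simp
    rw [this]
    exact (isClosed_le (by fun_prop) continuous_const).measurableSet
  calc _ = ∫⁻ z in S, (ENNReal.ofReal (H ^ 3) * volume (Metric.closedBall (0 : E3) 1)) * G z := by
        rw [lintegral_const_mul _ hG]
    _ = ∫⁻ z in S, ∫⁻ y, {p : E3 × E3 | p.1 ∈ Metric.closedBall p.2 H}.indicator (fun p => G p.1) (z, y) := by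
        refine lintegral_congr fun z => ?_
        have e : ∀ y, {p : E3 × E3 | p.1 ∈ Metric.closedBall p.2 H}.indicator (fun p => G p.1) (z, y) =
            (Metric.closedBall z H).indicator (fun _ => G z) y := by
          intro y
          simp only [indicator, mem_setOf_eq, Metric.mem_closedBall]
          rw [dist_comm]
        simp_rw [e]
        rw [lintegral_indicator measurableSet_closedBall, setLIntegral_const, hvol, mul_comm]
    _ = ∫⁻ y, ∫⁻ z in S, {p : E3 × E3 | p.1 ∈ Metric.closedBall p.2 H}.indicator (fun p => G p.1) (z, y) := by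
        rw [lintegral_lintegral_swap]
        exact ((hG.comp measurable_fst).indicator mB).aemeasurable
    _ ≤ ∫⁻ y, S'.indicator (fun y => ∫⁻ z in Metric.closedBall y H, G z) y := by
        refine lintegral_mono fun y => ?_
        by_cases hy : y ∈ S'
        · rw [indicator_of_mem hy]
          have e : ∀ z, {p : E3 × E3 | p.1 ∈ Metric.closedBall p.2 H}.indicator (fun p => G p.1) (z, y) =
              (Metric.closedBall y H).indicator G z := by
            intro z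
            rfl
          simp_rw [e]
          rw [← lintegral_indicator measurableSet_closedBall]
          exact setLIntegral_le_lintegral _ _
        · rw [indicator_of_notMem hy]
          refine le_of_eq ?_
          rw [← lintegral_indicator mS, ← lintegral_zero (μ := (volume : Measure E3))]
          refine lintegral_congr fun z => ?_
          by_cases hz : z ∈ S
          · rw [indicator_of_mem hz]
            by_cases hb : z ∈ Metric.closedBall y H
            · exfalso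
              apply hy
              rw [Metric.mem_closedBall, dist_eq_norm] at hb
              have hc : ∀ i, |z i - y i| ≤ H := fun i => (Tri.abs_coord_le (z - y) i).trans hb
              refine ⟨?_, ?_⟩
              · have h1 : |y 2| ≤ |z 2| + |z 2 - y 2| := by
                  have := abs_sub (z 2) (z 2 - y 2)
                  rwa [sub_sub_cancel] at this
                have h2 := hz.1
                have h3 := hc 2
                linarith
              · have e : n 0 * y 0 + n 1 * y 1 + n 2 * y 2 - c' = (n 0 * z 0 + n 1 * z 1 + n 2 * z 2 - c') -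
                    (n 0 * (z 0 - y 0) + n 1 * (z 1 - y 1) + n 2 * (z 2 - y 2)) := by ring
                rw [e]
                have hC1 : 0 ≤ C1 := (abs_nonneg _).trans (hn 0)
                have ht : ∀ i, |n i * (z i - y i)| ≤ C1 * H := by
                  intro i
                  rw [abs_mul]
                  exact mul_le_mul (hn i) (hc i) (abs_nonneg _) hC1
                refine (abs_sub _ _).trans ?_
                have h1 := hz.2
                have h2 := abs_add_le (n 0 * (z 0 - y 0) + n 1 * (z 1 - y 1)) (n 2 * (z 2 - y 2))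
                have h3 := abs_add_le (n 0 * (z 0 - y 0)) (n 1 * (z 1 - y 1))
                have h4 := ht 0
                have h5 := ht 1
                have h6 := ht 2
                nlinarith
            · rw [indicator_of_notMem (show (z, y) ∉ {p : E3 × E3 | p.1 ∈ Metric.closedBall p.2 H} from hb)]
          · rw [indicator_of_notMem hz]
    _ = _ := lintegral_indicator mS' _

/-- three factor Hölder -/
theorem holder3 {α : Type*} [MeasurableSpace α] (μ : Measure α) {f g k : α → ℝ≥0∞} (hf : Measurable f)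
    (hg : Measurable g) (hk : Measurable k) {X : ℝ≥0∞} (h1 : ∫⁻ a, f a ^ (3/2 : ℝ) ∂μ ≤ X)
    (h2 : ∫⁻ a, g a ^ (3/2 : ℝ) ∂μ ≤ X) (h3 : ∫⁻ a, k a ^ (3/2 : ℝ) ∂μ ≤ X) :
    ∫⁻ a, f a ^ (1/2 : ℝ) * g a ^ (1/2 : ℝ) * k a ^ (1/2 : ℝ) ∂μ ≤ X := by
  have h := ENNReal.lintegral_prod_norm_pow_le (μ := μ)
      (Finset.univ : Finset (Fin 3)) (f := fun i P => (![f P, g P, k P] i) ^ (3/2 : ℝ))
      (p := fun _ => (1/3 : ℝ)) (by
        intro i _
        fin_cases i
        · exact (hf.pow_const _).aemeasurable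
        · exact (hg.pow_const _).aemeasurable
        · exact (hk.pow_const _).aemeasurable) (by simp) (by intro i _; norm_num)
  simp only [Fin.prod_univ_three] at h
  simp only [Matrix.cons_val_zero, Matrix.cons_val_one, Matrix.cons_val_two, Matrix.cons_val,
    ← ENNReal.rpow_mul] at h
  norm_num at h
  norm_num at h1 h2 h3 ⊢
  refine h.trans ?_
  calc _ ≤ X ^ (1/3 : ℝ) * X ^ (1/3 : ℝ) * X ^ (1/3 : ℝ) := by
        gcongr
    _ = X := by
        rw [← ENNReal.rpow_add_of_nonneg _ _ (by norm_num) (by norm_num),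
          ← ENNReal.rpow_add_of_nonneg _ _ (by norm_num) (by norm_num)]
        norm_num

/-- phase on `ℝ × ℝ` -/
noncomputable def qp (h : ℝ → ℝ) (ξ : ℝ × ℝ) : ℝ := ξ.1 * h (ξ.2 / ξ.1)

/-- amplitude on `ℝ × ℝ` -/
noncomputable def ap (m f : E2 → ℂ) (ξ : ℝ × ℝ) : ℂ := m (mk2 ξ.1 ξ.2) * 𝓕 f (mk2 ξ.1 ξ.2)

theorem Vw_eq {B : ℝ} {m : E2 → ℂ} (hm : Mul B m) (h : ℝ → ℝ) {f : E2 → ℂ} (hf : Adm volume f) (z : E3) :
    Vw h m f z = Vf (ap m f) (qp h) z := by
  unfold Vw ev Vf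
  rw [inv2_eq]
  have e : ∀ ξ : E2, cexp (((2 * Real.pi * ((xy z) 0 * ξ 0 + (xy z) 1 * ξ 1) : ℝ) : ℂ) * I) *
      (cexp (2 * Real.pi * I * (z 2 * qh h ξ : ℝ)) * 𝓕 (Pm m f) ξ) =
      (fun ξ : ℝ × ℝ => ap m f ξ * ec (z 0 * ξ.1 + z 1 * ξ.2 + z 2 * qp h ξ)) (ξ 0, ξ 1) := by
    intro ξ
    have h0 : (xy z) 0 = z 0 := rfl
    have h1 : (xy z) 1 = z 1 := rfl
    have h2 : mk2 (ξ 0) (ξ 1) = ξ := by
      ext i; fin_cases i <;> rfl
    rw [h0, h1, fourier_Pm hm hf]
    simp only [ap, qp, qh, h2]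
    rw [Tri.ec_add]
    unfold ec
    have e3 : (2 * Real.pi * I * (z 2 * (ξ 0 * h (ξ 1 / ξ 0)) : ℝ) : ℂ) =
        ((2 * Real.pi * (z 2 * (ξ 0 * h (ξ 1 / ξ 0))) : ℝ) : ℂ) * I := by push_cast; ring
    rw [e3]
    ring
  simp_rw [e]
  exact Vale.Agent.P117.integral_E2 (fun ξ : ℝ × ℝ => ap m f ξ * ec (z 0 * ξ.1 + z 1 * ξ.2 + z 2 * qp h ξ))

theorem measurable_ap {B : ℝ} {m : E2 → ℂ} (hm : Mul B m) {f : E2 → ℂ} (hf : Adm volume f) :
    Measurable (ap m f) := by
  unfold ap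
  have h1 : Measurable (fun ξ : ℝ × ℝ => m (mk2 ξ.1 ξ.2)) := hm.smooth.continuous.measurable.comp measurable_mk2
  have h2 : Measurable (fun ξ : ℝ × ℝ => 𝓕 f (mk2 ξ.1 ξ.2)) :=
    (Vale.Agent.P117.continuous_fourier hf.int).measurable.comp measurable_mk2
  exact h1.mul h2

theorem integrable_ap {B : ℝ} {m : E2 → ℂ} (hm : Mul B m) {f : E2 → ℂ} (hf : Adm volume f) :
    Integrable (ap m f) := by
  have hi := integrable_fourier_of_FS (adm_Pm hm hf).int isCompact_Gbig (FS_Pm hm hf)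
  have e : 𝓕 (Pm m f) = ap m f ∘ Vale.Agent.P117.pe := by
    ext ξ
    rw [fourier_Pm hm hf]
    simp only [ap, Function.comp_apply, Vale.Agent.P117.pe_apply]
    have h2 : mk2 (ξ 0) (ξ 1) = ξ := by
      ext i; fin_cases i <;> rfl
    rw [h2]
  rw [e] at hi
  exact (Vale.Agent.P117.mp_pe.integrable_comp_emb Vale.Agent.P117.pe.measurableEmbedding).1 hi

theorem measurable_qp {h : ℝ → ℝ} (hh : Measurable h) : Measurable (qp h) := by
  unfold qp
  exact measurable_fst.mul (hh.comp (measurable_snd.div measurable_fst))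

/-- core trilinear slab estimate -/
theorem ts_core (c C C1 ε ν L : ℝ) (hc : 0 < c) (hcC : c ≤ C) (hε : 0 < ε) (hε1 : ε ≤ 1) (hν : 0 < ν) (hL : 0 ≤ L) :
    ∃ θ : ℝ, 0 < θ ∧ θ ≤ 1/2 ∧ ∀ (δ B : ℝ), 0 < δ → 0 ≤ B → ∃ A : ℝ, 0 ≤ A ∧
      ∀ (h : ℝ → ℝ) (n : Fin 3 → ℝ), HC c C h → Normal C1 h n → ∀ (c' H R : ℝ), 1 ≤ H → H ≤ R →
      ∀ (m : Fin 3 → E2 → ℂ) (cc w : Fin 3 → ℝ × ℝ), (∀ i, Mul B (m i)) →
      ν ≤ |dt (nv (w 0)) (nv (w 1)) (nv (w 2))| → (∀ i, |(w i).1| ≤ L ∧ |(w i).2| ≤ L) →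
      (∀ i, LinAt (qp h) (cc i) (w i) δ θ) → (∀ i, ∀ ξ : ℝ × ℝ, m i (mk2 ξ.1 ξ.2) ≠ 0 → ‖ξ - cc i‖ ≤ δ / 2) →
      ∀ f : E2 → ℂ, Adm volume f →
      ∫⁻ z in Sl n c' H R, ‖Vw h (m 0) f z‖ₑ * ‖Vw h (m 1) f z‖ₑ * ‖Vw h (m 2) f z‖ₑ ≤
        ENNReal.ofReal (A * R ^ ε * (H * R) ^ (1/2:ℝ)) * ∫⁻ x, ‖f x‖ₑ ^ 3 := by
  obtain ⟨θ, hθ, hθ2, htri⟩ := Tri.trilinear ν L ε hν hL hε hε1
  obtain ⟨K, hK, hLI⟩ := _root_.Vale.Agent.P106.C.LI_Gb c C hc hcC
  obtain ⟨cw, hcw, hw⟩ := lintegral_wt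
  refine ⟨θ, hθ, hθ2, ?_⟩
  intro δ B hδ hB
  obtain ⟨CT, hCT, htri⟩ := htri 8 δ hδ
  set v1 : ℝ := (volume (Metric.closedBall (0 : E3) 1)).toReal with hv1
  have hvt : volume (Metric.closedBall (0 : E3) 1) ≠ ⊤ := (isCompact_closedBall _ _).measure_lt_top.ne
  have hv0 : 0 < v1 := ENNReal.toReal_pos (Metric.measure_closedBall_pos _ _ one_pos).ne' hvt
  have hve : ENNReal.ofReal v1 = volume (Metric.closedBall (0 : E3) 1) := ENNReal.ofReal_toReal hvt
  set D : ℝ := 1 + 3 * |C1| with hD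
  have hD0 : 0 < D := by rw [hD]; positivity
  have hpi := Real.pi_pos
  refine ⟨v1⁻¹ * CT * (24 * (cw * (2 * |C1| * D)) * (4 * Real.pi * K * B ^ 2) ^ (1/2 : ℝ)), by positivity, ?_⟩
  intro h n hh hn c' H R hH hHR m cc w hm hdet hwL hlin hsupp f hf
  have hC1 : 1 ≤ C1 := (hn.lower 0 (by simp)).trans (hn.upper 0 (by simp))
  have hC1a : |C1| = C1 := abs_of_nonneg (by linarith)
  have hH0 : 0 < H := by linarith
  have hR0 : 0 < R := by linarith
  have hhm := hh.smooth.continuous.measurable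
  rw [hC1a] at hD
  rw [hC1a]
  have mV : ∀ i, Measurable (Vw h (m i) f) := fun i => measurable_Vw (hm i) hh hf
  have mG : Measurable (fun z => ‖Vw h (m 0) f z‖ₑ * ‖Vw h (m 1) f z‖ₑ * ‖Vw h (m 2) f z‖ₑ) :=
    ((mV 0).enorm.mul (mV 1).enorm).mul (mV 2).enorm
  have hav := slab_average (C1 := C1) hn.bound c' hH0 hHR mG
  rw [← hD, ← hve, ← ENNReal.ofReal_mul (by positivity)] at hav
  set S' := Sl n c' (D * H) (2 * R) with hS'
  have mS' : MeasurableSet S' := measurableSet_Sl _ _ _ _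
  set F3 := ∫⁻ x, ‖f x‖ₑ ^ 3 with hF3
  set X : ℝ := 24 * (cw * H ^ 3 * (2 * C1 * (D * H))) * ((4 * Real.pi * K * B ^ 2 * (H ^ 2 * R)) ^ (1/2 : ℝ)) with hX
  have hX0 : 0 ≤ X := by rw [hX]; positivity
  have hE : ∀ i, ∫⁻ y in S', En h (m i) H f y ^ (3/2 : ℝ) ≤ ENNReal.ofReal X * F3 := fun i =>
    En_L3 (hm i) hh hB hK (hLI h hh) hcw hw hn c' hH hHR hD0 hf
  have mE : ∀ i, Measurable (En h (m i) H f) := fun i => measurable_En (hm i) hh hf H
  have hball : ∀ y, ∫⁻ z in Metric.closedBall y H, ‖Vw h (m 0) f z‖ₑ * ‖Vw h (m 1) f z‖ₑ * ‖Vw h (m 2) f z‖ₑ ≤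
      ENNReal.ofReal (CT * H ^ (ε - 3/2)) * (En h (m 0) H f y ^ (1/2 : ℝ) * En h (m 1) H f y ^ (1/2 : ℝ) *
        En h (m 2) H f y ^ (1/2 : ℝ)) := by
    intro y
    have := htri (fun _ => qp h) cc w (fun i => ap (m i) f) (fun _ => measurable_qp hhm)
      (fun i => measurable_ap (hm i) hf) (fun i => integrable_ap (hm i) hf) hdet hwL hlin
      (fun i ξ hξ => hsupp i ξ (left_ne_zero_of_mul hξ)) H y hH
    simp only [← Vw_eq (hm 0) h hf, ← Vw_eq (hm 1) h hf, ← Vw_eq (hm 2) h hf] at this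
    exact this
  have hfin : ENNReal.ofReal (H ^ 3 * v1) * ∫⁻ z in Sl n c' H R, ‖Vw h (m 0) f z‖ₑ * ‖Vw h (m 1) f z‖ₑ * ‖Vw h (m 2) f z‖ₑ ≤
      ENNReal.ofReal (CT * H ^ (ε - 3/2)) * (ENNReal.ofReal X * F3) := by
    refine hav.trans ?_
    calc _ ≤ ∫⁻ y in S', ENNReal.ofReal (CT * H ^ (ε - 3/2)) * (En h (m 0) H f y ^ (1/2 : ℝ) *
          En h (m 1) H f y ^ (1/2 : ℝ) * En h (m 2) H f y ^ (1/2 : ℝ)) := lintegral_mono hball
      _ = ENNReal.ofReal (CT * H ^ (ε - 3/2)) * ∫⁻ y in S', (En h (m 0) H f y ^ (1/2 : ℝ) *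
          En h (m 1) H f y ^ (1/2 : ℝ) * En h (m 2) H f y ^ (1/2 : ℝ)) :=
          lintegral_const_mul' _ _ ENNReal.ofReal_ne_top
      _ ≤ _ := mul_le_mul' le_rfl (holder3 _ (mE 0) (mE 1) (mE 2) (hE 0) (hE 1) (hE 2))
  set I := ∫⁻ z in Sl n c' H R, ‖Vw h (m 0) f z‖ₑ * ‖Vw h (m 1) f z‖ₑ * ‖Vw h (m 2) f z‖ₑ with hI
  have e1 : I = ENNReal.ofReal (H ^ 3 * v1)⁻¹ * (ENNReal.ofReal (H ^ 3 * v1) * I) := by
    rw [← mul_assoc, ← ENNReal.ofReal_mul (by positivity), inv_mul_cancel₀ (by positivity),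
      ENNReal.ofReal_one, one_mul]
  rw [e1]
  calc _ ≤ ENNReal.ofReal (H ^ 3 * v1)⁻¹ * (ENNReal.ofReal (CT * H ^ (ε - 3/2)) * (ENNReal.ofReal X * F3)) := by
        gcongr
    _ = ENNReal.ofReal ((H ^ 3 * v1)⁻¹ * (CT * H ^ (ε - 3/2)) * X) * F3 := by
        rw [← mul_assoc, ← mul_assoc, ← ENNReal.ofReal_mul (by positivity), ← ENNReal.ofReal_mul (by positivity)]
    _ ≤ _ := by
        refine mul_le_mul' (ENNReal.ofReal_le_ofReal ?_) le_rfl
        have e2 : (4 * Real.pi * K * B ^ 2 * (H ^ 2 * R)) ^ (1/2 : ℝ) =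
            (4 * Real.pi * K * B ^ 2) ^ (1/2 : ℝ) * (H * R ^ (1/2 : ℝ)) := by
          rw [Real.mul_rpow (by positivity) (by positivity), Real.mul_rpow (by positivity) hR0.le]
          congr 2
          rw [← Real.rpow_natCast, ← Real.rpow_mul hH0.le]
          norm_num
        have e3 : H ^ (ε - 3/2) * H ^ 5 = H ^ ε * H ^ (1/2 : ℝ) * H ^ 3 := by
          rw [← Real.rpow_natCast H 5, ← Real.rpow_natCast H 3, ← Real.rpow_add hH0, ← Real.rpow_add hH0,
            ← Real.rpow_add hH0]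
          congr 1
          norm_num
          ring
        rw [hX, e2, Real.mul_rpow hH0.le hR0.le]
        set P := (4 * Real.pi * K * B ^ 2) ^ (1/2 : ℝ) with hP
        have hP0 : 0 ≤ P := by rw [hP]; positivity
        have e4 : (H ^ 3 * v1)⁻¹ * (CT * H ^ (ε - 3/2)) * (24 * (cw * H ^ 3 * (2 * C1 * (D * H))) * (P * (H * R ^ (1/2 : ℝ)))) =
            v1⁻¹ * CT * (24 * (cw * (2 * C1 * D)) * P) * ((H ^ (ε - 3/2) * H ^ 5) * (H ^ 3)⁻¹) * R ^ (1/2 : ℝ) := by
          field_simp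
        rw [e4, e3]
        have e5 : H ^ ε * H ^ (1/2 : ℝ) * H ^ 3 * (H ^ 3)⁻¹ = H ^ ε * H ^ (1/2 : ℝ) := by
          field_simp
        rw [e5]
        have h1 : H ^ ε ≤ R ^ ε := Real.rpow_le_rpow hH0.le hHR hε.le
        calc v1⁻¹ * CT * (24 * (cw * (2 * C1 * D)) * P) * (H ^ ε * H ^ (1/2 : ℝ)) * R ^ (1/2 : ℝ) ≤
            v1⁻¹ * CT * (24 * (cw * (2 * C1 * D)) * P) * (R ^ ε * H ^ (1/2 : ℝ)) * R ^ (1/2 : ℝ) := by gcongr
          _ = _ := by ring

end Vale.Agent.P106
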