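import Vale.Agent.P106.B.TSc

/-! # The trilinear slab estimate: geometry of the slopes -/

open MeasureTheory Complex Set
open scoped ENNReal NNReal ContDiff FourierTransform SchwartzMap

set_option linter.all false

namespace Vale.Agent.P106

open Vale.Agent.P117 (E2 E3 Adm cv integrable_cv cv_inv_eq)
open Tri (Vf LinAt nv dt ec)

/-- slope of the phase in the direction `u` -/
noncomputable def slp (h : ℝ → ℝ) (u : ℝ) : ℝ × ℝ := (h u - u * deriv h u, deriv h u)

section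
variable {c C : ℝ} {h : ℝ → ℝ}

theorem HC.d0 (hh : HC c C h) (u : ℝ) : HasDerivAt h (deriv h u) u :=
  ((hh.smooth.differentiable (by simp)) u).hasDerivAt

theorem HC.cd1 (hh : HC c C h) : ContDiff ℝ ∞ (deriv h) := by
  have := hh.smooth
  rw [show ((⊤ : ℕ∞) : WithTop ℕ∞) = ((⊤ : ℕ∞) : WithTop ℕ∞) + 1 from rfl, contDiff_succ_iff_deriv] at this
  exact this.2.2

theorem HC.d1 (hh : HC c C h) (u : ℝ) : HasDerivAt (deriv h) (deriv (deriv h) u) u :=
  ((hh.cd1.differentiable (by simp)) u).hasDerivAt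

theorem HC.d2abs (hh : HC c C h) (hc : 0 < c) (u : ℝ) : |deriv (deriv h) u| ≤ C := by
  rw [abs_of_nonneg (hc.le.trans (hh.lower u))]
  exact hh.upper u

/-- derivative of the first slope component -/
theorem HC.dg (hh : HC c C h) (u : ℝ) : HasDerivAt (fun u => h u - u * deriv h u) (-(u * deriv (deriv h) u)) u := by
  have h1 := (hh.d0 u).sub ((hasDerivAt_id u).mul (hh.d1 u))
  refine h1.congr_deriv ?_
  simp

theorem HC.lip1 (hh : HC c C h) (hc : 0 < c) (u v : ℝ) : |deriv h u - deriv h v| ≤ C * |u - v| := by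
  have := Convex.norm_image_sub_le_of_norm_hasDerivWithin_le (s := (Set.univ : Set ℝ)) (f := deriv h)
    (f' := deriv (deriv h)) (C := C) (fun x _ => (hh.d1 x).hasDerivWithinAt) (fun x _ => hh.d2abs hc x)
    convex_univ (mem_univ v) (mem_univ u)
  simpa using this

theorem HC.lipg (hh : HC c C h) (hc : 0 < c) {M u v : ℝ} (hu : |u| ≤ M) (hv : |v| ≤ M) :
    |(h u - u * deriv h u) - (h v - v * deriv h v)| ≤ M * C * |u - v| := by
  have := Convex.norm_image_sub_le_of_norm_hasDerivWithin_le (s := Icc (-M) M) (f := fun u => h u - u * deriv h u)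
    (f' := fun u => (-(u * deriv (deriv h) u))) (C := M * C) (fun x _ => (hh.dg x).hasDerivWithinAt) (fun x hx => by
      rw [norm_neg, Real.norm_eq_abs, abs_mul]
      have h1 : |x| ≤ M := abs_le.2 hx
      exact mul_le_mul h1 (hh.d2abs hc x) (abs_nonneg _) ((abs_nonneg _).trans h1))
    (convex_Icc _ _) (abs_le.1 hv) (abs_le.1 hu)
  simpa using this

theorem HC.slp_bdd (hh : HC c C h) (hc : 0 < c) {u : ℝ} (hu : |u| ≤ 5) :
    |(slp h u).1| ≤ 25 * C ∧ |(slp h u).2| ≤ 25 * C := by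
  have hC : 0 ≤ C := (abs_nonneg _).trans (hh.d2abs hc 0)
  unfold slp
  have h1 := hh.lipg hc hu (v := 0) (by simp)
  have h2 := hh.lip1 hc u 0
  rw [hh.dzero] at h1 h2
  rw [hh.zero] at h1
  simp only [mul_zero, sub_zero] at h1 h2
  constructor
  · refine h1.trans ?_
    nlinarith [abs_nonneg u]
  · refine h2.trans ?_
    nlinarith [abs_nonneg u]

/-- derivative of the phase along a segment -/
theorem qp_deriv (hh : HC c C h) (ξ η : ℝ × ℝ) (s : ℝ) (hs : ξ.1 + s * η.1 ≠ 0) :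
    HasDerivAt (fun s => qp h (ξ.1 + s * η.1, ξ.2 + s * η.2))
      ((slp h ((ξ.2 + s * η.2) / (ξ.1 + s * η.1))).1 * η.1 + (slp h ((ξ.2 + s * η.2) / (ξ.1 + s * η.1))).2 * η.2) s := by
  unfold qp slp
  simp only
  have h1 : HasDerivAt (fun s => ξ.1 + s * η.1) η.1 s := by
    refine (((hasDerivAt_id s).mul_const η.1).const_add ξ.1).congr_deriv ?_
    simp
  have h2 : HasDerivAt (fun s => ξ.2 + s * η.2) η.2 s := by
    refine (((hasDerivAt_id s).mul_const η.2).const_add ξ.2).congr_deriv ?_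
    simp
  have h3 := h2.div h1 hs
  have h4 := HasDerivAt.comp s (hh.d0 ((ξ.2 + s * η.2) / (ξ.1 + s * η.1))) h3
  refine (h1.mul h4).congr_deriv ?_
  simp only [Function.comp, Pi.div_apply]
  set D := ξ.1 + s * η.1 with hD
  set N := ξ.2 + s * η.2 with hN
  have e : (η.2 * D - N * η.1) / D ^ 2 = (η.2 - (N / D) * η.1) / D := by
    field_simp
  rw [e]
  set u := N / D with hu
  have e2 : D * (deriv h u * ((η.2 - u * η.1) / D)) = deriv h u * (η.2 - u * η.1) := by
    field_simp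
  rw [e2]
  ring

/-- near linearity of the phase -/
theorem linAt_qp (hh : HC c C h) (hc : 0 < c) {δ θ : ℝ} {cc : ℝ × ℝ} (hδ0 : 0 < δ) (hδ : δ ≤ 1/600)
    (hδθ : 14400 * C * δ ≤ θ) (h1 : 1/200 - δ / 2 ≤ cc.1) (h2 : |cc.2| ≤ 2 * cc.1 + 3 * δ / 2) :
    LinAt (qp h) cc (slp h (cc.2 / cc.1)) δ θ := by
  have hC : 0 ≤ C := (abs_nonneg _).trans (hh.d2abs hc 0)
  have hc1 : 1/400 ≤ cc.1 := by linarith
  have hc0 : 0 < cc.1 := by linarith
  -- control of the direction
  have key : ∀ ζ : ℝ × ℝ, ‖ζ - cc‖ ≤ δ → 1/400 ≤ ζ.1 ∧ |ζ.2 / ζ.1| ≤ 5 ∧ |ζ.2 / ζ.1 - cc.2 / cc.1| ≤ 2400 * δ := by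
    intro ζ hζ
    rw [Prod.norm_def, max_le_iff] at hζ
    obtain ⟨a1, a2⟩ := hζ
    simp only [Prod.fst_sub, Prod.snd_sub, Real.norm_eq_abs] at a1 a2
    have b1 := abs_le.1 a1
    have b2 := abs_le.1 a2
    have b3 := abs_le.1 h2
    have z1 : 1/400 ≤ ζ.1 := by linarith [b1.1]
    have z0 : 0 < ζ.1 := by linarith
    have z5 : |ζ.2 / ζ.1| ≤ 5 := by
      rw [abs_div, abs_of_pos z0, div_le_iff₀ z0, abs_le]
      constructor <;> linarith [b1.1, b1.2, b2.1, b2.2, b3.1, b3.2]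
    have c5 : |cc.2 / cc.1| ≤ 5 := by
      rw [abs_div, abs_of_pos hc0, div_le_iff₀ hc0, abs_le]
      constructor <;> linarith [b3.1, b3.2]
    refine ⟨z1, z5, ?_⟩
    have e : ζ.2 / ζ.1 - cc.2 / cc.1 = ((ζ.2 - cc.2) - (cc.2 / cc.1) * (ζ.1 - cc.1)) / ζ.1 := by
      field_simp
      ring
    rw [e, abs_div, abs_of_pos z0, div_le_iff₀ z0]
    calc |(ζ.2 - cc.2) - (cc.2 / cc.1) * (ζ.1 - cc.1)| ≤ |ζ.2 - cc.2| + |(cc.2 / cc.1) * (ζ.1 - cc.1)| := abs_sub _ _
      _ ≤ δ + 5 * δ := by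
          rw [abs_mul]
          gcongr
      _ ≤ 2400 * δ * ζ.1 := by nlinarith
  intro ξ ξ' hξ hξ'
  set η : ℝ × ℝ := ξ - ξ' with hη
  set w := slp h (cc.2 / cc.1) with hw
  have hseg : ∀ s ∈ Icc (0:ℝ) 1, ‖((ξ'.1 + s * η.1, ξ'.2 + s * η.2) : ℝ × ℝ) - cc‖ ≤ δ := by
    intro s hs
    have e : ((ξ'.1 + s * η.1, ξ'.2 + s * η.2) : ℝ × ℝ) - cc = (1 - s) • (ξ' - cc) + s • (ξ - cc) := by
      rw [hη]
      ext
      · simp; ring
      · simp; ring
    rw [e]
    refine (norm_add_le _ _).trans ?_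
    rw [norm_smul, norm_smul, Real.norm_of_nonneg hs.1, Real.norm_of_nonneg (sub_nonneg.2 hs.2)]
    have := hs.1
    have := hs.2
    nlinarith
  have hd : ∀ s ∈ Icc (0:ℝ) 1, HasDerivWithinAt (fun s => qp h (ξ'.1 + s * η.1, ξ'.2 + s * η.2) -
      s * (w.1 * η.1 + w.2 * η.2))
      (((slp h ((ξ'.2 + s * η.2) / (ξ'.1 + s * η.1))).1 * η.1 + (slp h ((ξ'.2 + s * η.2) / (ξ'.1 + s * η.1))).2 * η.2) -
        (w.1 * η.1 + w.2 * η.2)) (Icc 0 1) s := by
    intro s hs
    have k := key _ (hseg s hs)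
    have h3 := qp_deriv hh ξ' η s (by have := k.1; simp only at this; linarith)
    have h4 : HasDerivAt (fun s : ℝ => s * (w.1 * η.1 + w.2 * η.2)) (w.1 * η.1 + w.2 * η.2) s := by
      refine ((hasDerivAt_id s).mul_const _).congr_deriv ?_
      simp
    exact (h3.sub h4).hasDerivWithinAt
  have hη1 : |η.1| ≤ ‖η‖ := norm_fst_le η
  have hη2 : |η.2| ≤ ‖η‖ := norm_snd_le η
  have hb : ∀ s ∈ Ico (0:ℝ) 1, ‖(((slp h ((ξ'.2 + s * η.2) / (ξ'.1 + s * η.1))).1 * η.1 +
      (slp h ((ξ'.2 + s * η.2) / (ξ'.1 + s * η.1))).2 * η.2) - (w.1 * η.1 + w.2 * η.2))‖ ≤ θ * ‖η‖ := by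
    intro s hs
    obtain ⟨k1, k2, k3⟩ := key _ (hseg s (Ico_subset_Icc_self hs))
    simp only at k1 k2 k3
    set u := (ξ'.2 + s * η.2) / (ξ'.1 + s * η.1) with hu
    have c5 : |cc.2 / cc.1| ≤ 5 := by
      have b3 := abs_le.1 h2
      rw [abs_div, abs_of_pos hc0, div_le_iff₀ hc0, abs_le]
      constructor <;> linarith [b3.1, b3.2]
    have l1 := hh.lipg hc k2 c5
    have l2 := hh.lip1 hc u (cc.2 / cc.1)
    have e : ((slp h u).1 * η.1 + (slp h u).2 * η.2) - (w.1 * η.1 + w.2 * η.2) =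
        ((h u - u * deriv h u) - (h (cc.2/cc.1) - (cc.2/cc.1) * deriv h (cc.2/cc.1))) * η.1 +
        (deriv h u - deriv h (cc.2/cc.1)) * η.2 := by
      rw [hw]
      unfold slp
      ring
    rw [e, Real.norm_eq_abs]
    refine (abs_add_le _ _).trans ?_
    rw [abs_mul, abs_mul]
    calc _ ≤ (5 * C * (2400 * δ)) * ‖η‖ + (C * (2400 * δ)) * ‖η‖ := by
          have i1 := l1.trans (mul_le_mul_of_nonneg_left k3 (by positivity))
          have i2 := l2.trans (mul_le_mul_of_nonneg_left k3 (by positivity))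
          gcongr
      _ = 14400 * C * δ * ‖η‖ := by ring
      _ ≤ θ * ‖η‖ := by gcongr
  have := norm_image_sub_le_of_norm_deriv_le_segment_01' hd hb
  simp only [one_mul, zero_mul, add_zero, sub_zero, Real.norm_eq_abs] at this
  have e1 : ((ξ'.1 + η.1, ξ'.2 + η.2) : ℝ × ℝ) = ξ := by
    rw [hη]; ext <;> simp
  have e2 : ((ξ'.1, ξ'.2) : ℝ × ℝ) = ξ' := rfl
  rw [e1, e2] at this
  have e3 : qp h ξ - qp h ξ' - (w.1 * (ξ.1 - ξ'.1) + w.2 * (ξ.2 - ξ'.2)) =
      qp h ξ - (w.1 * η.1 + w.2 * η.2) - qp h ξ' := by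
    rw [hη]; simp only [Prod.fst_sub, Prod.snd_sub]; ring
  rw [e3]
  exact this

/-- the determinant of three slopes: ordered case -/
theorem det_ordered (hh : HC c C h) (hc : 0 < c) {u1 u2 u3 : ℝ} (h12 : u1 ≤ u2) (h23 : u2 ≤ u3) :
    c ^ 2 / 4 * ((u2 - u1) * (u3 - u2) * (u3 - u1)) ≤ |dt (nv (slp h u1)) (nv (slp h u2)) (nv (slp h u3))| := by
  set g : ℝ → ℝ := fun u => h u - u * deriv h u with hg
  set p : ℝ → ℝ := deriv h with hp
  have hdet : dt (nv (slp h u1)) (nv (slp h u2)) (nv (slp h u3)) =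
      (p u2 - p u1) * (g u3 - g u1) - (g u2 - g u1) * (p u3 - p u1) := by
    have t0 : ∀ u, nv (slp h u) 0 = g u := fun _ => rfl
    have t1 : ∀ u, nv (slp h u) 1 = p u := fun _ => rfl
    have t2 : ∀ u, nv (slp h u) 2 = -1 := fun _ => rfl
    unfold dt
    simp only [t0, t1, t2]
    ring
  -- first step
  have step1 : ∀ x, u2 ≤ x → c / 2 * ((u2 - u1) * (x - u1)) ≤ x * (p u2 - p u1) + (g u2 - g u1) := by
    intro x hx
    have hder : ∀ y, HasDerivAt (fun y => x * (p y - p u1) + (g y - g u1) - c * (x * (y - u1) - (y ^ 2 - u1 ^ 2) / 2))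
        ((x - y) * (deriv p y - c)) y := by
      intro y
      have a1 := ((hh.d1 y).sub_const (p u1)).const_mul x
      have a2 := (hh.dg y).sub_const (g u1)
      have a3 : HasDerivAt (fun y => c * (x * (y - u1) - (y ^ 2 - u1 ^ 2) / 2)) (c * (x - y)) y := by
        have b1 : HasDerivAt (fun y => x * (y - u1)) x y := by
          refine (((hasDerivAt_id y).sub_const u1).const_mul x).congr_deriv ?_
          simp
        have b2 : HasDerivAt (fun y => (y ^ 2 - u1 ^ 2) / 2) y y := by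
          refine (((hasDerivAt_pow 2 y).sub_const (u1 ^ 2)).div_const 2).congr_deriv ?_
          simp
        exact (b1.sub b2).const_mul c
      refine ((a1.add a2).sub a3).congr_deriv ?_
      ring
    have hmono : MonotoneOn (fun y => x * (p y - p u1) + (g y - g u1) - c * (x * (y - u1) - (y ^ 2 - u1 ^ 2) / 2))
        (Icc u1 x) := by
      apply monotoneOn_of_deriv_nonneg (convex_Icc _ _)
      · exact fun y _ => (hder y).continuousAt.continuousWithinAt
      · exact fun y _ => (hder y).differentiableAt.differentiableWithinAt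
      · intro y hy
        rw [interior_Icc] at hy
        rw [(hder y).deriv]
        exact mul_nonneg (by linarith [hy.2]) (sub_nonneg.2 (hh.lower y))
    have := hmono (left_mem_Icc.2 (h12.trans hx)) ⟨h12, hx⟩ h12
    simp only [sub_self, mul_zero, add_zero, zero_div] at this
    have e : x * (u2 - u1) - (u2 ^ 2 - u1 ^ 2) / 2 = (u2 - u1) * (x - (u2 + u1) / 2) := by ring
    rw [e] at this
    have h3 : c / 2 * ((u2 - u1) * (x - u1)) ≤ c * ((u2 - u1) * (x - (u2 + u1) / 2)) := by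
      have h4 : (u2 - u1) * ((x - u1) / 2) ≤ (u2 - u1) * (x - (u2 + u1) / 2) :=
        mul_le_mul_of_nonneg_left (by linarith) (by linarith)
      have h5 := mul_le_mul_of_nonneg_left h4 hc.le
      linarith
    linarith
  -- second step
  have hder : ∀ x, HasDerivAt (fun x => -((p u2 - p u1) * (g x - g u1) - (g u2 - g u1) * (p x - p u1)) -
      c ^ 2 / 4 * ((u2 - u1) * ((x - u1) ^ 2 - (u2 - u1) ^ 2)))
      (deriv p x * (x * (p u2 - p u1) + (g u2 - g u1)) - c ^ 2 / 2 * ((u2 - u1) * (x - u1))) x := by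
    intro x
    have a1 := ((hh.dg x).sub_const (g u1)).const_mul (p u2 - p u1)
    have a2 := ((hh.d1 x).sub_const (p u1)).const_mul (g u2 - g u1)
    have a3 : HasDerivAt (fun x => c ^ 2 / 4 * ((u2 - u1) * ((x - u1) ^ 2 - (u2 - u1) ^ 2)))
        (c ^ 2 / 4 * ((u2 - u1) * (2 * (x - u1)))) x := by
      have b1 : HasDerivAt (fun x => (x - u1) ^ 2) (2 * (x - u1)) x := by
        refine (((hasDerivAt_id x).sub_const u1).pow 2).congr_deriv ?_
        simp
      exact ((b1.sub_const _).const_mul _).const_mul _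
    refine ((a1.sub a2).neg.sub a3).congr_deriv ?_
    ring
  have hmono : MonotoneOn (fun x => -((p u2 - p u1) * (g x - g u1) - (g u2 - g u1) * (p x - p u1)) -
      c ^ 2 / 4 * ((u2 - u1) * ((x - u1) ^ 2 - (u2 - u1) ^ 2))) (Icc u2 u3) := by
    apply monotoneOn_of_deriv_nonneg (convex_Icc _ _)
    · exact fun y _ => (hder y).continuousAt.continuousWithinAt
    · exact fun y _ => (hder y).differentiableAt.differentiableWithinAt
    · intro x hx
      rw [interior_Icc] at hx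
      rw [(hder x).deriv]
      have s1 := step1 x hx.1.le
      have s2 : 0 ≤ (u2 - u1) * (x - u1) := mul_nonneg (by linarith) (by linarith [hx.1])
      have s3 : c * (c / 2 * ((u2 - u1) * (x - u1))) ≤ deriv p x * (x * (p u2 - p u1) + (g u2 - g u1)) :=
        mul_le_mul (hh.lower x) s1 (by positivity) (hc.le.trans (hh.lower x))
      have e : c * (c / 2 * ((u2 - u1) * (x - u1))) = c ^ 2 / 2 * ((u2 - u1) * (x - u1)) := by ring
      linarith
  have := hmono (left_mem_Icc.2 h23) (right_mem_Icc.2 h23) h23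
  simp only [sub_self, mul_zero, sub_zero] at this
  have e0 : (p u2 - p u1) * (g u2 - g u1) - (g u2 - g u1) * (p u2 - p u1) = 0 := by ring
  rw [e0, neg_zero] at this
  rw [hdet]
  refine le_trans ?_ (neg_le_abs _)
  have e1 : (u2 - u1) * ((u3 - u1) ^ 2 - (u2 - u1) ^ 2) = (u2 - u1) * (u3 - u2) * ((u3 - u1) + (u2 - u1)) := by ring
  rw [e1] at this
  have h3 : (u2 - u1) * (u3 - u2) * (u3 - u1) ≤ (u2 - u1) * (u3 - u2) * ((u3 - u1) + (u2 - u1)) :=
    mul_le_mul_of_nonneg_left (by linarith) (mul_nonneg (by linarith) (by linarith))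
  have h4 := mul_le_mul_of_nonneg_left h3 (by positivity : 0 ≤ c ^ 2 / 4)
  linarith

theorem dt_swap12 (a b d : E3) : |dt a b d| = |dt b a d| := by
  rw [← abs_neg]; congr 1; unfold dt; ring

theorem dt_swap23 (a b d : E3) : |dt a b d| = |dt a d b| := by
  rw [← abs_neg]; congr 1; unfold dt; ring

/-- the determinant of three slopes -/
theorem det_sep (hh : HC c C h) (hc : 0 < c) {s : ℝ} (hs : 0 ≤ s) {u1 u2 u3 : ℝ} (h12 : s ≤ |u1 - u2|)
    (h23 : s ≤ |u2 - u3|) (h13 : s ≤ |u1 - u3|) :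
    c ^ 2 / 4 * s ^ 3 ≤ |dt (nv (slp h u1)) (nv (slp h u2)) (nv (slp h u3))| := by
  -- ordered version
  have ord : ∀ v1 v2 v3 : ℝ, v1 ≤ v2 → v2 ≤ v3 → s ≤ |v1 - v2| → s ≤ |v2 - v3| → s ≤ |v1 - v3| →
      c ^ 2 / 4 * s ^ 3 ≤ |dt (nv (slp h v1)) (nv (slp h v2)) (nv (slp h v3))| := by
    intro v1 v2 v3 a b i1 i2 i3
    refine le_trans ?_ (det_ordered hh hc a b)
    rw [abs_of_nonpos (by linarith)] at i1 i2 i3
    have h1 : s * s ≤ (v2 - v1) * (v3 - v2) := mul_le_mul (by linarith) (by linarith) hs (by linarith)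
    have h2 : s * s * s ≤ (v2 - v1) * (v3 - v2) * (v3 - v1) :=
      mul_le_mul h1 (by linarith) hs (mul_nonneg (by linarith) (by linarith))
    have h3 : s ^ 3 = s * s * s := by ring
    rw [h3]
    exact mul_le_mul_of_nonneg_left h2 (by positivity)
  have h21 : s ≤ |u2 - u1| := by rwa [abs_sub_comm]
  have h32 : s ≤ |u3 - u2| := by rwa [abs_sub_comm]
  have h31 : s ≤ |u3 - u1| := by rwa [abs_sub_comm]
  rcases le_total u1 u2 with a | a
  · rcases le_total u2 u3 with b | b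
    · exact ord u1 u2 u3 a b h12 h23 h13
    · rcases le_total u1 u3 with d | d
      · rw [dt_swap23]; exact ord u1 u3 u2 d b h13 h32 h12
      · rw [dt_swap23, dt_swap12]; exact ord u3 u1 u2 d a h31 h12 h32
  · rcases le_total u1 u3 with b | b
    · rw [dt_swap12]; exact ord u2 u1 u3 a b h21 h13 h23
    · rcases le_total u2 u3 with d | d
      · rw [dt_swap12, dt_swap23]; exact ord u2 u3 u1 d b h23 h31 h21
      · rw [dt_swap12, dt_swap23, dt_swap12]; exact ord u3 u2 u1 d a h32 h21 h31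

end

end Vale.Agent.P106
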