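import Vale.Agent.P106.B.TSd
import Vale.Agent.P106.B.Rec

/-! # The trilinear slab estimate -/

open MeasureTheory Complex Set
open scoped ENNReal NNReal ContDiff FourierTransform SchwartzMap

set_option linter.all false

namespace Vale.Agent.P106

open Vale.Agent.P117 (E2 E3 Adm cv integrable_cv cv_inv_eq eta0 eta0_supp eta0_sum contDiff_eta0)
open Tri (Vf LinAt nv dt ec)

theorem contDiff_mj (K : ℕ) (j : ℤ) : ContDiff ℝ ∞ (mj K j) := by
  have : mj K j = M0 ∘ (lin2 1 0 (-j) K) := by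
    ext ξ
    rw [mj_eq, Function.comp_apply, lin2_apply]
  rw [this]
  exact contDiff_M0.comp (lin2 1 0 (-j) K).toContinuousLinearMap.contDiff

theorem mj_Gbig {K : ℕ} (hK : 1 ≤ K) {j : ℤ} (hj : |j| ≤ K) {ξ : E2} (h : mj K j ξ ≠ 0) : ξ ∈ Gbig := by
  have hK0 : (1:ℝ) ≤ K := by exact_mod_cast hK
  obtain ⟨h1, h2, h3⟩ := mj_supp j h
  refine ⟨h1, h2, ?_⟩
  have hj' : |(j:ℝ)| ≤ K := by exact_mod_cast hj
  have h0 : 0 < ξ 0 := by linarith
  have h4 : |(K:ℝ) * ξ 1| ≤ ξ 0 + K * ξ 0 := by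
    calc |(K:ℝ) * ξ 1| = |(K * ξ 1 - j * ξ 0) + j * ξ 0| := by congr 1; ring
      _ ≤ |K * ξ 1 - j * ξ 0| + |j * ξ 0| := abs_add_le _ _
      _ ≤ ξ 0 + K * ξ 0 := by
        rw [abs_mul (j:ℝ), abs_of_pos h0]
        gcongr
  rw [abs_mul, abs_of_pos (by linarith : (0:ℝ) < K)] at h4
  have h5 : (K:ℝ) * |ξ 1| ≤ K * (2 * ξ 0) := by nlinarith
  exact le_of_mul_le_mul_left h5 (by linarith)

/-- cube cut-off -/
noncomputable def phc (η : ℝ) (a : ℤ × ℤ) (ξ : E2) : ℂ := eta0 (ξ 0 / η - a.1) * eta0 (ξ 1 / η - a.2)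

theorem contDiff_phc (η : ℝ) (a : ℤ × ℤ) : ContDiff ℝ ∞ (phc η a) := by
  unfold phc
  exact (contDiff_eta0.comp (by fun_prop)).mul (contDiff_eta0.comp (by fun_prop))

theorem phc_supp {η : ℝ} (hη : 0 < η) {a : ℤ × ℤ} {ξ : E2} (h : phc η a ξ ≠ 0) :
    |ξ 0 - η * a.1| ≤ η ∧ |ξ 1 - η * a.2| ≤ η := by
  have h1 := eta0_supp _ (left_ne_zero_of_mul h)
  have h2 := eta0_supp _ (right_ne_zero_of_mul h)
  constructor
  · have e : ξ 0 - η * a.1 = η * (ξ 0 / η - a.1) := by field_simp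
    rw [e, abs_mul, abs_of_pos hη]
    nlinarith
  · have e : ξ 1 - η * a.2 = η * (ξ 1 / η - a.2) := by field_simp
    rw [e, abs_mul, abs_of_pos hη]
    nlinarith

theorem sum_phc {η : ℝ} (hη : 0 < η) {N : ℕ} {ξ : E2} (h0 : |ξ 0| ≤ N * η) (h1 : |ξ 1| ≤ N * η) :
    ∑ a ∈ Finset.Icc (-(N:ℤ)) N ×ˢ Finset.Icc (-(N:ℤ)) N, phc η a ξ = 1 := by
  rw [Finset.sum_product]
  unfold phc
  simp only
  rw [← Finset.sum_mul_sum, eta0_sum, eta0_sum, one_mul]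
  · rw [abs_div, abs_of_pos hη, div_le_iff₀ hη]; exact h1
  · rw [abs_div, abs_of_pos hη, div_le_iff₀ hη]; exact h0

/-- multiplier of a cube inside a piece -/
noncomputable def mkl (K : ℕ) (i : ℤ) (η : ℝ) (a : ℤ × ℤ) (ξ : E2) : ℂ := mj K i ξ * phc η a ξ

theorem contDiff_mkl (K : ℕ) (i : ℤ) (η : ℝ) (a : ℤ × ℤ) : ContDiff ℝ ∞ (mkl K i η a) :=
  (contDiff_mj K i).mul (contDiff_phc η a)

theorem hcs_mkl {K : ℕ} (hK : 1 ≤ K) {i : ℤ} (hi : |i| ≤ K) (η : ℝ) (a : ℤ × ℤ) :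
    HasCompactSupport (mkl K i η a) := by
  apply HasCompactSupport.of_support_subset_isCompact isCompact_Gbig
  intro ξ hξ
  exact mj_Gbig hK hi (left_ne_zero_of_mul hξ)

/-- `L¹` norm of the kernel -/
noncomputable def kL1 (m : E2 → ℂ) : ℝ := (∫⁻ x, ‖𝓕⁻ m x‖ₑ).toReal

theorem kL1_spec {m : E2 → ℂ} (hs : ContDiff ℝ ∞ m) (hc : HasCompactSupport m) :
    ∫⁻ x, ‖𝓕⁻ m x‖ₑ ≤ ENNReal.ofReal (kL1 m) := by
  have h1 : Integrable (𝓕⁻ m) := by
    have h2 : (((𝓕⁻ (hc.toSchwartzMap hs) : 𝓢(E2, ℂ))) : E2 → ℂ) = 𝓕⁻ m := by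
      rw [SchwartzMap.fourierInv_coe]
      rfl
    rw [← h2]
    exact (𝓕⁻ (hc.toSchwartzMap hs) : 𝓢(E2, ℂ)).integrable
  have h3 : ∫⁻ x, ‖𝓕⁻ m x‖ₑ ≠ ⊤ := h1.2.ne
  unfold kL1
  rw [ENNReal.ofReal_toReal h3]

theorem kL1_nonneg (m : E2 → ℂ) : 0 ≤ kL1 m := ENNReal.toReal_nonneg

/-- uniform kernel bound -/
noncomputable def Bkl (K : ℕ) (η : ℝ) (S : Finset (ℤ × ℤ)) : ℝ :=
  ∑ i ∈ Finset.Icc (-(K:ℤ)) K, ∑ a ∈ S, kL1 (mkl K i η a)

theorem Bkl_nonneg (K : ℕ) (η : ℝ) (S : Finset (ℤ × ℤ)) : 0 ≤ Bkl K η S :=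
  Finset.sum_nonneg fun _ _ => Finset.sum_nonneg fun _ _ => kL1_nonneg _

theorem mul_mkl {K : ℕ} (hK : 1 ≤ K) {i : ℤ} (hi : |i| ≤ K) (η : ℝ) {S : Finset (ℤ × ℤ)} {a : ℤ × ℤ} (ha : a ∈ S) :
    Mul (Bkl K η S) (mkl K i η a) where
  smooth := contDiff_mkl K i η a
  cs := hcs_mkl hK hi η a
  le_one := by
    intro ξ
    unfold mkl phc
    rw [norm_mul, norm_mul]
    have h1 := norm_mj (K := K) i ξ
    have h2 := norm_eta0 (ξ 0 / η - a.1)
    have h3 := norm_eta0 (ξ 1 / η - a.2)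
    exact mul_le_one₀ h1 (by positivity) (mul_le_one₀ h2 (by positivity) h3)
  supp := fun ξ hξ => mj_Gbig hK hi (left_ne_zero_of_mul hξ)
  ker := by
    refine (kL1_spec (contDiff_mkl K i η a) (hcs_mkl hK hi η a)).trans (ENNReal.ofReal_le_ofReal ?_)
    unfold Bkl
    have hi' : i ∈ Finset.Icc (-(K:ℤ)) K := Finset.mem_Icc.2 (abs_le.1 hi)
    have h1 : ∑ a ∈ S, kL1 (mkl K i η a) ≤ ∑ i ∈ Finset.Icc (-(K:ℤ)) K, ∑ a ∈ S, kL1 (mkl K i η a) :=
      Finset.single_le_sum (f := fun i => ∑ a ∈ S, kL1 (mkl K i η a))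
        (fun _ _ => Finset.sum_nonneg fun _ _ => kL1_nonneg _) hi'
    have h2 : kL1 (mkl K i η a) ≤ ∑ a ∈ S, kL1 (mkl K i η a) :=
      Finset.single_le_sum (f := fun a => kL1 (mkl K i η a)) (fun _ _ => kL1_nonneg _) ha
    exact h2.trans h1

/-- centre of a cube -/
noncomputable def ccr (η : ℝ) (a : ℤ × ℤ) : ℝ × ℝ := (η * a.1, η * a.2)

theorem cell_geom {K : ℕ} (hK : 1 ≤ K) {i : ℤ} (hi : |i| ≤ K) {η : ℝ} (hη : 0 < η) (hηK : 4800 * K * η ≤ 1)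
    {a : ℤ × ℤ} {ξ : E2} (h : mkl K i η a ξ ≠ 0) :
    1/200 - η ≤ (ccr η a).1 ∧ |(ccr η a).2| ≤ 2 * (ccr η a).1 + 3 * η ∧
      |(ccr η a).2 / (ccr η a).1 - i / K| ≤ (5/4) / K := by
  have hK0 : (1:ℝ) ≤ K := by exact_mod_cast hK
  have hη2 : η ≤ 1/4800 := by nlinarith
  have hm := left_ne_zero_of_mul h
  obtain ⟨g1, g2, g3⟩ := mj_Gbig hK hi hm
  obtain ⟨_, _, m3⟩ := mj_supp i hm
  obtain ⟨p1, p2⟩ := phc_supp hη (right_ne_zero_of_mul h)
  have q1 := abs_le.1 p1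
  have q2 := abs_le.1 p2
  have q3 := abs_le.1 g3
  unfold ccr
  simp only
  have c1 : 1/200 - η ≤ η * a.1 := by linarith [q1.1, q1.2]
  have c0 : 1/400 ≤ η * a.1 := by linarith
  have c00 : 0 < η * a.1 := by linarith
  have x0 : 0 < ξ 0 := by linarith
  refine ⟨c1, ?_, ?_⟩
  · rw [abs_le]
    constructor <;> linarith [q1.1, q1.2, q2.1, q2.2, q3.1, q3.2]
  · have r1 : |ξ 1 / ξ 0 - i / K| ≤ 1 / K := by
      have e : ξ 1 / ξ 0 - i / K = (K * ξ 1 - i * ξ 0) / (K * ξ 0) := by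
        field_simp
      rw [e, abs_div, abs_of_pos (by positivity : (0:ℝ) < K * ξ 0), div_le_div_iff₀ (by positivity) (by linarith)]
      nlinarith
    have r2 : |η * a.2 / (η * a.1) - ξ 1 / ξ 0| ≤ (1/4) / K := by
      have e0 : ∀ y d x1 x0 : ℝ, 0 < d → 0 < x0 → y / d - x1 / x0 = ((y - x1) - (x1 / x0) * (d - x0)) / d := by
        intro y d x1 x0 hd hx
        field_simp
        ring
      have e : η * a.2 / (η * a.1) - ξ 1 / ξ 0 = ((η * a.2 - ξ 1) - (ξ 1 / ξ 0) * (η * a.1 - ξ 0)) / (η * a.1) :=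
        e0 _ _ _ _ c00 x0
      rw [e, abs_div, abs_of_pos c00, div_le_iff₀ c00]
      have u2 : |ξ 1 / ξ 0| ≤ 2 := by
        rw [abs_div, abs_of_pos x0, div_le_iff₀ x0]; exact g3
      have hKη : 3 * η * 400 ≤ (1/4) / K := by
        rw [le_div_iff₀ (by linarith)]
        nlinarith
      calc |(η * a.2 - ξ 1) - (ξ 1 / ξ 0) * (η * a.1 - ξ 0)| ≤ |η * a.2 - ξ 1| + |(ξ 1 / ξ 0) * (η * a.1 - ξ 0)| :=
            abs_sub _ _
        _ ≤ η + 2 * η := by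
            rw [abs_mul, abs_sub_comm (η * (a.2:ℝ)), abs_sub_comm (η * (a.1:ℝ))]
            gcongr
        _ = (3 * η * 400) * (1/400) := by ring
        _ ≤ (1/4) / K * (η * a.1) := mul_le_mul hKη c0 (by norm_num) (by positivity)
    calc |η * a.2 / (η * a.1) - i / K| = |(η * a.2 / (η * a.1) - ξ 1 / ξ 0) + (ξ 1 / ξ 0 - i / K)| := by
          congr 1; ring
      _ ≤ (1/4) / K + 1 / K := (abs_add_le _ _).trans (add_le_add r2 r1)
      _ = (5/4) / K := by ring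

theorem cell_sep {K : ℕ} (hK : 1 ≤ K) {i j : ℤ} (hij : 3 ≤ |j - i|) {u v : ℝ} (hu : |u - i / K| ≤ (5/4) / K)
    (hv : |v - j / K| ≤ (5/4) / K) : 1 / (2 * K) ≤ |u - v| := by
  have hK0 : (0:ℝ) < K := by exact_mod_cast hK
  have h1 : (3:ℝ) / K ≤ |(j:ℝ) / K - i / K| := by
    rw [← sub_div, abs_div, abs_of_pos hK0]
    gcongr
    exact_mod_cast hij
  have h2 : |(j:ℝ) / K - i / K| ≤ |u - v| + (5/4) / K + (5/4) / K := by
    calc |(j:ℝ) / K - i / K| = |(-(u - v) + (u - i / K)) - (v - j / K)| := by congr 1; ring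
      _ ≤ |-(u - v) + (u - i / K)| + |v - j / K| := abs_sub _ _
      _ ≤ (|-(u - v)| + |u - i / K|) + |v - j / K| := by gcongr; exact abs_add_le _ _
      _ ≤ _ := by rw [abs_neg]; linarith
  have e : (1:ℝ) / (2 * K) = 3 / K - (5/4) / K - (5/4) / K := by
    field_simp
    norm_num
  rw [e]
  linarith

/-- the evolution of a piece is the sum over the cubes -/
theorem ev_piece_eq {K : ℕ} (hK : 1 ≤ K) {i : ℤ} (hi : |i| ≤ K) {η : ℝ} (hη : 0 < η) {N : ℕ} (hN : 400 ≤ N * η)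
    {h : ℝ → ℝ} (hh : Measurable h) {f : E2 → ℂ} (hf : Adm volume f) (t : ℝ) (x : E2) :
    ev h t (piece K i f) x = ∑ a ∈ Finset.Icc (-(N:ℤ)) N ×ˢ Finset.Icc (-(N:ℤ)) N, Vw h (mkl K i η a) f (st3 t x) := by
  set S := Finset.Icc (-(N:ℤ)) N ×ˢ Finset.Icc (-(N:ℤ)) N with hS
  unfold Vw
  simp only [xy_st3, st3_two]
  unfold ev
  simp_rw [inv2_eq]
  have hm : Measurable (fun ξ : E2 => cexp (2 * Real.pi * I * (t * qh h ξ : ℝ))) := by
    have hq : Measurable (qh h) := measurable_qh hh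
    fun_prop
  rw [← integral_finset_sum]
  · congr 1
    ext ξ
    rw [← Finset.mul_sum, ← Finset.mul_sum]
    congr 2
    have : ∀ a ∈ S, 𝓕 (Pm (mkl K i η a) f) ξ = phc η a ξ * (mj K i ξ * 𝓕 f ξ) := by
      intro a ha
      rw [fourier_Pm (mul_mkl hK hi η ha) hf]
      unfold mkl
      ring
    rw [Finset.sum_congr rfl this, ← Finset.sum_mul, fourier_piece hK i hf]
    by_cases hξ : mj K i ξ = 0
    · rw [hξ]; simp
    · have hG := mj_Gbig hK hi hξ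
      have h0 : 0 ≤ ξ 0 := by linarith [hG.1]
      rw [sum_phc hη (N := N) (ξ := ξ), one_mul]
      · rw [abs_of_nonneg h0]; linarith [hG.2.1]
      · exact hG.2.2.trans (by linarith [hG.2.1])
  · intro a ha
    have hm1 := mul_mkl hK hi η ha
    have hii := integrable_fourier_of_FS (adm_Pm hm1 hf).int isCompact_Gbig (FS_Pm hm1 hf)
    refine hii.norm.mono' ?_ ?_
    · have h2 : AEStronglyMeasurable (𝓕 (Pm (mkl K i η a) f)) volume := hii.aestronglyMeasurable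
      have h3 : Measurable (fun ξ : E2 => cexp (((2 * Real.pi * (x 0 * ξ 0 + x 1 * ξ 1) : ℝ) : ℂ) * I)) := by
        fun_prop
      exact h3.aestronglyMeasurable.mul (hm.aestronglyMeasurable.mul h2)
    · filter_upwards with ξ
      have e : (2 * Real.pi * I * (t * qh h ξ : ℝ) : ℂ) = ((2 * Real.pi * (t * qh h ξ) : ℝ) : ℂ) * I := by
        push_cast; ring
      rw [norm_mul, norm_mul, Complex.norm_exp_ofReal_mul_I, one_mul, e,
        Complex.norm_exp_ofReal_mul_I, one_mul]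

theorem Vw_zero {B : ℝ} {m : E2 → ℂ} (hm : Mul B m) (h : ℝ → ℝ) {f : E2 → ℂ} (hf : Adm volume f)
    (h0 : ∀ ξ, m ξ = 0) (z : E3) : Vw h m f z = 0 := by
  rw [Vw_eq hm h hf]
  unfold Vf ap
  simp [h0]

theorem stTS : StTS := by
  intro c C C1 ε hc hε K hK
  by_cases hcC : c ≤ C
  swap
  · refine ⟨0, le_rfl, ?_⟩
    intro h n hh
    exact absurd ((hh.lower 0).trans (hh.upper 0)) hcC
  have hC0 : 0 < C := by linarith
  have hK0 : (1:ℝ) ≤ K := by exact_mod_cast hK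
  set ε' := min ε 1 with hε'
  have hε'0 : 0 < ε' := lt_min hε one_pos
  set ν : ℝ := c ^ 2 / 4 * (1 / (2 * K)) ^ 3 with hν
  have hν0 : 0 < ν := by rw [hν]; positivity
  obtain ⟨θ, hθ, hθ2, hcore⟩ := ts_core c C C1 ε' ν (25 * C) hc hcC hε'0 (min_le_right _ _) hν0 (by positivity)
  set η : ℝ := min (1 / (4800 * K)) (θ / (28800 * C)) with hηd
  have hη : 0 < η := by rw [hηd]; positivity
  have hηK : 4800 * K * η ≤ 1 := by
    have : η ≤ 1 / (4800 * K) := min_le_left _ _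
    rw [le_div_iff₀ (by positivity)] at this
    linarith
  have hη2 : η ≤ 1/4800 := by nlinarith
  have hηθ : 14400 * C * (2 * η) ≤ θ := by
    have : η ≤ θ / (28800 * C) := min_le_right _ _
    rw [le_div_iff₀ (by positivity)] at this
    linarith
  set N : ℕ := ⌈400 / η⌉₊ with hN
  have hNη : 400 ≤ N * η := by
    have := Nat.le_ceil (400 / η)
    rwa [div_le_iff₀ hη] at this
  set S : Finset (ℤ × ℤ) := Finset.Icc (-(N:ℤ)) N ×ˢ Finset.Icc (-(N:ℤ)) N with hS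
  obtain ⟨A, hA, hcore⟩ := hcore (2 * η) (Bkl K η S) (by positivity) (Bkl_nonneg _ _ _)
  refine ⟨(S.card : ℝ) ^ 3 * A, by positivity, ?_⟩
  intro h n hh hn c' H R hH hHR f hf i j k hi hj hk hij hik hjk
  have hH0 : 0 < H := by linarith
  have hR0 : 0 < R := by linarith
  have hhm := hh.smooth.continuous.measurable
  set F3 := ∫⁻ x, ‖f x‖ₑ ^ (3:ℝ) with hF3
  have hF3' : F3 = ∫⁻ x, ‖f x‖ₑ ^ 3 := by
    rw [hF3]; refine lintegral_congr fun x => ?_; exact_mod_cast ENNReal.rpow_natCast ‖f x‖ₑ 3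
  set V : ℤ → ℤ × ℤ → E3 → ℂ := fun i a => Vw h (mkl K i η a) f with hV
  have mV : ∀ i, |i| ≤ (K:ℤ) → ∀ a ∈ S, Measurable (V i a) := fun i hi a ha =>
    measurable_Vw (mul_mkl hK hi η ha) hh hf
  -- bound for a triple of cubes
  have hpart : ∀ a ∈ S, ∀ b ∈ S, ∀ d ∈ S, ∫⁻ z in Sl n c' H R, ‖V i a z‖ₑ * ‖V j b z‖ₑ * ‖V k d z‖ₑ ≤
      ENNReal.ofReal (A * R ^ ε' * (H * R) ^ (1/2:ℝ)) * F3 := by
    intro a ha b hb d hd
    have triv : (∀ z, ‖V i a z‖ₑ * ‖V j b z‖ₑ * ‖V k d z‖ₑ = 0) →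
        ∫⁻ z in Sl n c' H R, ‖V i a z‖ₑ * ‖V j b z‖ₑ * ‖V k d z‖ₑ ≤
      ENNReal.ofReal (A * R ^ ε' * (H * R) ^ (1/2:ℝ)) * F3 := by
      intro h0
      simp [h0]
    by_cases n1 : ∀ ξ, mkl K i η a ξ = 0
    · apply triv
      intro z
      simp only [hV]
      rw [Vw_zero (mul_mkl hK hi η ha) h hf n1]; simp
    by_cases n2 : ∀ ξ, mkl K j η b ξ = 0
    · apply triv
      intro z
      simp only [hV]
      rw [Vw_zero (mul_mkl hK hj η hb) h hf n2]; simp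
    by_cases n3 : ∀ ξ, mkl K k η d ξ = 0
    · apply triv
      intro z
      simp only [hV]
      rw [Vw_zero (mul_mkl hK hk η hd) h hf n3]; simp
    push Not at n1 n2 n3
    obtain ⟨ξ1, n1⟩ := n1
    obtain ⟨ξ2, n2⟩ := n2
    obtain ⟨ξ3, n3⟩ := n3
    set ii : Fin 3 → ℤ := ![i, j, k] with hii
    set aa : Fin 3 → ℤ × ℤ := ![a, b, d] with haa
    have hne : ∀ r, |ii r| ≤ (K:ℤ) ∧ aa r ∈ S ∧ ∃ ξ, mkl K (ii r) η (aa r) ξ ≠ 0 := by
      intro r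
      fin_cases r
      · exact ⟨hi, ha, ξ1, n1⟩
      · exact ⟨hj, hb, ξ2, n2⟩
      · exact ⟨hk, hd, ξ3, n3⟩
    have geo : ∀ r, 1/200 - η ≤ (ccr η (aa r)).1 ∧ |(ccr η (aa r)).2| ≤ 2 * (ccr η (aa r)).1 + 3 * η ∧
        |(ccr η (aa r)).2 / (ccr η (aa r)).1 - (ii r : ℤ) / K| ≤ (5/4) / K := by
      intro r
      obtain ⟨h1, h2, ξ, h3⟩ := hne r
      exact cell_geom hK h1 hη hηK h3
    have := hcore h n hh hn c' H R hH hHR (fun r => mkl K (ii r) η (aa r)) (fun r => ccr η (aa r))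
      (fun r => slp h ((ccr η (aa r)).2 / (ccr η (aa r)).1)) (fun r => mul_mkl hK (hne r).1 η (hne r).2.1)
      (by
        refine det_sep hh hc (by positivity) ?_ ?_ ?_
        · exact cell_sep hK hij (geo 0).2.2 (geo 1).2.2
        · exact cell_sep hK hjk (geo 1).2.2 (geo 2).2.2
        · exact cell_sep hK hik (geo 0).2.2 (geo 2).2.2)
      (by
        intro r
        apply hh.slp_bdd hc
        obtain ⟨g1, g2, _⟩ := geo r
        have g0 : 0 < (ccr η (aa r)).1 := by linarith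
        rw [abs_div, abs_of_pos g0, div_le_iff₀ g0]
        linarith)
      (by
        intro r
        obtain ⟨g1, g2, _⟩ := geo r
        apply linAt_qp hh hc (by positivity) (by linarith) hηθ
        · linarith
        · linarith)
      (by
        intro r ξ hξ
        obtain ⟨p1, p2⟩ := phc_supp hη (right_ne_zero_of_mul hξ)
        rw [Prod.norm_def, max_le_iff]
        have e : 2 * η / 2 = η := by ring
        rw [e]
        exact ⟨p1, p2⟩)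
      f hf
    rw [hF3']
    exact this
  -- assembling
  have hmG : Measurable (fun z => ‖∑ a ∈ S, V i a z‖ₑ * ‖∑ a ∈ S, V j a z‖ₑ * ‖∑ a ∈ S, V k a z‖ₑ) := by
    have m1 : Measurable (fun z => ∑ a ∈ S, V i a z) := Finset.measurable_sum _ fun a ha => mV i hi a ha
    have m2 : Measurable (fun z => ∑ a ∈ S, V j a z) := Finset.measurable_sum _ fun a ha => mV j hj a ha
    have m3 : Measurable (fun z => ∑ a ∈ S, V k a z) := Finset.measurable_sum _ fun a ha => mV k hk a ha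
    exact (m1.enorm.mul m2.enorm).mul m3.enorm
  have hLHS : ∫⁻ t in Icc (-R) R, ∫⁻ x in slabAt n c' H t,
      ‖ev h t (piece K i f) x‖ₑ * ‖ev h t (piece K j f) x‖ₑ * ‖ev h t (piece K k f) x‖ₑ =
      ∫⁻ z in Sl n c' H R, ‖∑ a ∈ S, V i a z‖ₑ * ‖∑ a ∈ S, V j a z‖ₑ * ‖∑ a ∈ S, V k a z‖ₑ := by
    rw [slab_E3 n c' H R hmG]
    refine lintegral_congr fun t => ?_
    refine lintegral_congr fun x => ?_
    rw [ev_piece_eq hK hi hη hNη hhm hf, ev_piece_eq hK hj hη hNη hhm hf, ev_piece_eq hK hk hη hNη hhm hf]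
  rw [hLHS]
  calc ∫⁻ z in Sl n c' H R, ‖∑ a ∈ S, V i a z‖ₑ * ‖∑ a ∈ S, V j a z‖ₑ * ‖∑ a ∈ S, V k a z‖ₑ ≤
      ∫⁻ z in Sl n c' H R, ∑ a ∈ S, ∑ b ∈ S, ∑ d ∈ S, ‖V i a z‖ₑ * ‖V j b z‖ₑ * ‖V k d z‖ₑ := by
        refine lintegral_mono fun z => ?_
        calc ‖∑ a ∈ S, V i a z‖ₑ * ‖∑ a ∈ S, V j a z‖ₑ * ‖∑ a ∈ S, V k a z‖ₑ ≤
            (∑ a ∈ S, ‖V i a z‖ₑ) * (∑ b ∈ S, ‖V j b z‖ₑ) * (∑ d ∈ S, ‖V k d z‖ₑ) := by
              gcongr
              · exact enorm_sum_le _ _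
              · exact enorm_sum_le _ _
              · exact enorm_sum_le _ _
          _ = _ := by
              rw [Finset.sum_mul_sum, Finset.sum_mul]
              refine Finset.sum_congr rfl fun a _ => ?_
              rw [Finset.sum_mul_sum]
    _ = ∑ a ∈ S, ∑ b ∈ S, ∑ d ∈ S, ∫⁻ z in Sl n c' H R, ‖V i a z‖ₑ * ‖V j b z‖ₑ * ‖V k d z‖ₑ := by
        have mm : ∀ a ∈ S, ∀ b ∈ S, ∀ d ∈ S, Measurable (fun z => ‖V i a z‖ₑ * ‖V j b z‖ₑ * ‖V k d z‖ₑ) :=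
          fun a ha b hb d hd => ((mV i hi a ha).enorm.mul (mV j hj b hb).enorm).mul (mV k hk d hd).enorm
        rw [lintegral_finset_sum' _ (fun a ha => (Finset.measurable_sum _ fun b hb =>
          Finset.measurable_sum _ fun d hd => mm a ha b hb d hd).aemeasurable)]
        refine Finset.sum_congr rfl fun a ha => ?_
        rw [lintegral_finset_sum' _ (fun b hb => (Finset.measurable_sum _ fun d hd => mm a ha b hb d hd).aemeasurable)]
        refine Finset.sum_congr rfl fun b hb => ?_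
        rw [lintegral_finset_sum' _ (fun d hd => (mm a ha b hb d hd).aemeasurable)]
    _ ≤ ∑ a ∈ S, ∑ b ∈ S, ∑ d ∈ S, ENNReal.ofReal (A * R ^ ε' * (H * R) ^ (1/2:ℝ)) * F3 := by
        refine Finset.sum_le_sum fun a ha => Finset.sum_le_sum fun b hb => Finset.sum_le_sum fun d hd => ?_
        exact hpart a ha b hb d hd
    _ = ENNReal.ofReal ((S.card : ℝ) ^ 3 * A * R ^ ε' * (H * R) ^ (1/2:ℝ)) * F3 := by
        simp only [Finset.sum_const, nsmul_eq_mul]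
        have e : (S.card : ℝ) ^ 3 * A * R ^ ε' * (H * R) ^ (1/2:ℝ) =
            (S.card : ℝ) ^ 3 * (A * R ^ ε' * (H * R) ^ (1/2:ℝ)) := by ring
        have e5 : ∀ X : ℝ, ENNReal.ofReal ((S.card : ℝ) ^ 3 * X) = (S.card : ℝ≥0∞) ^ 3 * ENNReal.ofReal X := by
          intro X
          rw [ENNReal.ofReal_mul (by positivity), ENNReal.ofReal_pow (by positivity), ENNReal.ofReal_natCast]
        rw [e, e5]
        ring
    _ ≤ _ := by
        refine mul_le_mul' (ENNReal.ofReal_le_ofReal ?_) le_rfl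
        have h1 : R ^ ε' ≤ R ^ ε := Real.rpow_le_rpow_of_exponent_le (by linarith) (min_le_left _ _)
        gcongr

end Vale.Agent.P106
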